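import Mathlib

/-!
# P217, question 1: basic definitions

The Lubin-Tate ring, the universal deformation through its functional-equation logarithm,
invariance of an ideal under the symmetries of the universal deformation, the height ideals.
-/

noncomputable section

namespace Vale.Agent.P217

/-- The Lubin-Tate ring: power series in n-1 variables over the Witt vectors of the field
with p^n elements. -/
abbrev E0 (p n : ℕ) [Fact p.Prime] : Type :=
  MvPowerSeries (Fin (n - 1)) (WittVector p (GaloisField p n))

variable (p n : ℕ) [Fact p.Prime]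

/-- The parameters: v i = u_i for 1 ≤ i < n, v n = 1, and 0 otherwise. -/
def vv (i : ℕ) : E0 p n :=
  if h : 1 ≤ i ∧ i < n then MvPowerSeries.X ⟨i - 1, by omega⟩ else if i = n then 1 else 0

/-- The Lubin-Tate ring with p inverted. -/
abbrev E0Inv : Type := Localization.Away (p : E0 p n)

/-- Coefficients of the logarithm: m 0 = 1 and p * m k = sum over 1 ≤ i ≤ k, i ≤ n of
m (k - i) * (v i) ^ (p ^ (k - i)). -/
def logCoeff : ℕ → E0Inv p n
  | 0 => 1
  | k + 1 => IsLocalization.Away.invSelf (p : E0 p n) *
      ∑ j : Fin (k + 1),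
        if (k + 1 - j.1) ≤ n then
          logCoeff j.1 * algebraMap (E0 p n) (E0Inv p n) (vv p n (k + 1 - j.1)) ^ (p ^ j.1)
        else 0

/-- The logarithm: the sum over k of (m k) * X ^ (p ^ k). -/
def logSeries : PowerSeries (E0Inv p n) :=
  PowerSeries.mk fun N => if N = p ^ Nat.log p N then logCoeff p n (Nat.log p N) else 0

/-- F is the universal deformation of the Honda formal group of height n: its logarithm over
E0 with p inverted is logSeries. -/
def IsUniversalDeformation (F : FormalGroup (E0 p n)) : Prop :=
  PowerSeries.subst (F.map (algebraMap (E0 p n) (E0Inv p n))).toPowerSeries (logSeries p n) =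
    PowerSeries.subst (MvPowerSeries.X 0 : MvPowerSeries (Fin 2) (E0Inv p n)) (logSeries p n) +
      PowerSeries.subst (MvPowerSeries.X 1 : MvPowerSeries (Fin 2) (E0Inv p n)) (logSeries p n)

variable {p n}

/-- A symmetry of the deformation F: a ring automorphism s of E0 for which F is isomorphic,
as a formal group law over E0, to the law obtained by applying s to the coefficients of F. -/
def IsSymmetry (F : FormalGroup (E0 p n)) (s : E0 p n ≃+* E0 p n) : Prop :=
  ∃ φ : PowerSeries (E0 p n), PowerSeries.constantCoeff φ = 0 ∧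
    IsUnit (PowerSeries.coeff 1 φ) ∧
    PowerSeries.subst F.toPowerSeries φ =
      MvPowerSeries.subst
        ![PowerSeries.subst (MvPowerSeries.X 0 : MvPowerSeries (Fin 2) (E0 p n)) φ,
          PowerSeries.subst (MvPowerSeries.X 1 : MvPowerSeries (Fin 2) (E0 p n)) φ]
        (F.map s.toRingHom).toPowerSeries

/-- An ideal is invariant when every symmetry of F maps it onto itself. -/
def IsInvariantIdeal (F : FormalGroup (E0 p n)) (J : Ideal (E0 p n)) : Prop :=
  ∀ s : E0 p n ≃+* E0 p n, IsSymmetry F s → J.map s.toRingHom = J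

variable (p n)

/-- The height ideals: I 0 = 0 and, for h ≥ 1, I h = (p, u 1, ..., u (h - 1)). -/
def heightIdeal (h : ℕ) : Ideal (E0 p n) :=
  if h = 0 then ⊥ else Ideal.span (insert (p : E0 p n) {x | ∃ i, 1 ≤ i ∧ i < h ∧ x = vv p n i})

/-- The goal: question 1 in full. -/
def ChaiStatement : Prop :=
  ∀ (p n : ℕ) [Fact p.Prime], 1 ≤ n →
    (∃ F : FormalGroup (E0 p n), IsUniversalDeformation p n F) ∧
      ∀ F : FormalGroup (E0 p n), IsUniversalDeformation p n F →
        (∀ P : Ideal (E0 p n), P.IsPrime ∧ IsInvariantIdeal F P ↔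
            ∃ h ≤ n, P = heightIdeal p n h) ∧
          ∀ J : Ideal (E0 p n), J.IsRadical ∧ IsInvariantIdeal F J ↔
            (∃ h ≤ n, J = heightIdeal p n h) ∨ J = ⊤

end Vale.Agent.P217
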