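import Mathlib
import Vale.Agent.P217.Defs

/-!
# P217, question 1: interfaces between the blocks of the proof

The proof is in notes/P217/helper9.md. Each block is stated as a Prop, so that the blocks can be
proved independently and the assembly can be written against them.
-/

noncomputable section

namespace Vale.Agent.P217

open scoped Classical

variable {p : ℕ} [Fact p.Prime]

/-- Value of a power series with coefficients in R at a point of C, through j. -/
def peval {R C : Type} [CommRing R] [NormedField C] (j : R →+* C) (f : PowerSeries R) (y : C) : C :=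
  ∑' k : ℕ, j (PowerSeries.coeff k f) * y ^ k

/-- Value of a power series in several variables at a point of C, through j. -/
def mveval {R C : Type} {d : ℕ} [CommRing R] [NormedField C] (j : R →+* C)
    (f : MvPowerSeries (Fin d) R) (y : Fin d → C) : C :=
  ∑' a : Fin d →₀ ℕ, j (MvPowerSeries.coeff a f) * ∏ i, y i ^ a i

/-- The sum of two points of a formal group law. -/
def gadd {C : Type} [NormedField C] (G : FormalGroup C) (a b : C) : C :=
  mveval (RingHom.id C) G.toPowerSeries ![a, b]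

/-- The sum of a list of series in one variable, for a formal group law. -/
def seriesSum {R : Type} [CommRing R] (G : FormalGroup R) : List (PowerSeries R) → PowerSeries R
  | [] => 0
  | a :: as => MvPowerSeries.subst ![a, seriesSum G as] G.toPowerSeries

/-- Multiplication by k in a formal group law, as a series. -/
def nsmulSeries {R : Type} [CommRing R] (G : FormalGroup R) (k : ℕ) : PowerSeries R :=
  seriesSum G (List.replicate k PowerSeries.X)

/-- The series sum over j, in the law G, of (t j) * X ^ (p ^ j). -/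
def digitSeries (p : ℕ) {R : Type} [CommRing R] (G : FormalGroup R) (t : ℕ → R) : PowerSeries R :=
  PowerSeries.mk fun N => PowerSeries.coeff N
    (seriesSum G ((List.range (N + 1)).map fun j => PowerSeries.C (t j) * PowerSeries.X ^ (p ^ j)))

/-- F is the lift over the p-adic integers of the Honda law of height h. -/
def IsHondaLift (h : ℕ) (F : FormalGroup ℤ_[p]) : Prop :=
  let f : PowerSeries ℚ_[p] := PowerSeries.mk fun N =>
    if N = p ^ Nat.log p N ∧ h ∣ Nat.log p N then 1 / (p : ℚ_[p]) ^ (Nat.log p N / h) else 0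
  PowerSeries.subst (F.map (algebraMap ℤ_[p] ℚ_[p])).toPowerSeries f =
    PowerSeries.subst (MvPowerSeries.X 0 : MvPowerSeries (Fin 2) ℚ_[p]) f +
      PowerSeries.subst (MvPowerSeries.X 1 : MvPowerSeries (Fin 2) ℚ_[p]) f

/-- The Honda law over a ring of characteristic p. -/
def hondaIn (F : FormalGroup ℤ_[p]) (R : Type) [CommRing R] [CharP R p] : FormalGroup R :=
  F.map ((ZMod.castHom (dvd_refl p) R).comp PadicInt.toZMod)

variable {n : ℕ}

/-- The residue map of E0. -/
def residue : E0 p n →+* GaloisField p n :=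
  WittVector.constantCoeff.comp MvPowerSeries.constantCoeff

/-- The constants of E0. -/
def constants : WittVector p (GaloisField p n) →+* E0 p n := MvPowerSeries.C

/-- s is a symmetry through the series ψ, a map from s F to F whose linear term is a unit. -/
def IsSymmetryWith (F : FormalGroup (E0 p n)) (s : E0 p n ≃+* E0 p n)
    (ψ : PowerSeries (E0 p n)) : Prop :=
  IsSymmetry F s ∧ PowerSeries.constantCoeff ψ = 0 ∧ IsUnit (PowerSeries.coeff 1 ψ) ∧
    PowerSeries.subst (F.map s.toRingHom).toPowerSeries ψ =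
      MvPowerSeries.subst
        ![PowerSeries.subst (MvPowerSeries.X 0 : MvPowerSeries (Fin 2) (E0 p n)) ψ,
          PowerSeries.subst (MvPowerSeries.X 1 : MvPowerSeries (Fin 2) (E0 p n)) ψ]
        F.toPowerSeries

/-- Digits of gamma = 1 + p ^ l * c. -/
def deepDigits {R : Type} [CommRing R] (n l : ℕ) (c : ℕ → R) (j : ℕ) : R :=
  if j = 0 then 1 else if n * l ≤ j then c (j - n * l) else 0

/-- Block A: existence, primality and invariance of the height ideals. -/
def BlockA : Prop :=
  ∀ (p n : ℕ) [Fact p.Prime], 1 ≤ n →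
    (∃ F : FormalGroup (E0 p n), IsUniversalDeformation p n F) ∧
      (∀ h, 1 ≤ h → ∃ G : FormalGroup ℤ_[p], IsHondaLift h G) ∧
      ∀ F : FormalGroup (E0 p n), IsUniversalDeformation p n F →
        (∀ h ≤ n, (heightIdeal p n h).IsPrime ∧ IsInvariantIdeal F (heightIdeal p n h)) ∧
          heightIdeal p n n = IsLocalRing.maximalIdeal (E0 p n)

/-- Block B: deep symmetries (for n = 1 there is nothing to move and they are not needed). -/
def BlockB : Prop :=
  ∀ (p n : ℕ) [Fact p.Prime], 2 ≤ n → ∀ F : FormalGroup (E0 p n), IsUniversalDeformation p n F →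
    ∀ c : ℕ → GaloisField p n, ∃ l₂ : ℕ, ∃ (s : ℕ → E0 p n ≃+* E0 p n)
      (ψ : ℕ → PowerSeries (E0 p n)),
      (∀ l, l₂ ≤ l → IsSymmetryWith F (s l) (ψ l) ∧
        (∀ a, s l (constants a) = constants a) ∧
        PowerSeries.map residue (ψ l) =
          digitSeries p (F.map residue) (deepDigits n l c)) ∧
      ∀ N K : ℕ, ∃ lN, ∀ l, lN ≤ l →
        (∀ i, s l (vv p n i) - vv p n i ∈ IsLocalRing.maximalIdeal (E0 p n) ^ N) ∧
        ∀ k < K, PowerSeries.coeff k (ψ l) - PowerSeries.coeff k PowerSeries.X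
          ∈ IsLocalRing.maximalIdeal (E0 p n) ^ N

/-- A point in positive characteristic at the stratum h, close to the origin. -/
structure GoodPoint (p n h : ℕ) [Fact p.Prime] (C : Type) [NormedField C] where
  /-- the ring map -/
  chi : E0 p n →+* C
  /-- the embedding of the residue field -/
  emb : GaloisField p n →+* C
  chi_constants : ∀ a, chi (constants a) = emb (WittVector.constantCoeff a)
  chi_zero : ∀ i, i < h → chi (vv p n i) = 0
  chi_h : chi (vv p n h) ≠ 0
  chi_small : ∀ a ∈ IsLocalRing.maximalIdeal (E0 p n), ‖chi a‖ ≤ (p : ℝ)⁻¹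

/-- Block C, positive characteristic. -/
def BlockC : Prop :=
  ∀ (p n h : ℕ) [Fact p.Prime] (C : Type) [NontriviallyNormedField C] [IsUltrametricDist C]
    [CompleteSpace C] [IsAlgClosed C] [CharP C p],
    1 ≤ h → h < n → ∀ J : Ideal (E0 p n), J.IsRadical →
      heightIdeal p n h ≤ J → vv p n h ∉ J →
        ∃ P : GoodPoint p n h C, ∀ a ∈ J, P.chi a = 0

/-- Block C, characteristic zero. -/
def BlockC0 : Prop :=
  ∀ (p n : ℕ) [Fact p.Prime], 1 ≤ n → ∀ J : Ideal (E0 p n), J.IsRadical → (p : E0 p n) ∉ J →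
    ∃ χ : E0 p n →+* PadicComplex p, (∀ a ∈ J, χ a = 0) ∧
      ∀ a ∈ IsLocalRing.maximalIdeal (E0 p n), ‖χ a‖ < 1

/-- The closed unit ball as a subring. -/
def unitBall (C : Type) [NormedField C] [IsUltrametricDist C] : Subring C where
  carrier := {a | ‖a‖ ≤ 1}
  one_mem' := by simp
  zero_mem' := by simp
  mul_mem' := fun {a b} ha hb => by
    simpa using mul_le_one₀ (ha : ‖a‖ ≤ 1) (norm_nonneg b) hb
  add_mem' := fun {a b} ha hb => le_trans (IsUltrametricDist.norm_add_le_max a b) (max_le ha hb)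
  neg_mem' := fun {a} ha => by simpa using ha

/-- The untilt data of C: a multiplicative map into C_p and the map theta. -/
structure Untilt (p : ℕ) [Fact p.Prime] (C : Type) [NormedField C] [IsUltrametricDist C] where
  /-- the sharp map -/
  sharp : C → PadicComplex p
  sharp_one : sharp 1 = 1
  sharp_mul : ∀ a b, ‖a‖ ≤ 1 → ‖b‖ ≤ 1 → sharp (a * b) = sharp a * sharp b
  norm_sharp : ∀ a, ‖a‖ ≤ 1 → ‖sharp a‖ = ‖a‖
  sharp_add : ∀ a b, ‖a‖ ≤ 1 → ‖b‖ ≤ 1 →
    ‖sharp (a + b) - (sharp a + sharp b)‖ ≤ (p : ℝ)⁻¹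
  sharp_surj : ∀ w : PadicComplex p, ‖w‖ ≤ 1 → ∃ a, ‖a‖ ≤ 1 ∧ ‖sharp a - w‖ ≤ (p : ℝ)⁻¹
  /-- the map theta on Witt vectors of the unit ball -/
  theta : WittVector p (unitBall C) →+* PadicComplex p
  theta_teichmuller : ∀ a : unitBall C,
    theta (WittVector.teichmuller p a) = sharp (a : C)
  theta_small : ∀ a, ‖theta a - sharp ((WittVector.constantCoeff a : unitBall C) : C)‖
    ≤ (p : ℝ)⁻¹

/-- Integer powers of p in the exponent. -/
def ppow {C : Type} [Field C] [CharP C p] [IsAlgClosed C] (y : C) : ℤ → C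
  | (Int.ofNat a) => y ^ p ^ a
  | (Int.negSucc a) => (frobeniusEquiv C p).symm^[a + 1] y

/-- The linearisation into k copies of C_p. -/
def linVec {C : Type} [NormedField C] [IsUltrametricDist C] [CharP C p] [IsAlgClosed C]
    (T : Untilt p C) (k : ℕ) (y : C) (s : Fin k) : PadicComplex p :=
  ∑' j : ℤ, T.sharp (ppow (p := p) y (k * j + s)) * (p : PadicComplex p) ^ (-j)

/-- Series with coefficients fixed by a ↦ a ^ Q. -/
def FixedSeries {C : Type} [Field C] {d : ℕ} (Q : ℕ) (f : MvPowerSeries (Fin d) C) : Prop :=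
  ∀ a, MvPowerSeries.coeff a f ^ Q = MvPowerSeries.coeff a f

/-- An endomorphism of G with coefficients fixed by a ↦ a ^ Q. -/
def IsFixedEnd {C : Type} [Field C] (Q : ℕ) (G : FormalGroup C) (b : PowerSeries C) : Prop :=
  (∀ k, PowerSeries.coeff k b ^ Q = PowerSeries.coeff k b) ∧ PowerSeries.constantCoeff b = 0 ∧
    PowerSeries.subst G.toPowerSeries b = MvPowerSeries.subst
      ![PowerSeries.subst (MvPowerSeries.X 0 : MvPowerSeries (Fin 2) C) b,
        PowerSeries.subst (MvPowerSeries.X 1 : MvPowerSeries (Fin 2) C) b] G.toPowerSeries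

/-- The sum of a list of points. -/
def pointSum {C : Type} [NormedField C] (G : FormalGroup C) : List C → C
  | [] => 0
  | a :: as => gadd G a (pointSum G as)

/-- A group of points in the open polydisc, stable under a ↦ a ^ Q. -/
def IsPointGroup {C : Type} [NormedField C] {d : ℕ} (G : FormalGroup C) (Q : ℕ)
    (S : Set (Fin d → C)) : Prop :=
  (∀ μ ∈ S, ∀ i, ‖μ i‖ < 1) ∧ (0 : Fin d → C) ∈ S ∧
    (∀ μ ∈ S, ∀ ν ∈ S, (fun i => gadd G (μ i) (ν i)) ∈ S) ∧
    (∀ μ ∈ S, ∃ ν ∈ S, ∀ i, gadd G (μ i) (ν i) = 0) ∧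
    ∀ μ ∈ S, (fun i => μ i ^ Q) ∈ S

/-- Block H (uses descent): a group of points killed by a nonzero fixed series satisfies a
nontrivial linear relation over the fixed endomorphisms. -/
def BlockH : Prop :=
  ∀ (p h d : ℕ) [Fact p.Prime] (C : Type) [NontriviallyNormedField C] [IsUltrametricDist C]
    [CompleteSpace C] [IsAlgClosed C] [CharP C p] (G₀ : FormalGroup ℤ_[p]),
    1 ≤ h → IsHondaLift h G₀ → ∀ S : Set (Fin d → C),
      IsPointGroup (hondaIn G₀ C) (p ^ h) S →
      (∃ f : MvPowerSeries (Fin d) C, f ≠ 0 ∧ FixedSeries (p ^ h) f ∧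
        ∀ μ ∈ S, mveval (RingHom.id C) f μ = 0) →
      ∃ b : Fin d → PowerSeries C, (∀ j, IsFixedEnd (p ^ h) (hondaIn G₀ C) (b j)) ∧
        (∃ j, b j ≠ 0) ∧
        ∀ μ ∈ S, pointSum (hondaIn G₀ C)
          (List.ofFn fun j => peval (RingHom.id C) (b j) (μ j)) = 0

/-- The k-fold sum of a point with itself. -/
def nPoint {C : Type} [NormedField C] (G : FormalGroup C) (k : ℕ) (z : C) : C :=
  pointSum G (List.replicate k z)

/-- The data produced at a point: kernel elements and the period map. -/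
structure PeriodData (p n h : ℕ) [Fact p.Prime] (C : Type) [NontriviallyNormedField C]
    [IsUltrametricDist C] [CompleteSpace C] [IsAlgClosed C] [CharP C p] (T : Untilt p C)
    (Gn Gh : FormalGroup ℤ_[p]) where
  /-- kernel elements -/
  xi : Fin (n - h) → C
  xi_small : ∀ j, ‖xi j‖ < 1
  /-- the period map -/
  Phi : C → C
  Phi_small : ∀ z, ‖z‖ < 1 → ‖Phi z‖ < 1
  Phi_zero : Phi 0 = 0
  Phi_add : ∀ a b, ‖a‖ < 1 → ‖b‖ < 1 →
    Phi (gadd (hondaIn Gn C) a b) = gadd (hondaIn Gh C) (Phi a) (Phi b)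
  Phi_pow : ∀ z, ‖z‖ < 1 → Phi (z ^ p ^ n) = Phi z ^ p ^ h
  Phi_surj : ∀ w, ‖w‖ < 1 → ∃ z, ‖z‖ < 1 ∧ Phi z = w
  /-- the linearised period map -/
  mat : Matrix (Fin h) (Fin n) (PadicComplex p)
  linearised : ∀ z, ‖z‖ < 1 → linVec T h (Phi z) = mat.mulVec (linVec T n z)
  xi_indep : ∀ a : Fin (n - h) → ℤ_[p],
    (∀ ε : ℝ, 0 < ε → ∃ N, ∀ m, N ≤ m → ‖pointSum (hondaIn Gn C)
      (List.ofFn fun j => nPoint (hondaIn Gn C) ((a j).appr m) (xi j))‖ < ε) → a = 0

/-- Blocks E, F and G: at a point killing a stable ideal larger than I h, the period data exist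
and their orbit is killed by a nonzero fixed series. -/
def BlockEF : Prop :=
  ∀ (p n h : ℕ) [Fact p.Prime] (C : Type) [NontriviallyNormedField C] [IsUltrametricDist C]
    [CompleteSpace C] [IsAlgClosed C] [CharP C p] (T : Untilt p C) (Gn Gh : FormalGroup ℤ_[p]),
    1 ≤ h → h < n → IsHondaLift n Gn → IsHondaLift h Gh →
      ∀ F : FormalGroup (E0 p n), IsUniversalDeformation p n F →
        ∀ J : Ideal (E0 p n), IsInvariantIdeal F J → ¬ J ≤ heightIdeal p n h →
          ∀ P : GoodPoint p n h C, (∀ a ∈ J, P.chi a = 0) →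
            ∃ D : PeriodData p n h C T Gn Gh, ∃ S : Set (Fin (n - h) → C),
              IsPointGroup (hondaIn Gh C) (p ^ h) S ∧
              (∀ c : PowerSeries C, IsFixedEnd (p ^ n) (hondaIn Gn C) c →
                (fun j => D.Phi (peval (RingHom.id C) c (D.xi j))) ∈ S) ∧
              ∃ f : MvPowerSeries (Fin (n - h)) C, f ≠ 0 ∧ FixedSeries (p ^ h) f ∧
                ∀ μ ∈ S, mveval (RingHom.id C) f μ = 0

/-- Block I: there is no relation. -/
def BlockI : Prop :=
  ∀ (p n h : ℕ) [Fact p.Prime] (C : Type) [NontriviallyNormedField C] [IsUltrametricDist C]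
    [CompleteSpace C] [IsAlgClosed C] [CharP C p] (T : Untilt p C) (Gn Gh : FormalGroup ℤ_[p]),
    1 ≤ h → h < n → IsHondaLift n Gn → IsHondaLift h Gh →
      ∀ (D : PeriodData p n h C T Gn Gh)
        (b : Fin (n - h) → PowerSeries C),
        (∀ j, IsFixedEnd (p ^ h) (hondaIn Gh C) (b j)) →
        (∀ c : PowerSeries C, IsFixedEnd (p ^ n) (hondaIn Gn C) c →
          pointSum (hondaIn Gh C) (List.ofFn fun j =>
            peval (RingHom.id C) (b j) (D.Phi (peval (RingHom.id C) c (D.xi j)))) = 0) →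
          ∀ j, b j = 0

/-- Block D: the tilt of C_p. -/
def BlockD : Prop :=
  ∀ (p : ℕ) [Fact p.Prime], ∃ (C : Type) (_ : NontriviallyNormedField C)
    (_ : IsUltrametricDist C) (_ : CompleteSpace C) (_ : IsAlgClosed C) (_ : CharP C p),
      Nonempty (Untilt p C)

/-- Block J: the stratum h = 0. -/
def BlockJ : Prop :=
  ∀ (p n : ℕ) [Fact p.Prime], 1 ≤ n → ∀ F : FormalGroup (E0 p n), IsUniversalDeformation p n F →
    ∀ J : Ideal (E0 p n), J.IsRadical → IsInvariantIdeal F J → (p : E0 p n) ∉ J → J = ⊥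

end Vale.Agent.P217
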