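import Mathlib
import Vale.Agent.P217.Interfaces

/-!
# P217, question 1: the statement follows from the blocks
-/

noncomputable section

namespace Vale.Agent.P217

open scoped Classical

theorem chai_of_blocks (hA : BlockA) (hC : BlockC) (hD : BlockD) (hEF : BlockEF) (hH : BlockH)
    (hI : BlockI) (hJ : BlockJ) : ChaiStatement := by
  intro p n hp hn
  obtain ⟨hex, hhonda, hfwd⟩ := hA p n hn
  refine ⟨hex, fun F hF => ?_⟩
  obtain ⟨hid, hmax⟩ := hfwd F hF
  have key : ∀ J : Ideal (E0 p n), J.IsRadical → IsInvariantIdeal F J → J ≠ ⊤ →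
      ∃ h ≤ n, J = heightIdeal p n h := by
    intro J hrad hinv htop
    set w : ℕ → E0 p n := fun i => if i = 0 then (p : E0 p n) else vv p n i with hw
    have hwn : w n = 1 := by
      have hn0 : n ≠ 0 := by omega
      simp [hw, hn0, vv]
    have hexi : ∃ i, w i ∉ J :=
      ⟨n, fun hmem => htop ((Ideal.eq_top_iff_one J).mpr (hwn ▸ hmem))⟩
    set h := Nat.find hexi with hh
    have hle : h ≤ n := Nat.find_min' hexi
      (fun hmem => htop ((Ideal.eq_top_iff_one J).mpr (hwn ▸ hmem)))
    have hlt : ∀ i < h, w i ∈ J := fun i hi => not_not.mp (Nat.find_min hexi hi)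
    have hnot : w h ∉ J := Nat.find_spec hexi
    rcases Nat.eq_zero_or_pos h with h0 | h1
    · refine ⟨0, Nat.zero_le n, ?_⟩
      have hpJ : (p : E0 p n) ∉ J := by simpa [hw, h0] using hnot
      rw [hJ p n hn F hF J hrad hinv hpJ]
      simp [heightIdeal]
    have hsub : heightIdeal p n h ≤ J := by
      unfold heightIdeal
      rw [if_neg (by omega : h ≠ 0), Ideal.span_le]
      intro x hx
      rcases Set.mem_insert_iff.mp hx with rfl | ⟨i, hi1, hi2, rfl⟩
      · simpa [hw] using hlt 0 h1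
      · have hi0 : i ≠ 0 := by omega
        simpa [hw, hi0] using hlt i hi2
    rcases eq_or_lt_of_le hle with heq | hlt'
    · refine ⟨n, le_refl n, ?_⟩
      rw [heq, hmax] at hsub
      rw [hmax]
      exact ((IsLocalRing.maximalIdeal.isMaximal (E0 p n)).eq_of_le htop hsub).symm
    refine ⟨h, hle, le_antisymm ?_ hsub⟩
    by_contra hbig
    obtain ⟨C, iN, iU, iK, iA, iP, ⟨T⟩⟩ := hD p
    obtain ⟨Gn, hGn⟩ := hhonda n hn
    obtain ⟨Gh, hGh⟩ := hhonda h h1
    have hvh : vv p n h ∉ J := by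
      have h0 : h ≠ 0 := by omega
      simpa [hw, h0] using hnot
    obtain ⟨P, hP⟩ := hC p n h C h1 hlt' J hrad hsub hvh
    obtain ⟨D, S, hS, horb, hf⟩ :=
      hEF p n h C T Gn Gh h1 hlt' hGn hGh F hF J hinv hbig P hP
    obtain ⟨b, hb, ⟨j, hj⟩, hrel⟩ := hH p h (n - h) C Gh h1 hGh S hS hf
    exact hj (hI p n h C T Gn Gh h1 hlt' hGn hGh D b hb (fun c hc => hrel _ (horb c hc)) j)
  constructor
  · intro P
    constructor
    · rintro ⟨hP, hinv⟩
      exact key P hP.isRadical hinv hP.ne_top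
    · rintro ⟨h, hh, rfl⟩
      exact hid h hh
  · intro J
    constructor
    · rintro ⟨hrad, hinv⟩
      by_cases htop : J = ⊤
      · exact Or.inr htop
      · exact Or.inl (key J hrad hinv htop)
    · rintro (⟨h, hh, rfl⟩ | rfl)
      · exact ⟨(hid h hh).1.isRadical, (hid h hh).2⟩
      · refine ⟨?_, fun s _ => Ideal.map_top _⟩
        intro x _
        exact Submodule.mem_top

end Vale.Agent.P217
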