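import Mathlib

/-!
# P217: the functional equation lemma

B → K with p invertible in K, a lift φ of the p-th power map on B, parameters v with φ v = v ^ p.
The logarithm is f = sum of (m k) X ^ (p ^ k), with p * m k = sum of m (k - i) * (v i) ^ (p ^ (k - i)).
-/

noncomputable section

namespace Vale.Agent.P217.FE

open MvPowerSeries Finset

/-- The data of the functional equation lemma. -/
structure Setup (B K : Type) [CommRing B] [CommRing K] (p : ℕ) where
  /-- the map to the ring with p inverted -/
  ι : B →+* K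
  inj : Function.Injective ι
  /-- the inverse of p -/
  pinv : K
  p_pinv : (p : K) * pinv = 1
  /-- the lift of the p-th power map -/
  φ : B →+* B
  /-- its extension -/
  φK : K →+* K
  comm : ∀ b, φK (ι b) = ι (φ b)
  frob : ∀ b, (p : B) ∣ φ b - b ^ p
  /-- the parameters -/
  v : ℕ → B
  φ_v : ∀ a, φ (v a) = v a ^ p

variable {B K : Type} [CommRing B] [CommRing K] {p : ℕ}

/-- Logarithm coefficients. -/
def Setup.m (S : Setup B K p) : ℕ → K
  | 0 => 1
  | k + 1 => S.pinv * ∑ j : Fin (k + 1), S.m j.1 * S.ι (S.v (k + 1 - j.1)) ^ p ^ j.1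

namespace Setup

variable (S : Setup B K p)

@[simp] theorem m_zero : S.m 0 = 1 := by rw [Setup.m]

theorem m_succ (k : ℕ) :
    S.m (k + 1) = S.pinv * ∑ j ∈ range (k + 1), S.m j * S.ι (S.v (k + 1 - j)) ^ p ^ j := by
  rw [Setup.m, Fin.sum_univ_eq_sum_range (fun j => S.m j * S.ι (S.v (k + 1 - j)) ^ p ^ j) (k + 1)]

theorem iterate_v (a i : ℕ) : (S.φ ^ a) (S.v i) = S.v i ^ p ^ a := by
  induction a with
  | zero => simp
  | succ a ih =>
    rw [pow_succ', RingHom.coe_mul, Function.comp_apply, ih, map_pow, S.φ_v, ← pow_mul,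
      ← pow_succ']

theorem iterate_comm (a : ℕ) (b : B) : (S.φK ^ a) (S.ι b) = S.ι ((S.φ ^ a) b) := by
  induction a with
  | zero => simp
  | succ a ih =>
    rw [pow_succ', RingHom.coe_mul, Function.comp_apply, ih, S.comm, pow_succ', RingHom.coe_mul,
      Function.comp_apply]

theorem map_pinv (f : K →+* K) : f S.pinv = S.pinv := by
  have h : (p : K) * f S.pinv = 1 := by
    simpa using congrArg f S.p_pinv
  calc f S.pinv = ((p : K) * S.pinv) * f S.pinv := by rw [S.p_pinv, one_mul]
    _ = S.pinv * ((p : K) * f S.pinv) := by ring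
    _ = S.pinv := by rw [h, mul_one]

/-- The second recursion. -/
theorem m_succ' (k : ℕ) : S.m (k + 1) =
    S.pinv * ∑ j ∈ range (k + 1), S.ι (S.v (k + 1 - j)) * (S.φK ^ (k + 1 - j)) (S.m j) := by
  induction k using Nat.strong_induction_on with
  | _ k ih =>
    rw [m_succ]
    congr 1
    -- expand each m j on the left by the second recursion and each on the right by the first
    rw [Finset.sum_range_succ' (fun j => S.m j * S.ι (S.v (k + 1 - j)) ^ p ^ j),
      Finset.sum_range_succ' (fun j => S.ι (S.v (k + 1 - j)) * (S.φK ^ (k + 1 - j)) (S.m j))]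
    simp only [m_zero, pow_zero, pow_one, one_mul, Nat.sub_zero, map_one, mul_one]
    congr 1
    have hL : ∀ j ∈ range k, S.m (j + 1) * S.ι (S.v (k + 1 - (j + 1))) ^ p ^ (j + 1) =
        ∑ i ∈ range (j + 1), S.pinv * S.ι (S.v (j + 1 - i)) * (S.φK ^ (j + 1 - i)) (S.m i) *
          S.ι (S.v (k - j)) ^ p ^ (j + 1) := by
      intro j hj
      rw [ih j (mem_range.mp hj), Nat.add_sub_add_right, Finset.mul_sum, Finset.sum_mul]
      exact Finset.sum_congr rfl fun i _ => by ring
    have hR : ∀ j ∈ range k, S.ι (S.v (k + 1 - (j + 1))) * (S.φK ^ (k + 1 - (j + 1))) (S.m (j + 1)) =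
        ∑ i ∈ range (j + 1), S.pinv * S.ι (S.v (k - j)) * (S.φK ^ (k - j)) (S.m i) *
          S.ι (S.v (j + 1 - i)) ^ p ^ (k - j + i) := by
      intro j hj
      rw [m_succ, Nat.add_sub_add_right, map_mul, map_pinv, map_sum, Finset.mul_sum,
        Finset.mul_sum]
      refine Finset.sum_congr rfl fun i _ => ?_
      rw [map_mul, map_pow, iterate_comm, iterate_v, map_pow, ← pow_mul, ← pow_add]
      ring
    rw [Finset.sum_congr rfl hL, Finset.sum_congr rfl hR]
    rw [Finset.sum_sigma', Finset.sum_sigma']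
    refine Finset.sum_nbij' (fun x => ⟨k - (x.1 + 1 - x.2), x.2⟩)
      (fun x => ⟨k - (x.1 + 1 - x.2), x.2⟩) ?_ ?_ ?_ ?_ ?_
    · intro x hx
      simp only [Finset.mem_sigma, mem_range] at hx ⊢
      omega
    · intro x hx
      simp only [Finset.mem_sigma, mem_range] at hx ⊢
      omega
    · rintro ⟨j, i⟩ hx
      simp only [Finset.mem_sigma, mem_range] at hx
      simp only [Sigma.mk.injEq, heq_eq_eq, and_true]
      omega
    · rintro ⟨j, i⟩ hx
      simp only [Finset.mem_sigma, mem_range] at hx
      simp only [Sigma.mk.injEq, heq_eq_eq, and_true]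
      omega
    · rintro ⟨j, i⟩ hx
      simp only [Finset.mem_sigma, mem_range] at hx
      simp only
      rw [show k - (k - (j + 1 - i)) = j + 1 - i by omega,
        show k - (j + 1 - i) + 1 - i = k - j by omega,
        show j + 1 - i + i = j + 1 by omega]

/-- Integrality predicate. -/
def IsInt (x : K) : Prop := x ∈ S.ι.range

/-- Divisible by p with integral quotient. -/
def IsPInt (x : K) : Prop := ∃ b, x = S.ι ((p : B) * b)

theorem isInt_ι (b : B) : S.IsInt (S.ι b) := ⟨b, rfl⟩

theorem IsPInt.isInt {x : K} (h : S.IsPInt x) : S.IsInt x := by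
  obtain ⟨b, rfl⟩ := h
  exact S.isInt_ι _

theorem isPInt_zero : S.IsPInt 0 := ⟨0, by simp⟩

theorem isPInt_add {x y : K} (hx : S.IsPInt x) (hy : S.IsPInt y) : S.IsPInt (x + y) := by
  obtain ⟨a, rfl⟩ := hx
  obtain ⟨b, rfl⟩ := hy
  exact ⟨a + b, by rw [mul_add, map_add]⟩

theorem isPInt_sum {α : Type} (s : Finset α) (f : α → K) (h : ∀ a ∈ s, S.IsPInt (f a)) :
    S.IsPInt (∑ a ∈ s, f a) := by
  classical
  induction s using Finset.induction with
  | empty => simpa using S.isPInt_zero
  | insert a s ha ih =>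
    rw [Finset.sum_insert ha]
    exact S.isPInt_add (h a (mem_insert_self _ _)) (ih fun b hb => h b (mem_insert_of_mem hb))

theorem pinv_mul {x : K} (h : S.IsPInt x) : S.IsInt (S.pinv * x) := by
  obtain ⟨b, rfl⟩ := h
  refine ⟨b, ?_⟩
  rw [map_mul, map_natCast, ← mul_assoc, mul_comm S.pinv, S.p_pinv, one_mul]

theorem p_regular (S : Setup B K p) {b : B} (h : (p : B) * b = 0) : b = 0 := by
  apply S.inj
  have h' : (p : K) * S.ι b = 0 := by simpa using congrArg S.ι h
  calc S.ι b = S.pinv * ((p : K) * S.ι b) := by rw [← mul_assoc, mul_comm S.pinv, S.p_pinv, one_mul]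
    _ = S.ι 0 := by rw [h', mul_zero, map_zero]

theorem p_pow_m (k : ℕ) : S.IsInt ((p : K) ^ k * S.m k) := by
  induction k using Nat.strong_induction_on with
  | _ k ih =>
    cases k with
    | zero => exact ⟨1, by simp⟩
    | succ k =>
      have h : (p : K) ^ (k + 1) * S.m (k + 1) =
          ∑ j ∈ range (k + 1),
            (p : K) ^ (k - j) * ((p : K) ^ j * S.m j) * S.ι (S.v (k + 1 - j)) ^ p ^ j := by
        rw [m_succ, pow_succ]
        rw [show (p : K) ^ k * (p : K) * (S.pinv * ∑ j ∈ range (k + 1),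
          S.m j * S.ι (S.v (k + 1 - j)) ^ p ^ j) = ((p : K) * S.pinv) * ((p : K) ^ k *
          ∑ j ∈ range (k + 1), S.m j * S.ι (S.v (k + 1 - j)) ^ p ^ j) by ring, S.p_pinv, one_mul,
          Finset.mul_sum]
        refine Finset.sum_congr rfl fun j hj => ?_
        have : j ≤ k := by have := mem_range.mp hj; omega
        rw [← mul_assoc, ← mul_assoc, ← pow_add, Nat.sub_add_cancel this]
      rw [h]
      show _ ∈ S.ι.range
      refine sum_mem fun j hj => ?_
      have e1 : (p : K) ∈ S.ι.range := ⟨(p : B), map_natCast S.ι p⟩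
      have e2 : (p : K) ^ j * S.m j ∈ S.ι.range := ih j (mem_range.mp hj)
      exact mul_mem (mul_mem (pow_mem e1 _) e2) (pow_mem (S.ι.mem_range_self _) _)

theorem m_mul {k : ℕ} {x : B} (h : (p : B) ^ (k + 1) ∣ x) : S.IsPInt (S.m k * S.ι x) := by
  obtain ⟨y, rfl⟩ := h
  obtain ⟨c, hc⟩ := S.p_pow_m k
  refine ⟨c * y, ?_⟩
  rw [map_mul, map_pow, map_mul, map_mul, hc, map_natCast]
  ring

/-- The twisted setup. -/
def twist (a : ℕ) : Setup B K p :=
  { S with
    v := fun i => (S.φ ^ a) (S.v i)
    φ_v := fun i => by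
      show S.φ ((S.φ ^ a) (S.v i)) = ((S.φ ^ a) (S.v i)) ^ p
      rw [← map_pow, ← S.φ_v]
      exact DFunLike.congr_fun (Commute.self_pow S.φ a).eq (S.v i) }

theorem twist_m (a k : ℕ) : (S.twist a).m k = (S.φK ^ a) (S.m k) := by
  induction k using Nat.strong_induction_on with
  | _ k ih =>
    cases k with
    | zero => simp
    | succ k =>
      rw [m_succ, m_succ, map_mul, map_pinv, map_sum]
      congr 1
      refine Finset.sum_congr rfl fun j hj => ?_
      rw [map_mul, map_pow, iterate_comm, ih j (mem_range.mp hj)]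
      rfl

/-- Curves: a sequence with integral twisted coordinates is the logarithm of a curve. -/
theorem exists_curve [Fact p.Prime] (R : ℕ → K)
    (hR : ∀ k, S.IsInt (R k - S.pinv *
      ∑ i ∈ range k, S.ι (S.v (k - i)) * (S.φK ^ (k - i)) (R i))) :
    ∃ W : ℕ → B, ∀ k, R k = ∑ i ∈ range (k + 1), S.m (k - i) * S.ι (W i) ^ p ^ (k - i) := by
  classical
  suffices h : ∀ k, ∃ W : ℕ → B, ∀ l < k,
      R l = ∑ i ∈ range (l + 1), S.m (l - i) * S.ι (W i) ^ p ^ (l - i) by
    choose W hW using h
    have huniq : ∀ l k k', l < k → l < k' → W k l = W k' l := by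
      intro l
      induction l using Nat.strong_induction_on with
      | _ l ih =>
        intro k k' hk hk'
        have h1 := hW k l hk
        rw [hW k' l hk', Finset.sum_range_succ, Finset.sum_range_succ] at h1
        rw [Finset.sum_congr rfl fun i hi => by
          rw [ih i (mem_range.mp hi) k' k (lt_trans (mem_range.mp hi) hk')
            (lt_trans (mem_range.mp hi) hk)]] at h1
        simp only [Nat.sub_self, m_zero, pow_zero, pow_one, one_mul, add_right_inj] at h1
        exact (S.inj h1).symm
    refine ⟨fun l => W (l + 1) l, fun k => ?_⟩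
    rw [hW (k + 1) k (Nat.lt_succ_self k)]
    exact Finset.sum_congr rfl fun i hi => by
      rw [huniq i (k + 1) (i + 1) (mem_range.mp hi) (Nat.lt_succ_self i)]
  intro k
  induction k with
  | zero => exact ⟨0, fun l hl => absurd hl (Nat.not_lt_zero l)⟩
  | succ k ih =>
    obtain ⟨W, hW⟩ := ih
    suffices hint : S.IsInt (R k - ∑ i ∈ range k, S.m (k - i) * S.ι (W i) ^ p ^ (k - i)) by
      obtain ⟨w, hw⟩ := hint
      refine ⟨Function.update W k w, fun l hl => ?_⟩
      have hsum : ∀ l ≤ k, ∑ i ∈ range l, S.m (l - i) * S.ι (Function.update W k w i) ^ p ^ (l - i)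
          = ∑ i ∈ range l, S.m (l - i) * S.ι (W i) ^ p ^ (l - i) := fun l hl =>
        Finset.sum_congr rfl fun i hi => by
          rw [Function.update_of_ne (by have := mem_range.mp hi; omega)]
      rcases Nat.lt_succ_iff_lt_or_eq.mp hl with hl' | rfl
      · rw [hW l hl', Finset.sum_range_succ, Finset.sum_range_succ, hsum l hl'.le,
          Function.update_of_ne hl'.ne]
      · rw [Finset.sum_range_succ, hsum l le_rfl, Function.update_self, Nat.sub_self, m_zero,
          pow_zero, pow_one, one_mul, hw]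
        ring
    have h0 : ∑ i ∈ range k, S.m (k - i) * S.ι (W i) ^ p ^ (k - i) =
        S.pinv * ∑ i ∈ range k, ∑ j ∈ range (k - i),
          S.ι (S.v (k - i - j)) * (S.φK ^ (k - i - j)) (S.m j) * S.ι (W i) ^ p ^ (k - i) := by
      rw [Finset.mul_sum]
      refine Finset.sum_congr rfl fun i hi => ?_
      obtain ⟨r, hr⟩ : ∃ r, k - i = r + 1 := ⟨k - i - 1, by have := mem_range.mp hi; omega⟩
      rw [hr, m_succ', mul_assoc, Finset.sum_mul]
    have h1 : ∑ l ∈ range k, S.ι (S.v (k - l)) * (S.φK ^ (k - l)) (R l) =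
        ∑ i ∈ range k, ∑ j ∈ range (k - i), S.ι (S.v (k - i - j)) *
          (S.φK ^ (k - i - j)) (S.m j) * S.ι ((S.φ ^ (k - i - j)) (W i) ^ p ^ j) := by
      rw [Finset.sum_congr rfl fun l hl => by rw [hW l (mem_range.mp hl), map_sum, Finset.mul_sum]]
      rw [Finset.sum_sigma', Finset.sum_sigma']
      refine Finset.sum_nbij' (fun x => ⟨x.2, x.1 - x.2⟩) (fun x => ⟨x.1 + x.2, x.1⟩) ?_ ?_ ?_ ?_ ?_
      · intro x hx
        simp only [Finset.mem_sigma, mem_range] at hx ⊢
        omega
      · intro x hx
        simp only [Finset.mem_sigma, mem_range] at hx ⊢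
        omega
      · rintro ⟨j, i⟩ hx
        simp only [Finset.mem_sigma, mem_range] at hx
        simp only [Sigma.mk.injEq, heq_eq_eq, and_true]
        omega
      · rintro ⟨j, i⟩ hx
        simp only [Sigma.mk.injEq, heq_eq_eq, true_and]
        omega
      · rintro ⟨l, i⟩ hx
        simp only [Finset.mem_sigma, mem_range] at hx
        simp only
        rw [show k - i - (l - i) = k - l by omega, map_mul, map_pow, iterate_comm, map_pow,
          mul_assoc]
    have key : S.IsPInt (∑ i ∈ range k, ∑ j ∈ range (k - i),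
        (S.ι (S.v (k - i - j)) * (S.φK ^ (k - i - j)) (S.m j) *
          S.ι ((S.φ ^ (k - i - j)) (W i) ^ p ^ j) -
        S.ι (S.v (k - i - j)) * (S.φK ^ (k - i - j)) (S.m j) * S.ι (W i) ^ p ^ (k - i))) := by
      refine S.isPInt_sum _ _ fun i hi => S.isPInt_sum _ _ fun j hj => ?_
      have hj' := mem_range.mp hj
      have hd : (p : B) ∣ (S.φ ^ (k - i - j)) (W i) - W i ^ p ^ (k - i - j) := by
        generalize k - i - j = a
        induction a with
        | zero => simp
        | succ a iha =>
          have e1 : (p : B) ∣ ((S.φ ^ a) (W i)) ^ p - (W i ^ p ^ a) ^ p :=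
            iha.trans (sub_dvd_pow_sub_pow _ _ p)
          have e2 := dvd_add (S.frob ((S.φ ^ a) (W i))) e1
          rw [pow_succ' S.φ, RingHom.coe_mul, Function.comp_apply, pow_succ, pow_mul]
          convert e2 using 1
          ring
      have hd' := dvd_sub_pow_of_dvd_sub hd j
      rw [← pow_mul, ← pow_add, Nat.sub_add_cancel hj'.le] at hd'
      have := (S.twist (k - i - j)).m_mul (dvd_mul_of_dvd_right hd' (S.v (k - i - j)))
      obtain ⟨b, hb⟩ := this
      refine ⟨b, ?_⟩
      have e : (S.twist (k - i - j)).ι = S.ι := rfl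
      rw [twist_m, e, map_mul, map_sub, map_pow, map_pow] at hb
      rw [← hb, map_pow]
      ring
    have key2 := S.pinv_mul key
    have := add_mem (hR k) key2
    rw [h0]
    unfold IsInt
    convert this using 1
    rw [h1]
    simp only [Finset.sum_sub_distrib]
    ring

/-- The logarithm as a series. -/
def logPS : PowerSeries K :=
  PowerSeries.mk fun N => if N = p ^ Nat.log p N then S.m (Nat.log p N) else 0

variable {σ : Type}

/-- The logarithm applied to a series without constant term. -/
def LE (h : MvPowerSeries σ K) : MvPowerSeries σ K :=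
  fun α => ∑ k ∈ range (Finsupp.degree α + 1), S.m k * coeff α (h ^ p ^ k)

theorem coeff_LE (h : MvPowerSeries σ K) (α : σ →₀ ℕ) : coeff α (S.LE h) =
    ∑ k ∈ range (Finsupp.degree α + 1), S.m k * coeff α (h ^ p ^ k) := rfl

theorem coeff_pow_eq_zero {R : Type} [CommRing R] {h : MvPowerSeries σ R}
    (h0 : constantCoeff h = 0) {α : σ →₀ ℕ} {j : ℕ} (hj : Finsupp.degree α < j) :
    coeff α (h ^ j) = 0 := by
  apply coeff_of_lt_order
  exact lt_of_lt_of_le (by exact_mod_cast hj) (le_order_pow_of_constantCoeff_eq_zero j h0)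

theorem LE_eq_subst [Fact p.Prime] (h : MvPowerSeries σ K) (h0 : constantCoeff h = 0) :
    S.LE h = PowerSeries.subst h S.logPS := by
  have hp1 : 1 < p := (Fact.out : p.Prime).one_lt
  ext α
  rw [PowerSeries.coeff_subst (PowerSeries.HasSubst.of_constantCoeff_zero h0), coeff_LE]
  rw [finsum_eq_sum_of_support_subset _
    (s := (range (Finsupp.degree α + 1)).image fun k => p ^ k) ?_, Finset.sum_image ?_]
  · refine Finset.sum_congr rfl fun k _ => ?_
    simp [logPS, Nat.log_pow hp1]
  · exact fun a _ b _ hab => Nat.pow_right_injective hp1 hab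
  · intro d hd
    rw [Function.mem_support] at hd
    simp only [logPS, PowerSeries.coeff_mk, smul_eq_mul] at hd
    rw [Finset.coe_image, Set.mem_image]
    by_cases hd' : d = p ^ Nat.log p d
    · refine ⟨Nat.log p d, ?_, hd'.symm⟩
      rw [Finset.coe_range, Set.mem_Iio]
      by_contra hlt
      apply hd
      rw [coeff_pow_eq_zero h0, mul_zero]
      have h1 := Nat.lt_pow_self hp1 (n := Nat.log p d)
      omega
    · simp [hd'] at hd

theorem coeff_pow_congr {R : Type} [CommRing R] {h h' : MvPowerSeries σ R}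
    (h0 : constantCoeff h = 0) (h0' : constantCoeff h' = 0) {α : σ →₀ ℕ}
    (hlt : ∀ β, Finsupp.degree β < Finsupp.degree α → coeff β h = coeff β h') {j : ℕ} (hj : 2 ≤ j) :
    coeff α (h ^ j) = coeff α (h' ^ j) := by
  rw [← sub_eq_zero, ← map_sub (coeff (R := R) α), ← (Commute.all h h').mul_geom_sum₂]
  apply coeff_of_lt_order
  refine lt_of_lt_of_le ?_ le_order_mul
  have h1 : ((Finsupp.degree α : ℕ) : ℕ∞) ≤ (h - h').order := nat_le_order fun β hβ => by
    rw [map_sub, hlt β hβ, sub_self]
  have h2 : (1 : ℕ∞) ≤ (∑ i ∈ range j, h ^ i * h' ^ (j - 1 - i)).order := by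
    rw [one_le_order_iff_constCoeff_eq_zero, map_sum]
    refine Finset.sum_eq_zero fun i _ => ?_
    rcases Nat.eq_zero_or_pos i with rfl | hi
    · rw [map_mul, map_pow, map_pow, h0', zero_pow (by omega : j - 1 - 0 ≠ 0), mul_zero]
    · rw [map_mul, map_pow, h0, zero_pow (by omega : i ≠ 0), zero_mul]
  calc ((Finsupp.degree α : ℕ) : ℕ∞) < ((Finsupp.degree α : ℕ) : ℕ∞) + 1 := by
        exact_mod_cast Nat.lt_succ_self (Finsupp.degree α)
    _ ≤ _ := add_le_add h1 h2

theorem LE_congr_top [Fact p.Prime] {h h' : MvPowerSeries σ K} (h0 : constantCoeff h = 0)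
    (h0' : constantCoeff h' = 0) {α : σ →₀ ℕ}
    (hlt : ∀ β, Finsupp.degree β < Finsupp.degree α → coeff β h = coeff β h') :
    coeff α (S.LE h) - coeff α (S.LE h') = coeff α h - coeff α h' := by
  rw [coeff_LE, coeff_LE, ← Finset.sum_sub_distrib, Finset.sum_eq_single 0]
  · simp
  · intro k _ hk
    rw [coeff_pow_congr h0 h0' hlt, sub_self]
    calc 2 ≤ p := (Fact.out : p.Prime).two_le
      _ ≤ p ^ k := Nat.le_self_pow hk p
  · simp

theorem LE_injective [Fact p.Prime] {h h' : MvPowerSeries σ K} (h0 : constantCoeff h = 0)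
    (h0' : constantCoeff h' = 0) (he : S.LE h = S.LE h') : h = h' := by
  ext α
  induction hN : Finsupp.degree α using Nat.strong_induction_on generalizing α with
  | _ N ih =>
    subst hN
    have := S.LE_congr_top h0 h0' (α := α) fun β hβ => ih _ hβ β rfl
    rwa [he, sub_self, eq_comm, sub_eq_zero] at this

theorem constantCoeff_map' {R R' : Type} [CommRing R] [CommRing R'] (g : R →+* R')
    {h : MvPowerSeries σ R} (h0 : constantCoeff h = 0) :
    constantCoeff (MvPowerSeries.map g h) = 0 := by
  rw [constantCoeff_map, h0, map_zero]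

theorem LE_congr_mod [Fact p.Prime] {h h' : MvPowerSeries σ B}
    (hd : (p : MvPowerSeries σ B) ∣ h - h') (α : σ →₀ ℕ) :
    S.IsPInt (coeff α (S.LE (MvPowerSeries.map S.ι h)) -
      coeff α (S.LE (MvPowerSeries.map S.ι h'))) := by
  rw [coeff_LE, coeff_LE, ← Finset.sum_sub_distrib]
  refine S.isPInt_sum _ _ fun k _ => ?_
  rw [← map_pow, ← map_pow, MvPowerSeries.coeff_map, MvPowerSeries.coeff_map, ← mul_sub, ← map_sub,
    ← map_sub (coeff α)]
  apply S.m_mul
  obtain ⟨c, hc⟩ := dvd_sub_pow_of_dvd_sub hd k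
  rw [hc, ← map_natCast (MvPowerSeries.C (σ := σ) (R := B)), ← map_pow, coeff_C_mul]
  exact Dvd.intro _ rfl

theorem dvd_of_coeff {h : MvPowerSeries σ B} (hc : ∀ α, (p : B) ∣ coeff α h) :
    (p : MvPowerSeries σ B) ∣ h := by
  choose g hg using hc
  let g' : MvPowerSeries σ B := g
  refine ⟨g', ?_⟩
  ext α
  rw [← map_natCast (MvPowerSeries.C (σ := σ) (R := B)), coeff_C_mul, hg α]
  rfl

theorem mod_of_LE [Fact p.Prime] {h h' : MvPowerSeries σ B} (h0 : constantCoeff h = 0)
    (h0' : constantCoeff h' = 0)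
    (he : ∀ α, S.IsPInt (coeff α (S.LE (MvPowerSeries.map S.ι h)) -
      coeff α (S.LE (MvPowerSeries.map S.ι h')))) (α : σ →₀ ℕ) :
    (p : B) ∣ coeff α h - coeff α h' := by
  induction hN : Finsupp.degree α using Nat.strong_induction_on generalizing α with
  | _ N ih =>
    subst hN
    -- compare h' with the series g: equal to h' below the degree of α, to h from there on
    let g : MvPowerSeries σ B := fun β =>
      if Finsupp.degree β < Finsupp.degree α then coeff β h' else coeff β h
    have hg : ∀ β, coeff β g =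
        if Finsupp.degree β < Finsupp.degree α then coeff β h' else coeff β h := fun β => rfl
    have hg0 : constantCoeff g = 0 := by
      rw [← coeff_zero_eq_constantCoeff_apply, hg]
      split_ifs
      · rw [coeff_zero_eq_constantCoeff_apply, h0']
      · rw [coeff_zero_eq_constantCoeff_apply, h0]
    have hgd : (p : MvPowerSeries σ B) ∣ h - g := dvd_of_coeff fun β => by
      rw [map_sub, hg]
      split_ifs with hβ
      · exact ih _ hβ β rfl
      · rw [sub_self]; exact dvd_zero _
    obtain ⟨a, ha⟩ := S.LE_congr_mod hgd α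
    obtain ⟨b, hb⟩ := he α
    have htop := S.LE_congr_top (constantCoeff_map' S.ι hg0) (constantCoeff_map' S.ι h0') (α := α)
      fun β hβ => by rw [coeff_map, coeff_map, hg, if_pos hβ]
    rw [coeff_map, coeff_map, hg, if_neg (lt_irrefl _), ← map_sub] at htop
    refine ⟨b - a, S.inj ?_⟩
    rw [map_sub (coeff α)] at htop
    rw [map_sub S.ι, ← htop, mul_sub, map_sub S.ι, ← hb, ← ha]
    ring

/-- The twist g ↦ (ψ g)(X ^ e). -/
def tw {R : Type} [CommRing R] (ψ : R →+* R) (e : ℕ) (he : e ≠ 0) (g : MvPowerSeries σ R) :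
    MvPowerSeries σ R :=
  MvPowerSeries.expand e he (MvPowerSeries.map ψ g)

theorem coeff_tw {R : Type} [CommRing R] (ψ : R →+* R) (e : ℕ) (he : e ≠ 0)
    (g : MvPowerSeries σ R) (α : σ →₀ ℕ) :
    coeff α (tw ψ e he g) =
      open scoped Classical in
      if ∀ i, e ∣ α i then ψ (coeff (α.mapRange (· / e) (Nat.zero_div e)) g) else 0 := by
  classical
  split_ifs with h
  · have ha : α = e • α.mapRange (· / e) (Nat.zero_div e) := by
      ext i
      simp [Nat.mul_div_cancel' (h i)]
    conv_lhs => rw [ha]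
    rw [tw, coeff_expand_smul, coeff_map]
  · push Not at h
    obtain ⟨i, hi⟩ := h
    exact coeff_expand_of_not_dvd e he _ hi

theorem tw_pow {R : Type} [CommRing R] (ψ : R →+* R) (e : ℕ) (he : e ≠ 0)
    (g : MvPowerSeries σ R) (j : ℕ) : tw ψ e he (g ^ j) = tw ψ e he g ^ j := by
  simp [tw]

theorem map_tw (a : ℕ) (e : ℕ) (he : e ≠ 0) (g : MvPowerSeries σ B) :
    MvPowerSeries.map S.ι (tw (S.φ ^ a) e he g) =
      tw (S.φK ^ a) e he (MvPowerSeries.map S.ι g) := by
  rw [tw, tw, map_expand]
  congr 1
  ext β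
  rw [coeff_map, coeff_map, coeff_map, coeff_map, iterate_comm]

theorem LE_tw (a : ℕ) (e : ℕ) (he : e ≠ 0) {h : MvPowerSeries σ K} (h0 : constantCoeff h = 0)
    [Fact p.Prime] :
    (S.twist a).LE (tw (S.φK ^ a) e he h) = tw (S.φK ^ a) e he (S.LE h) := by
  ext α
  rw [coeff_LE]
  simp_rw [← tw_pow, coeff_tw]
  split_ifs with hd
  · rw [coeff_LE, map_sum]
    simp only [map_mul, twist_m]
    refine (Finset.sum_subset ?_ ?_).symm
    · apply Finset.range_mono
      have : Finsupp.degree (α.mapRange (· / e) (Nat.zero_div e)) ≤ Finsupp.degree α := by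
        have ha : α = e • α.mapRange (· / e) (Nat.zero_div e) := by
          ext i
          simp [Nat.mul_div_cancel' (hd i)]
        conv_rhs => rw [ha]
        rw [map_nsmul, smul_eq_mul]
        exact Nat.le_mul_of_pos_left _ (Nat.pos_of_ne_zero he)
      omega
    · intro k _ hk
      rw [coeff_pow_eq_zero h0, map_zero, mul_zero]
      have h1 := Nat.lt_pow_self (Fact.out : p.Prime).one_lt (n := k)
      simp only [mem_range, not_lt] at hk
      omega
  · simp

theorem pow_congr_tw [Fact p.Prime] (a : ℕ) (h : MvPowerSeries σ B) :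
    (p : MvPowerSeries σ B) ∣
      h ^ p ^ a - tw (S.φ ^ a) (p ^ a) (pow_ne_zero a (Fact.out : p.Prime).ne_zero) h := by
  have hp := (Fact.out : p.Prime)
  have one : ∀ g : MvPowerSeries σ B,
      (p : MvPowerSeries σ B) ∣ g ^ p - tw S.φ p hp.ne_zero g := by
    intro g
    by_cases hu : IsUnit (p : B)
    · refine dvd_of_coeff fun α => ?_
      exact hu.dvd
    · have := CharP.quotient B p hu
      have : ExpChar (B ⧸ Ideal.span {(p : B)}) p := ExpChar.prime hp
      have hq : (Ideal.Quotient.mk (Ideal.span {(p : B)})).comp S.φ =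
          (frobenius (B ⧸ Ideal.span {(p : B)}) p).comp (Ideal.Quotient.mk _) := by
        ext b
        rw [RingHom.comp_apply, RingHom.comp_apply, frobenius_def, ← map_pow,
          Ideal.Quotient.mk_eq_mk_iff_sub_mem, Ideal.mem_span_singleton]
        exact S.frob b
      refine dvd_of_coeff fun α => ?_
      rw [← Ideal.mem_span_singleton, map_sub, ← Ideal.Quotient.mk_eq_mk_iff_sub_mem,
        ← coeff_map, ← coeff_map]
      congr 1
      rw [map_pow, tw, map_expand, ← map_frobenius_expand p hp.ne_zero, map_expand]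
      congr 1
      rw [← RingHom.comp_apply, ← RingHom.comp_apply, ← MvPowerSeries.map_comp,
        ← MvPowerSeries.map_comp, hq]
  induction a with
  | zero =>
    refine dvd_of_coeff fun α => ?_
    rw [map_sub, coeff_tw, if_pos (fun i => by rw [pow_zero]; exact one_dvd _)]
    simp [show α.mapRange (fun x => x) rfl = α from Finsupp.ext fun i => rfl]
  | succ a ih =>
    have h1 := dvd_add (ih.trans (sub_dvd_pow_sub_pow _ _ p))
      (one (tw (S.φ ^ a) (p ^ a) (pow_ne_zero a hp.ne_zero) h))
    rw [← pow_mul, ← pow_succ, sub_add_sub_cancel] at h1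
    convert h1 using 2
    rw [tw, tw, tw, map_expand, pow_succ' S.φ, RingHom.mul_def, MvPowerSeries.map_comp,
      RingHom.comp_apply, ← expand_mul]
    congr 1
    simp only [pow_succ']

theorem pow_congr_one [Fact p.Prime] (h : MvPowerSeries σ B) :
    (p : MvPowerSeries σ B) ∣ h ^ p - tw S.φ p (Fact.out : p.Prime).ne_zero h := by
  have e := S.pow_congr_tw 1 h
  have hh : ∀ (m : ℕ) (hm : m ≠ 0), m = p →
      tw S.φ m hm h = tw S.φ p (Fact.out : p.Prime).ne_zero h := by
    intro m hm heq
    subst heq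
    rfl
  rw [pow_one S.φ, hh _ _ (pow_one p), pow_one] at e
  exact e

/-- The functional equation operator. -/
def Del [Fact p.Prime] (g : MvPowerSeries σ K) (α : σ →₀ ℕ) : K :=
  coeff α g - S.pinv * ∑ a ∈ Icc 1 (Finsupp.degree α),
    S.ι (S.v a) * coeff α (tw (S.φK ^ a) (p ^ a) (pow_ne_zero a (Fact.out : p.Prime).ne_zero) g)

theorem LE_split [Fact p.Prime] (h : MvPowerSeries σ K) (h0 : constantCoeff h = 0) (α : σ →₀ ℕ) :
    coeff α (S.LE h) = coeff α h + S.pinv * ∑ a ∈ Icc 1 (Finsupp.degree α),
      S.ι (S.v a) * coeff α ((S.twist a).LE (h ^ p ^ a)) := by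
  have hp1 := (Fact.out : p.Prime).one_lt
  set N := Finsupp.degree α with hN
  have hz : ∀ k, N < k → coeff α (h ^ p ^ k) = 0 := fun k hk =>
    coeff_pow_eq_zero h0 (by have := Nat.lt_pow_self hp1 (n := k); omega)
  rw [coeff_LE, Finset.sum_range_succ']
  simp only [m_zero, pow_zero, pow_one, one_mul]
  rw [add_comm]
  congr 1
  simp only [m_succ', coeff_LE, twist_m, ← pow_mul, ← pow_add]
  rw [Finset.mul_sum]
  simp only [Finset.mul_sum, Finset.sum_mul]
  rw [Finset.sum_sigma', Finset.sum_sigma']
  refine (Finset.sum_bij_ne_zero (fun x _ _ => ⟨x.1 + 1 - x.2, x.2⟩) ?_ ?_ ?_ ?_)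
  · rintro ⟨k, j⟩ hx _
    simp only [Finset.mem_sigma, mem_range, mem_Icc] at hx ⊢
    omega
  · rintro ⟨k, j⟩ hx _ ⟨k', j'⟩ hx' _ he
    simp only [Finset.mem_sigma, mem_range] at hx hx'
    simp only [Sigma.mk.injEq, heq_eq_eq] at he
    obtain ⟨he1, rfl⟩ := he
    simp only [Sigma.mk.injEq, heq_eq_eq, and_true]
    omega
  · rintro ⟨a, j⟩ hx hne
    simp only [Finset.mem_sigma, mem_range, mem_Icc] at hx
    have hle : a + j ≤ N := by
      by_contra hc
      exact hne (by simp only; rw [hz _ (by omega), mul_zero, mul_zero, mul_zero])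
    have h1 : a + j - 1 + 1 - j = a := by omega
    refine ⟨⟨a + j - 1, j⟩, ?_, ?_, ?_⟩
    · simp only [Finset.mem_sigma, mem_range]; omega
    · simp only at hne ⊢
      rw [h1, show a + j - 1 + 1 = a + j by omega]
      convert hne using 1
      ring
    · simp only [Sigma.mk.injEq, heq_eq_eq, and_true]; exact h1
  · rintro ⟨k, j⟩ hx _
    simp only [Finset.mem_sigma, mem_range] at hx
    simp only
    rw [show k + 1 - j + j = k + 1 by omega]
    ring

/-- The functional equation lemma: if Del g is integral then g = f(h) for some integral h. -/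
theorem exists_LE_eq [Fact p.Prime] (g : MvPowerSeries σ K) (g0 : constantCoeff g = 0)
    (hg : ∀ α, S.IsInt (S.Del g α)) :
    ∃ h : MvPowerSeries σ B, constantCoeff h = 0 ∧ S.LE (MvPowerSeries.map S.ι h) = g := by
  classical
  have step : ∀ N, ∃ h : MvPowerSeries σ B, constantCoeff h = 0 ∧
      ∀ α, Finsupp.degree α < N → coeff α (S.LE (MvPowerSeries.map S.ι h)) = coeff α g := by
    intro N
    induction N with
    | zero => exact ⟨0, by simp, fun α hα => absurd hα (Nat.not_lt_zero _)⟩
    | succ N ih =>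
      rcases Nat.eq_zero_or_pos N with rfl | hN
      · refine ⟨0, by simp, fun α hα => ?_⟩
        have : α = 0 := (Finsupp.degree_eq_zero_iff α).mp (by omega)
        subst this
        simp [coeff_LE, g0]
      obtain ⟨h₁, h10, h1⟩ := ih
      let h : MvPowerSeries σ B := fun β => if Finsupp.degree β < N then coeff β h₁ else 0
      have hh : ∀ β, coeff β h = if Finsupp.degree β < N then coeff β h₁ else 0 := fun β => rfl
      have h00 : constantCoeff h = 0 := by
        rw [← coeff_zero_eq_constantCoeff_apply, hh]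
        split_ifs <;> simp [h10]
      have hagree : ∀ α, Finsupp.degree α < N →
          coeff α (S.LE (MvPowerSeries.map S.ι h)) = coeff α g := by
        intro α hα
        rw [← h1 α hα]
        have e := S.LE_congr_top (constantCoeff_map' S.ι h00) (constantCoeff_map' S.ι h10) (α := α)
          fun β hβ => by rw [coeff_map, coeff_map, hh, if_pos (lt_trans hβ hα)]
        rwa [coeff_map, coeff_map, hh, if_pos hα, sub_self, sub_eq_zero] at e
      have hc : ∀ α, Finsupp.degree α = N →
          S.IsInt (coeff α g - coeff α (S.LE (MvPowerSeries.map S.ι h))) := by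
        intro α hα
        have hzero : coeff α (MvPowerSeries.map S.ι h) = 0 := by
          rw [coeff_map, hh, if_neg (by omega), map_zero]
        rw [S.LE_split _ (constantCoeff_map' S.ι h00), hzero, zero_add]
        have key : S.IsPInt (∑ a ∈ Icc 1 (Finsupp.degree α), S.ι (S.v a) *
            (coeff α (tw (S.φK ^ a) (p ^ a) (pow_ne_zero a (Fact.out : p.Prime).ne_zero) g) -
              coeff α ((S.twist a).LE ((MvPowerSeries.map S.ι h) ^ p ^ a)))) := by
          refine S.isPInt_sum _ _ fun a ha => ?_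
          have ha' := (Finset.mem_Icc.mp ha).1
          obtain ⟨b, hb⟩ := (S.twist a).LE_congr_mod (S.pow_congr_tw a h) α
          refine ⟨-(S.v a * b), ?_⟩
          have e1 : coeff α (tw (S.φK ^ a) (p ^ a) (pow_ne_zero a (Fact.out : p.Prime).ne_zero)
              (S.LE (MvPowerSeries.map S.ι h))) =
              coeff α (tw (S.φK ^ a) (p ^ a) (pow_ne_zero a (Fact.out : p.Prime).ne_zero) g) := by
            rw [coeff_tw, coeff_tw]
            split_ifs with hd
            · rw [hagree]
              have ha2 : α = p ^ a • α.mapRange (· / p ^ a) (Nat.zero_div _) := by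
                ext i
                simp [Nat.mul_div_cancel' (hd i)]
              have h2 : 2 ≤ p ^ a := le_trans (Fact.out : p.Prime).two_le
                (Nat.le_self_pow (by omega) p)
              have e := congrArg Finsupp.degree ha2
              rw [map_nsmul, smul_eq_mul] at e
              nlinarith
            · rfl
          have e2 : (S.twist a).ι = S.ι := rfl
          rw [map_pow, e2, S.map_tw, S.LE_tw a _ _ (constantCoeff_map' S.ι h00), e1,
            sub_eq_iff_eq_add] at hb
          rw [hb, mul_neg, map_neg S.ι, map_mul, map_mul, map_mul]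
          show _ = -((S.ι (p : B)) * (S.ι (S.v a) * S.ι b))
          ring
        have := add_mem (hg α) (S.pinv_mul key)
        simp only [Del] at this
        unfold IsInt
        convert this using 1
        simp only [mul_sub, Finset.sum_sub_distrib]
        ring
      choose c hc using hc
      let h' : MvPowerSeries σ B := fun β =>
        if hβ : Finsupp.degree β = N then c β hβ else coeff β h
      have hh' : ∀ β, coeff β h' = if hβ : Finsupp.degree β = N then c β hβ else coeff β h :=
        fun β => rfl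
      have h'0 : constantCoeff h' = 0 := by
        rw [← coeff_zero_eq_constantCoeff_apply, hh', dif_neg (by simp; omega),
          coeff_zero_eq_constantCoeff_apply, h00]
      refine ⟨h', h'0, fun α hα => ?_⟩
      have e := S.LE_congr_top (constantCoeff_map' S.ι h'0) (constantCoeff_map' S.ι h00) (α := α)
        fun β hβ => by rw [coeff_map, coeff_map, hh', dif_neg (by omega)]
      rcases Nat.lt_succ_iff_lt_or_eq.mp hα with hlt | heq
      · rw [coeff_map, coeff_map, hh', dif_neg (by omega), sub_self, sub_eq_zero] at e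
        rw [e, hagree α hlt]
      · rw [coeff_map, coeff_map, hh', dif_pos heq, hc α heq, hh, if_neg (by omega), map_zero,
          sub_zero, sub_eq_sub_iff_add_eq_add] at e
        exact add_right_cancel e
  choose H hH0 hH using step
  have huniq : ∀ N M α, Finsupp.degree α < N → Finsupp.degree α < M →
      coeff α (H N) = coeff α (H M) := by
    intro N M α
    induction hd : Finsupp.degree α using Nat.strong_induction_on generalizing α with
    | _ D ih =>
      subst hd
      intro hN hM
      have e := S.LE_congr_top (constantCoeff_map' S.ι (hH0 N)) (constantCoeff_map' S.ι (hH0 M))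
        (α := α) fun β hβ => by
          rw [coeff_map, coeff_map, ih _ hβ β rfl (lt_trans hβ hN) (lt_trans hβ hM)]
      rw [hH N α hN, hH M α hM, sub_self, coeff_map, coeff_map, ← map_sub, eq_comm,
        ← map_zero S.ι] at e
      exact sub_eq_zero.mp (S.inj e)
  let h : MvPowerSeries σ B := fun α => coeff α (H (Finsupp.degree α + 1))
  have hh : ∀ α, coeff α h = coeff α (H (Finsupp.degree α + 1)) := fun α => rfl
  have h0 : constantCoeff h = 0 := by
    rw [← coeff_zero_eq_constantCoeff_apply, hh, coeff_zero_eq_constantCoeff_apply, hH0]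
  refine ⟨h, h0, ?_⟩
  ext α
  rw [← hH (Finsupp.degree α + 1) α (Nat.lt_succ_self _)]
  have e := S.LE_congr_top (constantCoeff_map' S.ι h0)
    (constantCoeff_map' S.ι (hH0 (Finsupp.degree α + 1))) (α := α) fun β hβ => by
      rw [coeff_map, coeff_map, hh, huniq _ (Finsupp.degree α + 1) β (Nat.lt_succ_self _) (by omega)]
  rwa [coeff_map, coeff_map, hh, sub_self, sub_eq_zero] at e

/-- The integral formal group law with logarithm f. -/
theorem exists_law_series [Fact p.Prime] :
    ∃ F : MvPowerSeries (Fin 2) B, constantCoeff F = 0 ∧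
      S.LE (MvPowerSeries.map S.ι F) = S.LE (MvPowerSeries.X 0) + S.LE (MvPowerSeries.X 1) := by
  have hzero : ∀ i : Fin 2, constantCoeff (S.LE (MvPowerSeries.X i)) = 0 := by
    intro i
    rw [← coeff_zero_eq_constantCoeff_apply, coeff_LE]
    simp
  refine S.exists_LE_eq _ (by rw [map_add, hzero, hzero, add_zero]) fun α => ?_
  have hi : ∀ i : Fin 2, S.Del (S.LE (MvPowerSeries.X i)) α = coeff α (MvPowerSeries.X i) := by
    intro i
    have h0 : constantCoeff (MvPowerSeries.X i : MvPowerSeries (Fin 2) K) = 0 := constantCoeff_X i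
    rw [Del, S.LE_split _ h0, add_sub_assoc, add_eq_left, sub_eq_zero]
    congr 1
    refine Finset.sum_congr rfl fun a _ => ?_
    rw [← S.LE_tw a _ _ h0]
    congr 3
    rw [tw, MvPowerSeries.map_X, expand_X]
  have hadd : S.Del (S.LE (MvPowerSeries.X 0) + S.LE (MvPowerSeries.X 1)) α =
      S.Del (S.LE (MvPowerSeries.X 0)) α + S.Del (S.LE (MvPowerSeries.X 1)) α := by
    simp only [Del, tw, map_add, mul_add, Finset.sum_add_distrib]
    ring
  rw [hadd, hi, hi]
  refine add_mem ?_ ?_ <;>
    exact ⟨coeff α (MvPowerSeries.X _), by rw [← coeff_map, MvPowerSeries.map_X]⟩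

end Setup

end Vale.Agent.P217.FE
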