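import Mathlib
import Vale.Agent.P217.Defs
import Vale.Agent.P217.FE

/-!
# P217: the functional equation setup on the Lubin-Tate ring
-/

noncomputable section

namespace Vale.Agent.P217

open FE MvPowerSeries

variable (p n : ℕ) [Fact p.Prime]

instance isDomain_E0 : IsDomain (E0 p n) := NoZeroDivisors.to_isDomain _

/-- W with p inverted. -/
abbrev WInv : Type :=
  Localization.Away ((p : ℕ) : WittVector p (GaloisField p n))

theorem natCast_p_ne_zero_witt : ((p : ℕ) : WittVector p (GaloisField p n)) ≠ 0 :=
  WittVector.p_nonzero p (GaloisField p n)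

theorem natCast_p_ne_zero_E0 : ((p : ℕ) : E0 p n) ≠ 0 := by
  intro h
  have h' := congrArg MvPowerSeries.constantCoeff h
  rw [map_natCast, map_zero] at h'
  exact natCast_p_ne_zero_witt p n h'

theorem frobenius_sub_pow (b : WittVector p (GaloisField p n)) :
    (p : WittVector p (GaloisField p n)) ∣ WittVector.frobenius b - b ^ p := by
  rw [← Ideal.mem_span_singleton, WittVector.mem_span_p_iff_coeff_zero_eq_zero]
  have e : ∀ x : WittVector p (GaloisField p n), x.coeff 0 = WittVector.constantCoeff x :=
    fun x => rfl
  rw [e, map_sub, map_pow, ← e, ← e, WittVector.coeff_frobenius_charP, sub_self]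

theorem away_lift_injective {R : Type} [CommRing R] [IsDomain R] {x : R} (hx : x ≠ 0) :
    Function.Injective (algebraMap R (Localization.Away x)) :=
  IsLocalization.injective _ (powers_le_nonZeroDivisors_of_noZeroDivisors hx)

/-- The extension of an endomorphism fixing p to the ring with p inverted. -/
def liftAway {R : Type} [CommRing R] (f : R →+* R) :
    Localization.Away ((p : ℕ) : R) →+* Localization.Away ((p : ℕ) : R) :=
  IsLocalization.Away.lift ((p : ℕ) : R)
    (g := (algebraMap R (Localization.Away ((p : ℕ) : R))).comp f)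
    (by rw [RingHom.comp_apply, map_natCast f]
        exact IsLocalization.Away.algebraMap_isUnit _)

theorem liftAway_comm {R : Type} [CommRing R] (f : R →+* R) (b : R) :
    liftAway p f (algebraMap R (Localization.Away ((p : ℕ) : R)) b) =
      algebraMap R (Localization.Away ((p : ℕ) : R)) (f b) :=
  IsLocalization.Away.lift_eq _ _ _

theorem p_mul_invSelf {R : Type} [CommRing R] :
    (p : Localization.Away ((p : ℕ) : R)) * IsLocalization.Away.invSelf ((p : ℕ) : R) = 1 := by
  have h := IsLocalization.Away.mul_invSelf (S := Localization.Away ((p : ℕ) : R)) ((p : ℕ) : R)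
  rwa [map_natCast] at h

/-- The setup on W, with no parameters. -/
def wittSetup : Setup (WittVector p (GaloisField p n)) (WInv p n) p where
  ι := algebraMap _ _
  inj := away_lift_injective (natCast_p_ne_zero_witt p n)
  pinv := IsLocalization.Away.invSelf _
  p_pinv := p_mul_invSelf p
  φ := WittVector.frobenius
  φK := liftAway p WittVector.frobenius
  comm := liftAway_comm p WittVector.frobenius
  frob := frobenius_sub_pow p n
  v := 0
  φ_v a := by simp [(Fact.out : p.Prime).ne_zero]

/-- The lift of the p-th power map on E0: Witt Frobenius on coefficients, X ↦ X ^ p. -/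
def phi0 : E0 p n →+* E0 p n :=
  (MvPowerSeries.expand p (Fact.out : p.Prime).ne_zero).toRingHom.comp
    (MvPowerSeries.map WittVector.frobenius)

theorem phi0_eq_tw (g : E0 p n) :
    phi0 p n g = Setup.tw WittVector.frobenius p (Fact.out : p.Prime).ne_zero g := rfl

theorem phi0_sub_pow (g : E0 p n) : (p : E0 p n) ∣ phi0 p n g - g ^ p := by
  rw [dvd_sub_comm, phi0_eq_tw]
  exact (wittSetup p n).pow_congr_one g

theorem phi0_vv (a : ℕ) : phi0 p n (vv p n a) = vv p n a ^ p := by
  unfold vv
  split_ifs
  · simp [phi0]
  · simp
  · simp [(Fact.out : p.Prime).ne_zero]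

/-- The setup on E0: the parameters are the v of the definitions. -/
def e0Setup : Setup (E0 p n) (E0Inv p n) p where
  ι := algebraMap _ _
  inj := away_lift_injective (natCast_p_ne_zero_E0 p n)
  pinv := IsLocalization.Away.invSelf _
  p_pinv := p_mul_invSelf p
  φ := phi0 p n
  φK := liftAway p (phi0 p n)
  comm := liftAway_comm p (phi0 p n)
  frob := phi0_sub_pow p n
  v := vv p n
  φ_v := phi0_vv p n

theorem vv_of_lt {i : ℕ} (hi : n < i) : vv p n i = 0 := by
  unfold vv
  rw [dif_neg (by omega), if_neg (by omega)]

theorem e0Setup_m (k : ℕ) : (e0Setup p n).m k = logCoeff p n k := by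
  induction k using Nat.strong_induction_on with
  | _ k ih =>
    cases k with
    | zero => rw [Setup.m_zero, logCoeff]
    | succ k =>
      rw [Setup.m, logCoeff]
      congr 1
      refine Finset.sum_congr rfl fun j _ => ?_
      rw [ih j.1 j.2]
      show _ * algebraMap (E0 p n) (E0Inv p n) (vv p n (k + 1 - j.1)) ^ p ^ j.1 = _
      split_ifs with h
      · rfl
      · rw [vv_of_lt p n (by omega), map_zero,
          zero_pow (pow_ne_zero _ (Fact.out : p.Prime).ne_zero), mul_zero]

theorem e0Setup_logPS : (e0Setup p n).logPS = logSeries p n := by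
  unfold Setup.logPS logSeries
  congr 1
  funext N
  simp [e0Setup_m]

end Vale.Agent.P217
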