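import Mathlib

/-!
# P217: a point on a one-dimensional quotient of a Noetherian local ring

`E` is a Noetherian local ring with finite residue field, `t` a non-unit and `P` a prime maximal
among the ideals avoiding the powers of `t`. Then `E ⧸ P` is finite over any complete discrete
valuation ring mapping its uniformiser to `t`, so it embeds into any algebraically closed field
containing that ring.
-/

noncomputable section

namespace Vale.Agent.P217.CPoint

variable {E : Type} [CommRing E] [IsNoetherianRing E]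

/-- A prime over `J`, avoiding `t`, such that every strictly larger prime contains `t`. -/
theorem exists_prime (J : Ideal E) (hJ : J.IsRadical) (t : E) (ht : t ∉ J) :
    ∃ P : Ideal E, P.IsPrime ∧ J ≤ P ∧ t ∉ P ∧
      ∀ Q : Ideal E, Q.IsPrime → P < Q → t ∈ Q := by
  obtain ⟨P, ⟨hJP, hP⟩, hmax⟩ := set_has_maximal_iff_noetherian.mpr inferInstance
    {I : Ideal E | J ≤ I ∧ Disjoint (I : Set E) (Submonoid.powers t)}
    ⟨J, le_rfl, Set.disjoint_left.mpr fun x hx ⟨k, hk⟩ => ht (hJ ⟨k, by
      have hk' : t ^ k = x := hk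
      rw [hk']; exact hx⟩)⟩
  have hmax' : ∀ I : Ideal E, P < I → ¬ Disjoint (I : Set E) (Submonoid.powers t) :=
    fun I hI hd => hmax I ⟨hJP.trans hI.le, hd⟩ hI
  refine ⟨P, Ideal.isPrime_of_maximally_disjoint P _ hP hmax', hJP,
    fun h => Set.disjoint_left.mp hP h (Submonoid.mem_powers t), fun Q hQ hlt => ?_⟩
  obtain ⟨x, hxQ, k, hk⟩ := Set.not_disjoint_iff.mp (hmax' Q hlt)
  have hk' : t ^ k = x := hk
  exact hQ.mem_of_pow_mem k (hk' ▸ hxQ)

variable [IsLocalRing E]

/-- In such a quotient some power of the maximal ideal lies in the ideal of `t`. -/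
theorem exists_pow_le (P : Ideal E) [P.IsPrime] {t : E}
    (htP : t ∉ P) (hP : ∀ Q : Ideal E, Q.IsPrime → P < Q → t ∈ Q) :
    ∃ N : ℕ, 1 ≤ N ∧ IsLocalRing.maximalIdeal E ^ N ≤ P ⊔ Ideal.span {t} := by
  set m := IsLocalRing.maximalIdeal E with hm
  set π := Ideal.Quotient.mk P with hπ
  have hsurj : Function.Surjective π := Ideal.Quotient.mk_surjective
  have ht0 : π t ≠ 0 := fun h => htP (Ideal.Quotient.eq_zero_iff_mem.mp h)
  -- nonzero primes of the quotient contain the image of t
  have hbig : ∀ Q : Ideal (E ⧸ P), Q.IsPrime → Q ≠ ⊥ → π t ∈ Q := by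
    intro Q hQ hne
    have hle : P ≤ Q.comap π := fun x hx => by
      simp [hπ, Ideal.mem_comap, Ideal.Quotient.eq_zero_iff_mem.mpr hx]
    have hneq : P ≠ Q.comap π := fun he => hne (by
      rw [← Ideal.map_comap_of_surjective π hsurj Q, ← he, hπ, Ideal.map_quotient_self])
    exact Ideal.mem_comap.mp (hP _ (hQ.comap π) (lt_of_le_of_ne hle hneq))
  -- minimal primes over t
  set I : Ideal (E ⧸ P) := Ideal.span {π t} with hI
  have htI : π t ∈ I := Ideal.mem_span_singleton_self _
  have hall : ∀ q ∈ I.minimalPrimes, q = m.map π := by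
    by_contra hcon
    push Not at hcon
    obtain ⟨q, hq, hqne⟩ := hcon
    have hmap : ∀ q' ∈ I.minimalPrimes, q' ≤ m.map π := by
      intro q' hq' x hx
      obtain ⟨y, rfl⟩ := hsurj x
      have hcomap : q'.comap π ≤ m :=
        IsLocalRing.le_maximalIdeal (hq'.isPrime.comap π).ne_top
      exact Ideal.mem_map_of_mem π (hcomap hx)
    have hfin : I.minimalPrimes.Finite := Ideal.finite_minimalPrimes_of_isNoetherianRing _ I
    have hnotle : ∀ q' ∈ I.minimalPrimes, ¬ m.map π ≤ q' := by
      intro q' hq' hle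
      have e : q' = m.map π := le_antisymm (hmap q' hq') hle
      have : q' ≤ q := by
        refine hq'.2 ⟨hq.isPrime, hq.1.2⟩ ?_
        rw [e]; exact hmap q hq
      exact hqne (le_antisymm (hmap q hq) (e ▸ this))
    have hsub : ¬ ((m.map π : Ideal (E ⧸ P)) : Set (E ⧸ P)) ⊆
        ⋃ i ∈ (↑hfin.toFinset : Set (Ideal (E ⧸ P))), (id i : Set (E ⧸ P)) := by
      intro h
      obtain ⟨i, hi, hle⟩ := (Ideal.subset_union_prime (f := id) ⊥ ⊥
        (fun i hi _ _ => (hfin.mem_toFinset.mp hi).isPrime)).mp h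
      exact hnotle i (hfin.mem_toFinset.mp hi) hle
    obtain ⟨a, ham, han⟩ := Set.not_subset.mp hsub
    simp only [Set.mem_iUnion, Set.Finite.mem_toFinset, id, SetLike.mem_coe,
      not_exists] at han
    have hane : a ≠ 0 := fun h => han q hq (h ▸ q.zero_mem)
    have hatop : Ideal.span {a} ≠ ⊤ := by
      intro h
      obtain ⟨y, hy, rfl⟩ := (Ideal.mem_map_iff_of_surjective π hsurj).mp ham
      have hu : IsUnit (π y) := Ideal.span_singleton_eq_top.mp h
      obtain ⟨b, hb⟩ := hu.exists_right_inv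
      obtain ⟨b, rfl⟩ := hsurj b
      have h1 : y * b - 1 ∈ m := by
        have : y * b - 1 ∈ P := Ideal.Quotient.eq_zero_iff_mem.mp (by
          rw [map_sub, map_mul, map_one, hb, sub_self])
        exact IsLocalRing.le_maximalIdeal (Ideal.IsPrime.ne_top inferInstance) this
      have h2 : y * b ∈ m := m.mul_mem_right b hy
      have : (1 : E) ∈ m := by simpa using m.sub_mem h2 h1
      exact (IsLocalRing.maximalIdeal.isMaximal E).ne_top ((Ideal.eq_top_iff_one _).mpr this)
    obtain ⟨Q, hQmin⟩ := Ideal.nonempty_minimalPrimes hatop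
    have hQh := Ideal.height_le_one_of_isPrincipal_of_mem_minimalPrimes _ Q hQmin
    have hQprime : Q.IsPrime := hQmin.isPrime
    have haQ : a ∈ Q := hQmin.1.2 (Ideal.mem_span_singleton_self a)
    have hQne : Q ≠ ⊥ := fun h => hane (by simpa [h] using haQ)
    have hIQ : I ≤ Q := (Ideal.span_singleton_le_iff_mem Q).mpr (hbig Q hQprime hQne)
    obtain ⟨q₀, hq₀, hq₀Q⟩ := Ideal.exists_minimalPrimes_le hIQ
    rcases hq₀Q.eq_or_lt with heq | hlt
    · exact han q₀ hq₀ (heq ▸ haQ)
    have hq₀p : q₀.IsPrime := hq₀.isPrime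
    have h1 : q₀.height < 1 := lt_of_lt_of_le
      (Ideal.height_strict_mono_of_isPrime hlt) hQh
    rw [Order.lt_one_iff, Ideal.height_eq_zero_iff] at h1
    have hbot : q₀ = ⊥ := by
      rw [IsDomain.minimalPrimes_eq_singleton_bot] at h1
      exact h1
    exact ht0 (by simpa [hbot] using hq₀.1.2 htI)
  have hrad : m.map π ≤ I.radical := by
    rw [← Ideal.sInf_minimalPrimes]
    exact le_sInf fun q hq => le_of_eq (hall q hq).symm
  obtain ⟨N, hN⟩ := Ideal.exists_pow_le_of_le_radical_of_fg hrad (IsNoetherian.noetherian _)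
  refine ⟨N + 1, by omega, fun x hx => ?_⟩
  have hx' : π x ∈ I := by
    apply hN
    rw [← Ideal.map_pow]
    exact Ideal.mem_map_of_mem π (Ideal.pow_le_pow_right (by omega) hx)
  obtain ⟨c, hc⟩ := Ideal.mem_span_singleton'.mp hx'
  obtain ⟨c, rfl⟩ := hsurj c
  have hd : x - c * t ∈ P := Ideal.Quotient.eq_zero_iff_mem.mp (by
    rw [map_sub, map_mul, hc, sub_self])
  have : x = (x - c * t) + c * t := by ring
  rw [this]
  exact Ideal.add_mem _ (Ideal.mem_sup_left hd)
    (Ideal.mem_sup_right (Ideal.mul_mem_left _ c (Ideal.mem_span_singleton_self t)))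

variable [Finite (IsLocalRing.ResidueField E)]

/-- Successive approximation: the quotient is finite over the base. -/
theorem quotient_finite {A : Type} [CommRing A] (τ : A)
    (hA : ∀ e : ℕ → Bool, ∃ a : A, ∀ M : ℕ,
      τ ^ M ∣ a - ∑ i ∈ Finset.range M, if e i then τ ^ i else 0)
    (P : Ideal E) [P.IsPrime] {t : E} (htm : t ∈ IsLocalRing.maximalIdeal E) {N : ℕ}
    (hN : IsLocalRing.maximalIdeal E ^ N ≤ P ⊔ Ideal.span {t}) (φ : A →+* E ⧸ P)
    (hφ : φ τ = Ideal.Quotient.mk P t) : φ.Finite := by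
  classical
  let m := IsLocalRing.maximalIdeal E
  have : Finite (E ⧸ m) := inferInstanceAs (Finite (IsLocalRing.ResidueField E))
  have : Finite (E ⧸ m ^ N) := Ideal.finite_quotient_pow (IsNoetherian.noetherian m) N
  have : Finite (E ⧸ (P ⊔ Ideal.span {t})) :=
    Finite.of_surjective (Ideal.Quotient.factor hN) (Ideal.Quotient.factor_surjective hN)
  have : Fintype (E ⧸ (P ⊔ Ideal.span {t})) := Fintype.ofFinite _
  set π := Ideal.Quotient.mk P with hπ
  let cls : E → E ⧸ (P ⊔ Ideal.span {t}) := Ideal.Quotient.mk _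
  have hrep : ∀ q : E ⧸ (P ⊔ Ideal.span {t}), ∃ r : E, cls r = q :=
    fun q => Ideal.Quotient.mk_surjective q
  choose rep hrep using hrep
  -- one step of the expansion
  have hstep : ∀ x : E, ∃ y : E, π x = π (rep (cls x)) + π t * π y := by
    intro x
    have hmem : x - rep (cls x) ∈ P ⊔ Ideal.span {t} :=
      Ideal.Quotient.eq.mp (hrep (cls x)).symm
    obtain ⟨a, ha, b, hb, hab⟩ := Submodule.mem_sup.mp hmem
    obtain ⟨y, rfl⟩ := Ideal.mem_span_singleton.mp hb
    refine ⟨y, ?_⟩
    have : x = rep (cls x) + (a + t * y) := by rw [hab]; ring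
    conv_lhs => rw [this]
    rw [map_add, map_add, map_mul, Ideal.Quotient.eq_zero_iff_mem.mpr ha, zero_add]
  choose nxt hnxt using hstep
  let : Algebra A (E ⧸ P) := φ.toAlgebra
  show Module.Finite A (E ⧸ P)
  refine ⟨⟨Finset.univ.image fun q => π (rep q), ?_⟩⟩
  rw [eq_top_iff]
  intro z _
  obtain ⟨x, rfl⟩ := Ideal.Quotient.mk_surjective z
  set dig : ℕ → E ⧸ (P ⊔ Ideal.span {t}) := fun i => cls (nxt^[i] x) with hdig
  have hexp : ∀ M, π x = ∑ i ∈ Finset.range M, π (rep (dig i)) * π t ^ i
      + π t ^ M * π (nxt^[M] x) := by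
    intro M
    induction M with
    | zero => simp
    | succ M ih =>
      rw [Finset.sum_range_succ, ih, hnxt (nxt^[M] x), Function.iterate_succ_apply', hdig]
      ring
  choose a ha using fun q => hA fun i => decide (dig i = q)
  set y := ∑ q, a q • π (rep q) with hy
  have hymem : y ∈ Submodule.span A
      ((Finset.univ.image fun q => π (rep q) : Finset (E ⧸ P)) : Set (E ⧸ P)) :=
    Submodule.sum_mem _ fun q _ => Submodule.smul_mem _ _
      (Submodule.subset_span (by simp))
  suffices π x = y by rw [← hπ, this]; exact hymem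
  have hclose : ∀ M, π x - y ∈ Ideal.span {π t} ^ M := by
    intro M
    rw [Ideal.span_singleton_pow, Ideal.mem_span_singleton]
    have hsplit : ∑ i ∈ Finset.range M, π (rep (dig i)) * π t ^ i =
        ∑ q, φ (∑ i ∈ Finset.range M, if dig i = q then τ ^ i else 0) * π (rep q) := by
      simp only [map_sum, Finset.sum_mul]
      rw [Finset.sum_comm]
      refine Finset.sum_congr rfl fun i _ => ?_
      rw [Finset.sum_eq_single (dig i)]
      · simp [map_pow, hφ, mul_comm]
      · intro q _ hq
        simp [Ne.symm hq]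
      · simp
    have hy' : y = ∑ q, φ (a q) * π (rep q) := by
      rw [hy]
      exact Finset.sum_congr rfl fun q _ => Algebra.smul_def _ _
    rw [hexp M, hsplit, hy', show
      (∑ q, φ (∑ i ∈ Finset.range M, if dig i = q then τ ^ i else 0) * π (rep q))
        + π t ^ M * π (nxt^[M] x) - ∑ q, φ (a q) * π (rep q)
      = π t ^ M * π (nxt^[M] x) - ∑ q, φ (a q -
          ∑ i ∈ Finset.range M, if dig i = q then τ ^ i else 0) * π (rep q) by
        simp only [map_sub, sub_mul, Finset.sum_sub_distrib]; ring]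
    refine dvd_sub (dvd_mul_right _ _) (Finset.dvd_sum fun q _ => Dvd.dvd.mul_right ?_ _)
    obtain ⟨c, hc⟩ := ha q M
    simp only [decide_eq_true_eq] at hc
    rw [hc, map_mul, map_pow, hφ]
    exact dvd_mul_right _ _
  have hne : Ideal.span {π t} ≠ ⊤ := by
    intro h
    obtain ⟨b, hb⟩ := (Ideal.span_singleton_eq_top.mp h).exists_right_inv
    obtain ⟨b, rfl⟩ := Ideal.Quotient.mk_surjective b
    have h1 : t * b - 1 ∈ m := IsLocalRing.le_maximalIdeal (Ideal.IsPrime.ne_top inferInstance)
      ((Ideal.Quotient.eq_zero_iff_mem (I := P)).mp (by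
        rw [map_sub, map_mul, map_one]
        exact sub_eq_zero.mpr hb))
    have h2 : t * b ∈ m := m.mul_mem_right b htm
    have : (1 : E) ∈ m := by simpa using m.sub_mem h2 h1
    exact (IsLocalRing.maximalIdeal.isMaximal E).ne_top ((Ideal.eq_top_iff_one _).mpr this)
  have : π x - y ∈ (⨅ M, Ideal.span {π t} ^ M : Ideal (E ⧸ P)) := by
    rw [Submodule.mem_iInf]; exact hclose
  rw [Ideal.iInf_pow_eq_bot_of_isDomain _ hne, Ideal.mem_bot, sub_eq_zero] at this
  exact this

omit [IsNoetherianRing E] [IsLocalRing E] [Finite (IsLocalRing.ResidueField E)] in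
/-- A finite extension of a discrete valuation ring embeds in an algebraically closed field, with
values of norm at most one. -/
theorem exists_hom {A R C : Type} [CommRing A] [IsDomain A] [IsDiscreteValuationRing A]
    [CommRing R] [IsDomain R] [NormedField C] [IsUltrametricDist C] [IsAlgClosed C]
    {τ : A} (hτ : Irreducible τ) (φ : A →+* R) (hφ : φ τ ≠ 0) (hfin : φ.Finite)
    (ψ : A →+* C) (hψ : ψ τ ≠ 0) (hψ1 : ∀ a, ‖ψ a‖ ≤ 1) :
    ∃ χ : R →+* C, (∀ r, ‖χ r‖ ≤ 1) ∧ ∀ a, χ (φ a) = ψ a := by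
  have hinj : ∀ {S : Type} [CommRing S] [IsDomain S] (f : A →+* S), f τ ≠ 0 →
      Function.Injective f := by
    intro S _ _ f hf
    rw [injective_iff_map_eq_zero]
    intro a ha
    by_contra hne
    obtain ⟨k, u, hu⟩ := IsDiscreteValuationRing.associated_pow_irreducible hne hτ
    apply pow_ne_zero k hf
    rw [← map_pow, ← hu, map_mul, ha, zero_mul]
  let : Algebra A R := φ.toAlgebra
  let : Algebra A C := ψ.toAlgebra
  have : Module.IsTorsionFree A R :=
    Module.isTorsionFree_iff_algebraMap_injective.mpr (hinj φ hφ)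
  have : Module.IsTorsionFree A C :=
    Module.isTorsionFree_iff_algebraMap_injective.mpr (hinj ψ hψ)
  have : Module.Finite A R := hfin
  have : Algebra.IsAlgebraic A R := inferInstance
  let g : R →ₐ[A] C := IsAlgClosed.lift
  refine ⟨g.toRingHom, fun r => ?_, fun a => g.commutes a⟩
  obtain ⟨S, hS⟩ := (Module.finite_def.mp (inferInstance : Module.Finite A R))
  obtain ⟨B, hB⟩ : ∃ B : ℝ, ∀ s ∈ S, ‖g s‖ ≤ B :=
    ⟨∑ s ∈ S, ‖g s‖, fun s hs =>
      Finset.single_le_sum (f := fun s => ‖g s‖) (fun _ _ => norm_nonneg _) hs⟩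
  have hall : ∀ x : R, ‖g x‖ ≤ max B 0 := by
    intro x
    have hx : x ∈ Submodule.span A (S : Set R) := by rw [hS]; exact Submodule.mem_top
    induction hx using Submodule.span_induction with
    | mem s hs => exact (hB s hs).trans (le_max_left _ _)
    | zero => simp
    | add a b _ _ ha hb =>
      rw [map_add]
      exact (IsUltrametricDist.norm_add_le_max _ _).trans (max_le ha hb)
    | smul a x _ hx =>
      rw [map_smul, Algebra.smul_def, norm_mul]
      exact (mul_le_of_le_one_left (norm_nonneg _) (hψ1 a)).trans hx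
  show ‖g r‖ ≤ 1
  by_contra hgt
  obtain ⟨k, hk⟩ := pow_unbounded_of_one_lt (max B 0) (not_le.mp hgt)
  exact absurd (by simpa [map_pow] using hall (r ^ k)) (not_le.mpr hk)

end Vale.Agent.P217.CPoint
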