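import Mathlib
import Vale.Agent.P217.Interfaces

/-!
# P217, question 1: values of power series with small coefficients at points of the open disc

`K` is a complete ultrametric field, `j` a ring map into `K` with values of norm at most 1.
-/

noncomputable section

namespace Vale.Agent.P217.Eval

open scoped Classical Topology

variable {K : Type} [NontriviallyNormedField K] [IsUltrametricDist K]

theorem norm_coe_le (x : unitBall K) : ‖(x : K)‖ ≤ 1 := x.2

instance linearTopology_unitBall : IsLinearTopology (unitBall K) (unitBall K) := by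
  let I : {ε : ℝ // 0 < ε} → Ideal (unitBall K) := fun ε =>
    { carrier := {x | ‖(x : K)‖ ≤ ε.1}
      add_mem' := fun {a b} ha hb =>
        le_trans (IsUltrametricDist.norm_add_le_max (a : K) (b : K)) (max_le ha hb)
      zero_mem' := by simpa using ε.2.le
      smul_mem' := fun c x hx => by
        show ‖((c * x : unitBall K) : K)‖ ≤ ε.1
        rw [Subring.coe_mul, norm_mul]
        exact le_trans (mul_le_of_le_one_left (norm_nonneg _) (norm_coe_le c)) hx }
  refine IsLinearTopology.mk_of_hasBasis (unitBall K) (p := fun _ => True) (s := I) ?_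
  refine ⟨fun t => ?_⟩
  rw [Metric.nhds_basis_closedBall.mem_iff]
  constructor
  · rintro ⟨ε, hε, h⟩
    refine ⟨⟨ε, hε⟩, trivial, fun x hx => h ?_⟩
    have : dist (x : K) ((0 : unitBall K) : K) ≤ ε := by
      rw [Subring.coe_zero, dist_zero_right]; exact hx
    exact this
  · rintro ⟨ε, -, h⟩
    refine ⟨ε.1, ε.2, fun x hx => h ?_⟩
    have hx' : dist (x : K) ((0 : unitBall K) : K) ≤ ε.1 := hx
    rw [Subring.coe_zero, dist_zero_right] at hx'
    exact hx'

variable [CompleteSpace K]

instance completeSpace_unitBall : CompleteSpace (unitBall K) :=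
  (isClosed_le continuous_norm continuous_const :
    IsClosed {a : K | ‖a‖ ≤ 1}).completeSpace_coe

variable {R : Type} [CommRing R] {d e : ℕ}

/-- The coefficient map into the unit ball. -/
def jO (j : R →+* K) (hj : ∀ r, ‖j r‖ ≤ 1) : R →+* unitBall K := j.codRestrict _ hj

/-- A point of the open disc inside the unit ball. -/
def ptO {σ : Type} (a : σ → K) (ha : ∀ i, ‖a i‖ < 1) (i : σ) : unitBall K := ⟨a i, (ha i).le⟩

omit [CompleteSpace K] in
theorem hasEval_ptO {σ : Type} [Finite σ] (a : σ → K) (ha : ∀ i, ‖a i‖ < 1) :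
    MvPowerSeries.HasEval (ptO a ha) where
  hpow i := by
    show Filter.Tendsto (fun k => (ptO a ha i) ^ k) Filter.atTop (𝓝 0)
    rw [tendsto_subtype_rng]
    simpa [ptO] using tendsto_pow_atTop_nhds_zero_of_norm_lt_one (ha i)
  tendsto_zero := by simp [Filter.cofinite_eq_bot]

/-- Evaluation as a ring homomorphism. -/
def evalHom {σ : Type} [Finite σ] (j : R →+* K) (hj : ∀ r, ‖j r‖ ≤ 1) (a : σ → K)
    (ha : ∀ i, ‖a i‖ < 1) : MvPowerSeries σ R →+* K :=
  letI : UniformSpace R := ⊥
  haveI : DiscreteUniformity R := ⟨rfl⟩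
  (unitBall K).subtype.comp (MvPowerSeries.eval₂Hom (φ := jO j hj)
    continuous_of_discreteTopology (hasEval_ptO a ha))

theorem evalHom_congr {σ : Type} [Finite σ] (j : R →+* K) (hj : ∀ r, ‖j r‖ ≤ 1) {a b : σ → K}
    (ha : ∀ i, ‖a i‖ < 1) (hb : ∀ i, ‖b i‖ < 1) (h : ∀ i, a i = b i) :
    evalHom j hj a ha = evalHom j hj b hb := by
  obtain rfl : a = b := funext h
  rfl

theorem hasSum_evalHom {σ : Type} [Fintype σ] (j : R →+* K) (hj : ∀ r, ‖j r‖ ≤ 1) (a : σ → K)
    (ha : ∀ i, ‖a i‖ < 1) (f : MvPowerSeries σ R) :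
    HasSum (fun k : σ →₀ ℕ => j (MvPowerSeries.coeff k f) * ∏ i, a i ^ k i)
      (evalHom j hj a ha f) := by
  let : UniformSpace R := ⊥
  have : DiscreteUniformity R := ⟨rfl⟩
  have h := (MvPowerSeries.hasSum_eval₂ (φ := jO j hj) continuous_of_discreteTopology
    (hasEval_ptO a ha) f).map (unitBall K).subtype continuous_subtype_val
  convert h using 1
  · funext k
    simp only [Function.comp_apply, Subring.coe_subtype, Subring.coe_mul]
    rw [Finsupp.prod_fintype _ _ (fun i => pow_zero _)]
    push_cast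
    rfl
  · show _ = ((MvPowerSeries.eval₂ (jO j hj) (ptO a ha) f : unitBall K) : K)
    simp [evalHom, MvPowerSeries.coe_eval₂Hom]

variable {j : R →+* K} (hj : ∀ r, ‖j r‖ ≤ 1) {a : Fin d → K} (ha : ∀ i, ‖a i‖ < 1)

include hj ha

theorem hasSum_mveval (f : MvPowerSeries (Fin d) R) :
    HasSum (fun k : Fin d →₀ ℕ => j (MvPowerSeries.coeff k f) * ∏ i, a i ^ k i) (mveval j f a) :=
  (hasSum_evalHom j hj a ha f).summable.hasSum

theorem mveval_eq_evalHom (f : MvPowerSeries (Fin d) R) :
    mveval j f a = evalHom j hj a ha f :=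
  (hasSum_evalHom j hj a ha f).tsum_eq

theorem mveval_add (f g : MvPowerSeries (Fin d) R) :
    mveval j (f + g) a = mveval j f a + mveval j g a := by
  simp only [mveval_eq_evalHom hj ha, map_add]

theorem mveval_sub (f g : MvPowerSeries (Fin d) R) :
    mveval j (f - g) a = mveval j f a - mveval j g a := by
  simp only [mveval_eq_evalHom hj ha, map_sub]

theorem mveval_mul (f g : MvPowerSeries (Fin d) R) :
    mveval j (f * g) a = mveval j f a * mveval j g a := by
  simp only [mveval_eq_evalHom hj ha, map_mul]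

theorem mveval_pow (f : MvPowerSeries (Fin d) R) (k : ℕ) :
    mveval j (f ^ k) a = mveval j f a ^ k := by
  simp only [mveval_eq_evalHom hj ha, map_pow]

theorem mveval_sum {ι : Type*} (s : Finset ι) (f : ι → MvPowerSeries (Fin d) R) :
    mveval j (∑ i ∈ s, f i) a = ∑ i ∈ s, mveval j (f i) a := by
  simp only [mveval_eq_evalHom hj ha, map_sum]

omit [IsUltrametricDist K] [CompleteSpace K] hj ha in
theorem mveval_zero : mveval j (0 : MvPowerSeries (Fin d) R) a = 0 := by simp [mveval]

omit [IsUltrametricDist K] [CompleteSpace K] hj ha in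
theorem mveval_X (i : Fin d) : mveval j (MvPowerSeries.X i) a = a i := by
  rw [mveval, tsum_eq_single (Finsupp.single i 1)]
  · rw [MvPowerSeries.coeff_X, if_pos rfl, map_one, one_mul, Finset.prod_eq_single i]
    · simp
    · intro b _ hb; simp [Finsupp.single_eq_of_ne hb]
    · simp
  · intro k hk; simp [MvPowerSeries.coeff_X, hk]

omit [IsUltrametricDist K] [CompleteSpace K] hj ha in
theorem mveval_C (r : R) : mveval j (MvPowerSeries.C r : MvPowerSeries (Fin d) R) a = j r := by
  rw [mveval, tsum_eq_single 0]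
  · simp
  · intro k hk; simp [MvPowerSeries.coeff_C, hk]

omit [CompleteSpace K] ha in
/-- A bound by the monomials that occur. -/
theorem norm_mveval_le_of (f : MvPowerSeries (Fin d) R) {B : ℝ} (hB : 0 ≤ B)
    (h : ∀ k, MvPowerSeries.coeff k f ≠ 0 → ∏ i, ‖a i‖ ^ k i ≤ B) : ‖mveval j f a‖ ≤ B := by
  refine IsUltrametricDist.norm_tsum_le_of_forall_le_of_nonneg hB fun k => ?_
  by_cases hk : MvPowerSeries.coeff k f = 0
  · simp [hk, hB]
  · rw [norm_mul, norm_prod]
    simp only [norm_pow]
    exact le_trans (mul_le_of_le_one_left (Finset.prod_nonneg fun i _ => pow_nonneg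
      (norm_nonneg _) _) (hj _)) (h k hk)

omit [CompleteSpace K] ha in
/-- Series of order at least `N` are bounded by `r ^ N`. -/
theorem norm_mveval_le_pow (f : MvPowerSeries (Fin d) R) {r : ℝ} (hr : 0 ≤ r) (hr1 : r ≤ 1)
    (har : ∀ i, ‖a i‖ ≤ r) (N : ℕ)
    (hf : ∀ k : Fin d →₀ ℕ, (∑ i, k i) < N → MvPowerSeries.coeff k f = 0) :
    ‖mveval j f a‖ ≤ r ^ N := by
  refine norm_mveval_le_of hj f (pow_nonneg hr N) fun k hk => ?_
  refine le_trans (Finset.prod_le_prod (fun i _ => pow_nonneg (norm_nonneg _) _)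
    fun i _ => pow_le_pow_left₀ (norm_nonneg _) (har i) _) ?_
  rw [Finset.prod_pow_eq_pow_sum]
  exact pow_le_pow_of_le_one hr hr1 (le_of_not_gt fun hlt => hk (hf k hlt))

omit [CompleteSpace K] ha in
/-- Series without constant term send the open disc into itself. -/
theorem norm_mveval_le_max (f : MvPowerSeries (Fin d) R)
    (hf : MvPowerSeries.constantCoeff f = 0) {r : ℝ} (hr : 0 ≤ r) (hr1 : r ≤ 1)
    (har : ∀ i, ‖a i‖ ≤ r) : ‖mveval j f a‖ ≤ r := by
  refine le_trans (norm_mveval_le_pow hj f hr hr1 har 1 fun k hk => ?_) (pow_one r).le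
  have : k = 0 := by
    ext i
    have := Finset.single_le_sum (fun i _ => Nat.zero_le (k i)) (Finset.mem_univ i)
    simp only [Finsupp.coe_zero, Pi.zero_apply]
    omega
  subst this
  simpa [MvPowerSeries.coeff_zero_eq_constantCoeff_apply] using hf

omit [CompleteSpace K] in
theorem norm_mveval_lt_one (f : MvPowerSeries (Fin d) R)
    (hf : MvPowerSeries.constantCoeff f = 0) : ‖mveval j f a‖ < 1 := by
  obtain rfl | hd := Nat.eq_zero_or_pos d
  · exact lt_of_le_of_lt
      (norm_mveval_le_max hj f hf le_rfl zero_le_one fun i => i.elim0) one_pos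
  · have : Nonempty (Fin d) := ⟨⟨0, hd⟩⟩
    obtain ⟨i, -, hi⟩ := Finset.exists_max_image Finset.univ (fun i => ‖a i‖) Finset.univ_nonempty
    exact lt_of_le_of_lt (norm_mveval_le_max hj f hf (norm_nonneg _) (ha i).le
      fun b => hi b (Finset.mem_univ b)) (ha i)

omit hj ha

/-- Substitution and evaluation commute. -/
theorem evalHom_subst {σ τ : Type} [Finite σ] [Finite τ] (hj : ∀ r, ‖j r‖ ≤ 1) (b : τ → K)
    (hb : ∀ i, ‖b i‖ < 1) (u : σ → MvPowerSeries τ R) (hu : MvPowerSeries.HasSubst u)
    (hv : ∀ s, ‖evalHom j hj b hb (u s)‖ < 1) (f : MvPowerSeries σ R) :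
    evalHom j hj b hb (MvPowerSeries.subst u f) =
      evalHom j hj (fun s => evalHom j hj b hb (u s)) hv f := by
  let : UniformSpace R := ⊥
  have : DiscreteUniformity R := ⟨rfl⟩
  let : Algebra R (unitBall K) := (jO j hj).toAlgebra
  have h := MvPowerSeries.eval₂_subst (R := R) (S := R) (T := unitBall K) hu
    (hasEval_ptO b hb) f
  simp only [RingHom.algebraMap_toAlgebra] at h
  simp only [evalHom, RingHom.comp_apply, MvPowerSeries.coe_eval₂Hom, Subring.coe_subtype]
  refine (congrArg Subtype.val h).trans ?_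
  congr 2
  funext s
  exact Subtype.ext (congrArg Subtype.val (congrFun (MvPowerSeries.coe_eval₂Hom (φ := jO j hj)
    continuous_of_discreteTopology (hasEval_ptO b hb)) (u s))).symm

include hj ha

theorem mveval_subst {f : MvPowerSeries (Fin e) R} {u : Fin e → MvPowerSeries (Fin d) R}
    (hu : ∀ s, MvPowerSeries.constantCoeff (u s) = 0) :
    mveval j (MvPowerSeries.subst u f) a = mveval j f fun s => mveval j (u s) a := by
  have hv : ∀ s, ‖mveval j (u s) a‖ < 1 := fun s => norm_mveval_lt_one hj ha _ (hu s)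
  rw [mveval_eq_evalHom hj ha, mveval_eq_evalHom hj hv,
    evalHom_subst hj a ha u (MvPowerSeries.hasSubst_of_constantCoeff_zero hu)
      (fun s => by rw [← mveval_eq_evalHom hj ha]; exact hv s)]
  exact DFunLike.congr_fun (evalHom_congr j hj _ _ fun s => (mveval_eq_evalHom hj ha (u s)).symm) f

omit hj ha

/-! ## One variable -/

variable {y : K}

omit [IsUltrametricDist K] [CompleteSpace K] in
theorem peval_eq_tsum_unit (f : PowerSeries R) :
    peval j f y = ∑' k : Unit →₀ ℕ, j (MvPowerSeries.coeff k f) * ∏ i : Unit, y ^ k i := by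
  rw [peval, ← (Finsupp.uniqueEquiv ()).symm.tsum_eq
    (fun k : Unit →₀ ℕ => j (MvPowerSeries.coeff k f) * ∏ i : Unit, y ^ k i)]
  simp [PowerSeries.coeff, Finsupp.uniqueEquiv]

theorem peval_eq_evalHom (hj : ∀ r, ‖j r‖ ≤ 1) (hy : ‖y‖ < 1) (f : PowerSeries R) :
    peval j f y = evalHom j hj (fun _ : Unit => y) (fun _ => hy) f := by
  rw [peval_eq_tsum_unit]
  exact (hasSum_evalHom j hj (fun _ : Unit => y) (fun _ => hy) f).tsum_eq

theorem peval_add (hj : ∀ r, ‖j r‖ ≤ 1) (hy : ‖y‖ < 1) (f g : PowerSeries R) :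
    peval j (f + g) y = peval j f y + peval j g y := by
  simp only [peval_eq_evalHom hj hy]
  exact map_add _ _ _

theorem peval_mul (hj : ∀ r, ‖j r‖ ≤ 1) (hy : ‖y‖ < 1) (f g : PowerSeries R) :
    peval j (f * g) y = peval j f y * peval j g y := by
  simp only [peval_eq_evalHom hj hy]
  exact map_mul _ _ _

omit [IsUltrametricDist K] [CompleteSpace K] in
theorem peval_zero : peval j (0 : PowerSeries R) y = 0 := by simp [peval]

omit [IsUltrametricDist K] [CompleteSpace K] in
theorem peval_monomial (k : ℕ) (r : R) : peval j (PowerSeries.monomial k r) y = j r * y ^ k := by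
  rw [peval, tsum_eq_single k]
  · simp
  · intro i hi; simp [PowerSeries.coeff_monomial, hi]

omit [IsUltrametricDist K] [CompleteSpace K] in
theorem peval_C_mul_X_pow (k : ℕ) (r : R) :
    peval j (PowerSeries.C r * PowerSeries.X ^ k) y = j r * y ^ k := by
  rw [← PowerSeries.monomial_eq_C_mul_X_pow, peval_monomial]

omit [IsUltrametricDist K] [CompleteSpace K] in
theorem peval_X : peval j (PowerSeries.X : PowerSeries R) y = y := by
  rw [PowerSeries.X_eq, peval_monomial, map_one, one_mul, pow_one]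

omit [CompleteSpace K] in
theorem norm_peval_le (hj : ∀ r, ‖j r‖ ≤ 1) (hy : ‖y‖ ≤ 1) (f : PowerSeries R)
    (hf : PowerSeries.constantCoeff f = 0) : ‖peval j f y‖ ≤ ‖y‖ := by
  refine IsUltrametricDist.norm_tsum_le_of_forall_le_of_nonneg (norm_nonneg y) fun k => ?_
  obtain rfl | hk := Nat.eq_zero_or_pos k
  · simp [hf]
  · rw [norm_mul, norm_pow]
    refine le_trans (mul_le_of_le_one_left (pow_nonneg (norm_nonneg _) _) (hj _)) ?_
    exact pow_le_of_le_one (norm_nonneg _) hy (Nat.pos_iff_ne_zero.mp hk)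

/-- Substitution into a series in one variable. -/
theorem mveval_powerSeries_subst (hj : ∀ r, ‖j r‖ ≤ 1) (ha : ∀ i, ‖a i‖ < 1) {f : PowerSeries R}
    {u : MvPowerSeries (Fin d) R} (hu : MvPowerSeries.constantCoeff u = 0) :
    mveval j (PowerSeries.subst u f) a = peval j f (mveval j u a) := by
  have hv : ‖mveval j u a‖ < 1 := norm_mveval_lt_one hj ha u hu
  rw [mveval_eq_evalHom hj ha, peval_eq_evalHom hj hv, PowerSeries.subst_def,
    evalHom_subst hj a ha (fun _ : Unit => u)
      (MvPowerSeries.hasSubst_of_constantCoeff_zero fun _ => hu)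
      (fun _ => by rw [← mveval_eq_evalHom hj ha]; exact hv)]
  exact DFunLike.congr_fun (evalHom_congr j hj _ _ fun s => (mveval_eq_evalHom hj ha u).symm) f

/-- Substitution of series in one variable. -/
theorem peval_subst_mv (hj : ∀ r, ‖j r‖ ≤ 1) (hy : ‖y‖ < 1) {f : MvPowerSeries (Fin e) R}
    {u : Fin e → PowerSeries R} (hu : ∀ s, PowerSeries.constantCoeff (u s) = 0) :
    peval j (MvPowerSeries.subst u f) y = mveval j f fun s => peval j (u s) y := by
  have hv : ∀ s, ‖peval j (u s) y‖ < 1 := fun s =>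
    lt_of_le_of_lt (norm_peval_le hj hy.le _ (hu s)) hy
  have h := evalHom_subst hj (fun _ : Unit => y) (fun _ => hy) u
    (MvPowerSeries.hasSubst_of_constantCoeff_zero hu)
    (fun s => by rw [← peval_eq_evalHom hj hy]; exact hv s) f
  rw [peval_eq_evalHom hj hy, mveval_eq_evalHom hj hv, h]
  exact DFunLike.congr_fun (evalHom_congr j hj _ _ fun s => (peval_eq_evalHom hj hy (u s)).symm) f

/-- Composition of series in one variable. -/
theorem peval_subst (hj : ∀ r, ‖j r‖ ≤ 1) (hy : ‖y‖ < 1) {f g : PowerSeries R}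
    (hg : PowerSeries.constantCoeff g = 0) :
    peval j (PowerSeries.subst g f) y = peval j f (peval j g y) := by
  have hv : ‖peval j g y‖ < 1 := lt_of_le_of_lt (norm_peval_le hj hy.le g hg) hy
  rw [peval_eq_evalHom hj hy, peval_eq_evalHom hj hv, PowerSeries.subst_def,
    evalHom_subst hj (fun _ : Unit => y) (fun _ => hy) (fun _ : Unit => g)
      (MvPowerSeries.hasSubst_of_constantCoeff_zero fun _ => hg)
      (fun _ => by rw [← peval_eq_evalHom hj hy]; exact hv)]
  exact DFunLike.congr_fun (evalHom_congr j hj _ _ fun s => (peval_eq_evalHom hj hy g).symm) f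

omit [IsUltrametricDist K] [CompleteSpace K] in
/-- Changing the coefficient ring. -/
theorem mveval_map {R' : Type} [CommRing R'] (φ : R' →+* R) (f : MvPowerSeries (Fin d) R') :
    mveval j (f.map φ) a = mveval (j.comp φ) f a := by
  simp [mveval, MvPowerSeries.coeff_map]

omit [IsUltrametricDist K] [CompleteSpace K] in
theorem peval_map {R' : Type} [CommRing R'] (φ : R' →+* R) (f : PowerSeries R') :
    peval j (PowerSeries.map φ f) y = peval (j.comp φ) f y := by
  simp [peval, PowerSeries.coeff_map]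

end Vale.Agent.P217.Eval
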