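import Mathlib
import Vale.Agent.P217.Interfaces
import Vale.Agent.P217.Eval
import Vale.Agent.P217.CPoint

/-!
# P217, blocks C and C0: points of the open strata

At a radical ideal avoiding `u_h` (or `p`) there is a point of the punctured stratum close to the
origin on which the ideal vanishes.
-/

noncomputable section

namespace Vale.Agent.P217

open scoped Classical

variable {p n : ℕ} [Fact p.Prime]

namespace CPoint

theorem residue_surjective : Function.Surjective (residue : E0 p n →+* GaloisField p n) := by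
  intro a
  refine ⟨MvPowerSeries.C (WittVector.teichmuller p a), ?_⟩
  simp [residue]

theorem ker_residue :
    RingHom.ker (residue : E0 p n →+* GaloisField p n) = IsLocalRing.maximalIdeal (E0 p n) :=
  IsLocalRing.eq_maximalIdeal (RingHom.ker_isMaximal_of_surjective residue residue_surjective)

instance finite_residueField : Finite (IsLocalRing.ResidueField (E0 p n)) := by
  have e : (E0 p n ⧸ RingHom.ker (residue : E0 p n →+* GaloisField p n)) ≃+* GaloisField p n :=
    RingHom.quotientKerEquivOfSurjective residue_surjective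
  have h1 : Finite (E0 p n ⧸ RingHom.ker (residue : E0 p n →+* GaloisField p n)) :=
    Finite.of_equiv _ e.symm.toEquiv
  rw [ker_residue] at h1
  exact h1

theorem mem_maximal_iff {a : E0 p n} :
    a ∈ IsLocalRing.maximalIdeal (E0 p n) ↔ residue a = 0 := by
  rw [← ker_residue, RingHom.mem_ker]

theorem natCast_mem_maximal : (p : E0 p n) ∈ IsLocalRing.maximalIdeal (E0 p n) :=
  mem_maximal_iff.mpr (by rw [map_natCast]; exact CharP.cast_eq_zero _ p)

theorem X_mem_maximal (i : Fin (n - 1)) :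
    (MvPowerSeries.X i : E0 p n) ∈ IsLocalRing.maximalIdeal (E0 p n) :=
  mem_maximal_iff.mpr (by simp [residue])

theorem dvd_of_constantCoeff_eq_zero {a : WittVector p (GaloisField p n)}
    (ha : WittVector.constantCoeff a = 0) : (p : WittVector p (GaloisField p n)) ∣ a := by
  rw [← Ideal.mem_span_singleton, ← WittVector.ker_constantCoeff]
  exact ha

theorem mem_of_reduction_eq_zero {P : Ideal (E0 p n)} (hp : (p : E0 p n) ∈ P) {f : E0 p n}
    (hf : MvPowerSeries.map WittVector.constantCoeff f = 0) : f ∈ P := by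
  have h : ∀ a, ∃ c, MvPowerSeries.coeff a f = (p : WittVector p (GaloisField p n)) * c := by
    intro a
    refine dvd_of_constantCoeff_eq_zero ?_
    have := congrArg (MvPowerSeries.coeff a) hf
    simpa using this
  choose c hc using h
  let g : E0 p n := c
  have hfg : f = (p : E0 p n) * g := by
    ext1 a
    rw [hc a, ← map_natCast (MvPowerSeries.C (σ := Fin (n - 1))
      (R := WittVector p (GaloisField p n))), MvPowerSeries.coeff_C_mul]
    rfl
  rw [hfg]
  exact P.mul_mem_right _ hp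

theorem powerSeries_complete (e : ℕ → Bool) : ∃ a : PowerSeries (ZMod p), ∀ M : ℕ,
    PowerSeries.X ^ M ∣ a - ∑ i ∈ Finset.range M, if e i then PowerSeries.X ^ i else 0 := by
  refine ⟨PowerSeries.mk fun i => if e i then 1 else 0, fun M => ?_⟩
  rw [PowerSeries.X_pow_dvd_iff]
  intro m hm
  rw [map_sub, map_sum, PowerSeries.coeff_mk, Finset.sum_eq_single m]
  · split_ifs <;> simp
  · intro i _ hi
    split_ifs <;> simp [PowerSeries.coeff_X_pow, Ne.symm hi]
  · intro h
    exact absurd (Finset.mem_range.mpr hm) h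

theorem padicInt_complete (e : ℕ → Bool) : ∃ a : ℤ_[p], ∀ M : ℕ,
    (p : ℤ_[p]) ^ M ∣ a - ∑ i ∈ Finset.range M, if e i then (p : ℤ_[p]) ^ i else 0 := by
  set F : ℕ → ℤ_[p] := fun i => if e i then (p : ℤ_[p]) ^ i else 0 with hF
  have hlt : ‖(p : ℤ_[p])‖ < 1 := by
    rw [PadicInt.norm_p]
    exact inv_lt_one_of_one_lt₀ (by exact_mod_cast (Fact.out : p.Prime).one_lt)
  have hbound : ∀ (g : ℕ → Bool) (i : ℕ),
      ‖(if g i then (p : ℤ_[p]) ^ i else 0)‖ ≤ ‖(p : ℤ_[p])‖ ^ i := by
    intro g i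
    split_ifs
    · exact (norm_pow _ _).le
    · simp
  have hsum : Summable F :=
    Summable.of_norm_bounded (summable_geometric_of_lt_one (norm_nonneg _) hlt) (hbound e)
  refine ⟨∑' i, F i, fun M => ⟨∑' i, if e (i + M) then (p : ℤ_[p]) ^ i else 0, ?_⟩⟩
  have hsum' : Summable fun i => if e (i + M) then (p : ℤ_[p]) ^ i else 0 :=
    Summable.of_norm_bounded (summable_geometric_of_lt_one (norm_nonneg _) hlt)
      (hbound fun i => e (i + M))
  rw [← hsum.sum_add_tsum_nat_add M, ← hsum'.tsum_mul_left]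
  simp only [hF, add_sub_cancel_left]
  refine tsum_congr fun i => ?_
  split_ifs <;> simp [pow_add, mul_comm]

theorem norm_zmod_cast_le {C : Type} [NormedField C] [IsUltrametricDist C] [CharP C p]
    (r : ZMod p) : ‖ZMod.castHom (dvd_refl p) C r‖ ≤ 1 := by
  obtain ⟨k, rfl⟩ := ZMod.natCast_zmod_surjective r
  rw [map_natCast]
  exact IsUltrametricDist.norm_natCast_le_one C k

/-- A point in characteristic p on which a radical ideal avoiding a variable vanishes. -/
theorem exists_point_pos {C : Type} [NontriviallyNormedField C] [IsUltrametricDist C]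
    [CompleteSpace C] [IsAlgClosed C] [CharP C p] (J : Ideal (E0 p n)) (hJ : J.IsRadical)
    (hpJ : (p : E0 p n) ∈ J) (i : Fin (n - 1))
    (hi : (MvPowerSeries.X i : E0 p n) ∉ J) :
    ∃ χ : E0 p n →+* C, (∀ a ∈ J, χ a = 0) ∧ χ (MvPowerSeries.X i) ≠ 0 ∧
      ∀ a ∈ IsLocalRing.maximalIdeal (E0 p n), ‖χ a‖ ≤ (p : ℝ)⁻¹ := by
  obtain ⟨P, hP, hJP, hiP, hQ⟩ := exists_prime J hJ _ hi
  obtain ⟨N, hN1, hN⟩ := exists_pow_le P hiP hQ
  let μ : E0 p n →+* MvPowerSeries (Fin (n - 1)) (GaloisField p n) :=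
    MvPowerSeries.map WittVector.constantCoeff
  have hμ : Function.Surjective μ := by
    intro f
    let g : E0 p n := fun a => WittVector.teichmuller p (MvPowerSeries.coeff a f)
    refine ⟨g, ?_⟩
    ext1 a
    rw [show μ g = MvPowerSeries.map WittVector.constantCoeff g from rfl,
      MvPowerSeries.coeff_map, show MvPowerSeries.coeff a g = g a from rfl]
    simp [g]
  have hker : RingHom.ker μ ≤ RingHom.ker (Ideal.Quotient.mk P) := fun f hf => by
    rw [Ideal.mk_ker]
    exact mem_of_reduction_eq_zero (hJP hpJ) hf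
  let lam := RingHom.liftOfSurjective μ hμ ⟨Ideal.Quotient.mk P, hker⟩
  have hlam : ∀ f, lam (μ f) = Ideal.Quotient.mk P f :=
    fun f => RingHom.liftOfSurjective_comp_apply μ hμ _ f
  let φ : PowerSeries (ZMod p) →+* E0 p n ⧸ P :=
    lam.comp ((MvPowerSeries.map (ZMod.castHom (dvd_refl p) (GaloisField p n))).comp
      (MvPowerSeries.rename (R := ZMod p) fun _ : Unit => i).toRingHom)
  have hφ : φ PowerSeries.X = Ideal.Quotient.mk P (MvPowerSeries.X i) := by
    show lam (MvPowerSeries.map (ZMod.castHom (dvd_refl p) (GaloisField p n))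
      (MvPowerSeries.rename (R := ZMod p) (fun _ : Unit => i) (MvPowerSeries.X ()))) = _
    rw [MvPowerSeries.rename_X, MvPowerSeries.map_X, ← hlam]
    simp [μ]
  have hfin := quotient_finite PowerSeries.X powerSeries_complete P (X_mem_maximal i) hN φ hφ
  have hp1 : (0 : ℝ) < (p : ℝ)⁻¹ :=
    inv_pos.mpr (by exact_mod_cast (Fact.out : p.Prime).pos)
  obtain ⟨t0, ht0, htN⟩ := NormedField.exists_norm_lt C (pow_pos hp1 N)
  have ht1 : ‖t0‖ < 1 := htN.trans_le (pow_le_one₀ hp1.le
    (inv_le_one_of_one_le₀ (by exact_mod_cast (Fact.out : p.Prime).one_le)))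
  let ψ : PowerSeries (ZMod p) →+* C :=
    Eval.evalHom (σ := Unit) (ZMod.castHom (dvd_refl p) C) norm_zmod_cast_le (fun _ => t0)
      fun _ => ht1
  have hψ1 : ∀ a, ‖ψ a‖ ≤ 1 := fun a => by
    simp only [ψ, Eval.evalHom, RingHom.coe_comp, Function.comp_apply, Subring.coe_subtype]
    exact Eval.norm_coe_le _
  have hψX : ψ PowerSeries.X = t0 := by
    rw [← Eval.peval_eq_evalHom (j := ZMod.castHom (dvd_refl p) C) (y := t0) norm_zmod_cast_le ht1]
    exact Eval.peval_X
  obtain ⟨g, hg1, hg⟩ := exists_hom PowerSeries.X_irreducible φ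
    (by rw [hφ]; exact fun h => hiP (Ideal.Quotient.eq_zero_iff_mem.mp h)) hfin ψ
    (by rw [hψX]; exact norm_pos_iff.mp ht0) hψ1
  refine ⟨g.comp (Ideal.Quotient.mk P), fun a ha => ?_, ?_, fun a ha => ?_⟩
  · simp [Ideal.Quotient.eq_zero_iff_mem.mpr (hJP ha)]
  · rw [RingHom.comp_apply, ← hφ, hg, hψX]
    exact norm_pos_iff.mp ht0
  · obtain ⟨z, hz, w, hw, hzw⟩ := Submodule.mem_sup.mp (hN (Ideal.pow_mem_pow ha N))
    obtain ⟨b, rfl⟩ := Ideal.mem_span_singleton.mp hw
    refine le_of_pow_le_pow_left₀ (by omega : N ≠ 0) hp1.le ?_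
    rw [← norm_pow, ← map_pow, ← hzw, RingHom.comp_apply, map_add,
      Ideal.Quotient.eq_zero_iff_mem.mpr hz, zero_add, map_mul, map_mul, ← hφ, hg, hψX, norm_mul]
    exact (mul_le_of_le_one_right (norm_nonneg _) (hg1 _)).trans htN.le

end CPoint

open CPoint in
theorem blockC : BlockC := by
  intro p n h _ C _ _ _ _ _ h1 hn J hJ hIJ hvh
  have hpJ : (p : E0 p n) ∈ J := hIJ (by
    rw [heightIdeal, if_neg (by omega : h ≠ 0)]
    exact Ideal.subset_span (Set.mem_insert _ _))
  let i : Fin (n - 1) := ⟨h - 1, by omega⟩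
  have hv : vv p n h = MvPowerSeries.X i := by
    simp [vv, h1, hn, i]
  obtain ⟨χ, hχJ, hχi, hχm⟩ := exists_point_pos (C := C) J hJ hpJ i (hv ▸ hvh)
  have hker : RingHom.ker (WittVector.constantCoeff : WittVector p (GaloisField p n) →+* _) ≤
      RingHom.ker (χ.comp constants) := by
    intro a ha
    obtain ⟨c, rfl⟩ := dvd_of_constantCoeff_eq_zero ha
    rw [RingHom.mem_ker, map_mul, map_natCast, CharP.cast_eq_zero, zero_mul]
  let emb : GaloisField p n →+* C :=
    RingHom.liftOfSurjective WittVector.constantCoeff (WittVector.constantCoeff_surjective p)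
      ⟨χ.comp constants, hker⟩
  refine ⟨⟨χ, emb, fun a => ?_, fun j hj => ?_, hv ▸ hχi, hχm⟩, hχJ⟩
  · exact (RingHom.liftOfSurjective_comp_apply _ (WittVector.constantCoeff_surjective p)
      ⟨χ.comp constants, hker⟩ a).symm
  · by_cases hj1 : 1 ≤ j
    · apply hχJ
      refine hIJ ?_
      rw [heightIdeal, if_neg (by omega : h ≠ 0)]
      exact Ideal.subset_span (Set.mem_insert_of_mem _ ⟨j, hj1, hj, rfl⟩)
    · have hj0 : j = 0 := by omega
      subst hj0
      have : vv p n 0 = 0 := by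
        simp [vv, show ¬ (0 = n) by omega]
      rw [this, map_zero]

open CPoint in
theorem blockC0 : BlockC0 := by
  intro p n _ hn J hJ hpJ
  obtain ⟨P, hP, hJP, hpP, hQ⟩ := exists_prime J hJ _ hpJ
  obtain ⟨N, hN1, hN⟩ := exists_pow_le P hpP hQ
  let φ : ℤ_[p] →+* E0 p n ⧸ P := (Ideal.Quotient.mk P).comp (constants.comp
    ((WittVector.map (ZMod.castHom (dvd_refl p) (GaloisField p n))).comp
      (WittVector.fromPadicInt p)))
  have hφ : φ (p : ℤ_[p]) = Ideal.Quotient.mk P (p : E0 p n) := by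
    rw [map_natCast, map_natCast]
  have hfin := quotient_finite (p : ℤ_[p]) padicInt_complete P natCast_mem_maximal hN φ hφ
  let ψ : ℤ_[p] →+* PadicComplex p :=
    (algebraMap ℚ_[p] (PadicComplex p)).comp PadicInt.Coe.ringHom
  have hψ1 : ∀ a, ‖ψ a‖ ≤ 1 := fun a => by
    have : ψ a = algebraMap ℚ_[p] (PadicComplex p) (a : ℚ_[p]) := rfl
    rw [this, norm_algebraMap']
    exact a.2
  obtain ⟨g, hg1, hg⟩ := exists_hom PadicInt.irreducible_p φ
    (by rw [hφ]; exact fun h => hpP (Ideal.Quotient.eq_zero_iff_mem.mp h)) hfin ψ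
    (by rw [map_natCast]; exact_mod_cast (Fact.out : p.Prime).ne_zero) hψ1
  refine ⟨g.comp (Ideal.Quotient.mk P), fun a ha => ?_, fun a ha => ?_⟩
  · simp [Ideal.Quotient.eq_zero_iff_mem.mpr (hJP ha)]
  · obtain ⟨z, hz, w, hw, hzw⟩ := Submodule.mem_sup.mp (hN (Ideal.pow_mem_pow ha N))
    obtain ⟨b, rfl⟩ := Ideal.mem_span_singleton.mp hw
    refine lt_of_pow_lt_pow_left₀ N zero_le_one ?_
    rw [one_pow, ← norm_pow, ← map_pow, ← hzw, RingHom.comp_apply, map_add,
      Ideal.Quotient.eq_zero_iff_mem.mpr hz, zero_add, map_mul, map_mul, ← hφ, hg, norm_mul]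
    refine (mul_le_of_le_one_right (norm_nonneg _) (hg1 _)).trans_lt ?_
    rw [map_natCast, ← map_natCast (algebraMap ℚ_[p] (PadicComplex p)), norm_algebraMap',
      Padic.norm_p]
    exact inv_lt_one_of_one_lt₀ (by exact_mod_cast (Fact.out : p.Prime).one_lt)

end Vale.Agent.P217
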