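import Vale.Agent.P217.HAdditive
import Vale.Agent.P217.I.Law

/-!
P217 block H: a group of points killed by a nonzero fixed series satisfies a linear relation
over the fixed endomorphisms.
-/

noncomputable section

namespace Vale.Agent.P217.HB

open MvPowerSeries

variable {C : Type} [NontriviallyNormedField C] [IsUltrametricDist C] [CompleteSpace C]
  {p h : ℕ} [Fact p.Prime] [CharP C p] [IsAlgClosed C]

omit [IsUltrametricDist C] [CompleteSpace C] [IsAlgClosed C] in
theorem GoodSet.image_proj {d : ℕ} {G : FormalGroup (fixSub C p h)} {S : Set (Fin (d + 1) → C)}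
    (hS : GoodSet G S) (k : Fin (d + 1)) :
    GoodSet G ((fun μ i => μ (k.succAbove i)) '' S) where
  small := by
    rintro _ ⟨μ, hμ, rfl⟩ i
    exact hS.small μ hμ _
  zero := ⟨0, hS.zero, rfl⟩
  add := by
    rintro _ ⟨μ, hμ, rfl⟩ _ ⟨ν, hν, rfl⟩
    exact ⟨_, hS.add μ hμ ν hν, rfl⟩
  neg := by
    rintro _ ⟨μ, hμ, rfl⟩
    obtain ⟨ν, hν, h0⟩ := hS.neg μ hμ
    exact ⟨_, ⟨ν, hν, rfl⟩, fun i => h0 _⟩
  pow := by
    rintro _ ⟨μ, hμ, rfl⟩
    exact ⟨_, hS.pow μ hμ, rfl⟩

/-- The graph lemma: a nontrivial relation over the endomorphisms. -/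
theorem exists_relation (hh : 1 ≤ h) {G : FormalGroup (fixSub C p h)} [G.IsComm] :
    ∀ (d : ℕ) (S : Set (Fin d → C)) (hS : GoodSet G S),
      (∃ f : MvPowerSeries (Fin d) (fixSub C p h), f ≠ 0 ∧ Van S f) →
      ∃ b : Fin d → End' G, (∃ j, (b j).1 ≠ 0) ∧
        ∀ μ (hμ : μ ∈ S),
          ∑ j, app (hh := hh) (b j) (⟨μ j, hS.small μ hμ j⟩ : Pt hh G) = 0 := by
  intro d
  induction d with
  | zero =>
    rintro S hS ⟨f, hf0, hf⟩
    refine absurd (MvPowerSeries.ext fun a => ?_) hf0
    rw [Subsingleton.elim a 0, coeff_zero_of_van hS hf, map_zero]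
  | succ d ih =>
    intro S hS hex
    obtain ⟨f, k, hf, hfk⟩ := exists_linear hh hS hex
    set S' : Set (Fin d → C) := (fun μ i => μ (k.succAbove i)) '' S with hS'def
    have hS' : GoodSet G S' := hS.image_proj k
    by_cases hd : ∃ g : MvPowerSeries (Fin d) (fixSub C p h), g ≠ 0 ∧ Van S' g
    · obtain ⟨b, ⟨j, hj⟩, hb⟩ := ih S' hS' hd
      refine ⟨Fin.insertNth k ⟨0, isHom_zero⟩ b, ⟨k.succAbove j, by simpa using hj⟩, fun μ hμ => ?_⟩
      rw [Fin.sum_univ_succAbove _ k]
      simp only [Fin.insertNth_apply_same, Fin.insertNth_apply_succAbove]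
      rw [hb _ ⟨μ, hμ, rfl⟩, add_zero]
      exact Subtype.ext Eval.peval_zero
    · push Not at hd
      have hdense : ∀ g : MvPowerSeries (Fin d) (fixSub C p h), Van S' g → g = 0 := fun g hg => by
        by_contra hne
        exact hd g hne hg
      obtain ⟨c', hc'⟩ := fix_inv hh _ hfk
      have hf0 : constantCoeff f = 0 := by
        rw [← coeff_zero_eq_constantCoeff_apply]
        exact coeff_zero_of_van hS hf
      obtain ⟨θ, hθ0, hθ⟩ := exists_implicit k hf0 hc'
      have hgraph : ∀ μ ∈ S,
          μ k = mveval (fixSub C p h).subtype θ (fun i => μ (k.succAbove i)) := by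
        intro μ hμ
        set μ' : Fin d → C := fun i => μ (k.succAbove i)
        have hμ' : ∀ i, ‖μ' i‖ < 1 := fun i => hS.small μ hμ _
        set y := mveval (fixSub C p h).subtype θ μ' with hy
        have hylt : ‖y‖ < 1 := Eval.norm_mveval_lt_one (norm_fix_le hh) hμ' _ hθ0
        have hν : ∀ s, ‖Fin.insertNth (α := fun _ => C) k y μ' s‖ < 1 := by
          intro s
          induction s using Fin.succAboveCases k with
          | x => simpa
          | p i => simpa using hμ' i
        have hvals : (fun s => mveval (fixSub C p h).subtype (ins k θ s) μ') =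
            Fin.insertNth (α := fun _ => C) k y μ' := by
          funext s
          induction s using Fin.succAboveCases k with
          | x => simp [ins, hy]
          | p i => simp [ins, Eval.mveval_X]
        have h0 : mveval (fixSub C p h).subtype f (Fin.insertNth (α := fun _ => C) k y μ') = 0 := by
          rw [← hvals, ← Eval.mveval_subst (norm_fix_le hh) hμ' (constantCoeff_ins k hθ0), hθ,
            Eval.mveval_zero]
        have h1 := eq_of_zero (norm_fix_le hh) k hc' (hS.small μ hμ) hν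
          (fun i => by simp [μ']) (hf μ hμ) h0
        simpa using h1
      have hA : IsAdd G θ := by
        refine isAdd_of_dense hh hS' hdense hθ0 ?_
        rintro _ ⟨μ, hμ, rfl⟩ _ ⟨ν, hν, rfl⟩
        have h1 := hgraph _ (hS.add μ hμ ν hν)
        rw [hgraph μ hμ, hgraph ν hν] at h1
        exact h1.symm
      obtain ⟨t, ht⟩ := exists_endomorphisms hh hθ0 hA
      obtain ⟨ι, hι0, hι⟩ := exists_inverse (hh := hh) (G := G)
      refine ⟨Fin.insertNth k ι t, ⟨k, by simpa using hι0⟩, fun μ hμ => ?_⟩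
      rw [Fin.sum_univ_succAbove _ k]
      simp only [Fin.insertNth_apply_same, Fin.insertNth_apply_succAbove]
      have h2 : (∑ i, app (hh := hh) (t i) (⟨μ (k.succAbove i), hS.small μ hμ _⟩ : Pt hh G)) =
          ⟨μ k, hS.small μ hμ k⟩ := Subtype.ext ((ht _).trans (hgraph μ hμ).symm)
      rw [h2]
      exact (add_comm _ _).trans (hι _)

end HB

open HB MvPowerSeries in
/-- Block H of the proof. -/
theorem blockH : BlockH := by
  intro p h d _ C _ _ _ _ _ G₀ hh hG₀ S hS hex
  set G : FormalGroup (fixSub C p h) :=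
    G₀.map ((ZMod.castHom (dvd_refl p) (fixSub C p h)).comp PadicInt.toZMod) with hG
  have hGC : G.map (fixSub C p h).subtype = hondaIn G₀ C := by
    ext1
    simp only [hG, hondaIn, FormalGroup.map]
    ext a
    simp only [coeff_map]
    rw [← RingHom.comp_apply, ← RingHom.comp_assoc]
    congr 2
    exact RingHom.ext_zmod _ _
  have : G₀.IsComm := I.isComm_of_lift hh hG₀
  have : G.IsComm := I.isComm_map G₀ _
  obtain ⟨hsmall, hzero, hadd, hneg, hpow⟩ := hS
  have hgadd : ∀ a b : C, gadd (hondaIn G₀ C) a b =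
      mveval (fixSub C p h).subtype G.toPowerSeries ![a, b] := fun a b => by
    rw [← hGC, EF.gadd_map]
    rfl
  have hgood : GoodSet G S := by
    refine ⟨hsmall, hzero, fun μ hμ ν hν => ?_, fun μ hμ => ?_, hpow⟩
    · simpa only [hgadd] using hadd μ hμ ν hν
    · simpa only [hgadd] using hneg μ hμ
  obtain ⟨f, hf0, hff, hfv⟩ := hex
  obtain ⟨g, rfl⟩ := exists_lift f hff
  have hg : g ≠ 0 := fun e => hf0 (by rw [e, map_zero])
  obtain ⟨b, ⟨j, hj⟩, hb⟩ := exists_relation hh d S hgood
    ⟨g, hg, fun μ hμ => by rw [← mveval_map_subtype]; exact hfv μ hμ⟩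
  refine ⟨fun i => PowerSeries.map (fixSub C p h).subtype (b i).1, fun i => ⟨fun k => ?_, ?_, ?_⟩,
    ⟨j, fun e => hj ?_⟩, fun μ hμ => ?_⟩
  · rw [PowerSeries.coeff_map]
    exact mem_fixSub.1 (PowerSeries.coeff k (b i).1).2
  · rw [← PowerSeries.coeff_zero_eq_constantCoeff_apply, PowerSeries.coeff_map,
      PowerSeries.coeff_zero_eq_constantCoeff_apply, (b i).2.1, map_zero]
  · rw [← hGC, FormalGroup.map]
    have hX : ∀ s : Fin 2, PowerSeries.HasSubst (X s : MvPowerSeries (Fin 2) (fixSub C p h)) :=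
      fun s => PowerSeries.HasSubst.of_constantCoeff_zero (constantCoeff_X _)
    rw [← PowerSeries.map_subst (PowerSeries.HasSubst.of_constantCoeff_zero G.zero_constantCoeff),
      (b i).2.2, MvPowerSeries.map_subst (hasSubst_pair
        (PowerSeries.constantCoeff_subst_eq_zero (constantCoeff_X _) _ (b i).2.1)
        (PowerSeries.constantCoeff_subst_eq_zero (constantCoeff_X _) _ (b i).2.1))]
    congr 1
    funext s
    fin_cases s <;>
      simp [PowerSeries.map_subst (hX _)]
  · ext k
    have := congrArg (PowerSeries.coeff k) e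
    simpa using this
  · have h1 := congrArg Subtype.val (hb μ hμ)
    rw [← List.sum_ofFn, ← pointSum_eq, hGC, List.map_ofFn] at h1
    refine Eq.trans ?_ h1
    congr 2

end Vale.Agent.P217
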