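import Vale.Agent.P217.Interfaces
import Vale.Agent.P217.Eval

/-!
# P217, block EF: interfaces between its parts

The period map is `i ∘ π`, where `π` is the covering map of the open disc at a point and `i` is a
homomorphism from the law at the point to the Honda law of height h.
-/

noncomputable section

namespace Vale.Agent.P217.EF

open Filter

variable {p : ℕ} [Fact p.Prime] {n h : ℕ} {C : Type}

/-- A homomorphism of formal group laws. -/
def IsHom {R : Type} [CommRing R] (G G' : FormalGroup R) (i : PowerSeries R) : Prop :=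
  PowerSeries.constantCoeff i = 0 ∧
    PowerSeries.subst G.toPowerSeries i = MvPowerSeries.subst
      ![PowerSeries.subst (MvPowerSeries.X 0 : MvPowerSeries (Fin 2) R) i,
        PowerSeries.subst (MvPowerSeries.X 1 : MvPowerSeries (Fin 2) R) i] G'.toPowerSeries

/-- The law at a point. -/
def lawAt [NormedField C] (F : FormalGroup (E0 p n)) (P : GoodPoint p n h C) : FormalGroup C :=
  F.map P.chi

/-- Multiplication by p at a point. -/
def pMul [NormedField C] (F : FormalGroup (E0 p n)) (P : GoodPoint p n h C) (z : C) : C :=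
  peval P.chi (nsmulSeries F p) z

/-- The covering map of the open disc at a point: the limit over m of the m-th iterate of
multiplication by p at the root of order p ^ (n * m). -/
def piMap [NormedField C] [IsAlgClosed C] [CharP C p] (F : FormalGroup (E0 p n))
    (P : GoodPoint p n h C) (z : C) : C :=
  limUnder atTop fun m : ℕ => (pMul F P)^[m] ((frobeniusEquiv C p).symm^[n * m] z)

/-- P' is the point P moved by η in the coordinates h, ..., n - 1. -/
def IsShift [NormedField C] (P : GoodPoint p n h C) (η : Fin (n - h) → C)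
    (P' : GoodPoint p n h C) : Prop :=
  P'.emb = P.emb ∧
    ∀ i : Fin (n - h), P'.chi (vv p n (h + i)) = P.chi (vv p n (h + i)) + η i

/-- The map a agrees with a polynomial up to order E at the origin. -/
def Approx [NormedField C] {d : ℕ} (E : ℕ) (a : (Fin d → C) → C)
    (f : MvPolynomial (Fin d) C) : Prop :=
  ∃ K δ : ℝ, 0 < δ ∧ ∀ η, ‖η‖ ≤ δ → ‖a η - MvPolynomial.eval η f‖ ≤ K * ‖η‖ ^ E

/-- The hom to the Honda law: at every point there is one given by digits, with coefficients of
norm at most 1 and nonzero linear term. -/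
def HomPin : Prop :=
  ∀ (p n h : ℕ) [Fact p.Prime] (C : Type) [NontriviallyNormedField C] [IsUltrametricDist C]
    [CompleteSpace C] [IsAlgClosed C] [CharP C p] (Gh : FormalGroup ℤ_[p]),
    1 ≤ h → h ≤ n → IsHondaLift h Gh →
      ∀ F : FormalGroup (E0 p n), IsUniversalDeformation p n F →
        ∀ P : GoodPoint p n h C, ∃ a : ℕ → C, (∀ j, ‖a j‖ ≤ 1) ∧ a 0 ≠ 0 ∧
          a 0 ^ p ^ h = P.chi (vv p n h) * a 0 ∧
          (∀ k, ‖PowerSeries.coeff k (digitSeries p (hondaIn Gh C) a)‖ ≤ 1) ∧
          PowerSeries.coeff 1 (digitSeries p (hondaIn Gh C) a) = a 0 ∧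
          IsHom (lawAt F P) (hondaIn Gh C) (digitSeries p (hondaIn Gh C) a)

/-- The linearisation of a map which agrees with a digit hom up to norm 1 / p. -/
def LinearisedPin : Prop :=
  ∀ (p n h : ℕ) [Fact p.Prime] (C : Type) [NontriviallyNormedField C] [IsUltrametricDist C]
    [CompleteSpace C] [IsAlgClosed C] [CharP C p] (T : Untilt p C) (Gn Gh : FormalGroup ℤ_[p]),
    1 ≤ h → h < n → IsHondaLift n Gn → IsHondaLift h Gh →
      ∀ F : FormalGroup (E0 p n), IsUniversalDeformation p n F →
        ∀ (P : GoodPoint p n h C) (a : ℕ → C), (∀ j, ‖a j‖ ≤ 1) →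
          IsHom (lawAt F P) (hondaIn Gh C) (digitSeries p (hondaIn Gh C) a) →
          ∀ Φ : C → C, (∀ z, ‖z‖ < 1 → ‖Φ z‖ < 1) →
            (∀ z, ‖z‖ < 1 → Φ (z ^ p ^ n) = Φ z ^ p ^ h) →
            (∀ z, ‖z‖ < 1 →
              ‖Φ z - peval (RingHom.id C) (digitSeries p (hondaIn Gh C) a) z‖ ≤ (p : ℝ)⁻¹) →
            ∃ M : Matrix (Fin h) (Fin n) (PadicComplex p),
              ∀ z, ‖z‖ < 1 → linVec T h (Φ z) = M.mulVec (linVec T n z)

/-- Kernel elements whose linear parts in η form an invertible matrix, and their independence. -/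
def JacPin : Prop :=
  ∀ (p n h : ℕ) [Fact p.Prime] (C : Type) [NontriviallyNormedField C] [IsUltrametricDist C]
    [CompleteSpace C] [IsAlgClosed C] [CharP C p] (Gn : FormalGroup ℤ_[p]),
    1 ≤ h → h < n → IsHondaLift n Gn →
      ∀ F : FormalGroup (E0 p n), IsUniversalDeformation p n F →
        ∀ P : GoodPoint p n h C, ∃ (ξ : Fin (n - h) → C)
          (L : Matrix (Fin (n - h)) (Fin (n - h)) C),
          (∀ j, ‖ξ j‖ < 1) ∧ (∀ j, piMap F P (ξ j) = 0) ∧ IsUnit L.det ∧
          (∃ K δ : ℝ, 0 < δ ∧ ∀ η P', IsShift P η P' → ‖η‖ ≤ δ →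
            ∀ j, ‖piMap F P' (ξ j) - L.mulVec η j‖ ≤ K * ‖η‖ ^ 2) ∧
          ∀ a : Fin (n - h) → ℤ_[p],
            (∀ ε : ℝ, 0 < ε → ∃ N, ∀ m, N ≤ m → ‖pointSum (hondaIn Gn C)
              (List.ofFn fun j => nPoint (hondaIn Gn C) ((a j).appr m) (ξ j))‖ < ε) → a = 0

end Vale.Agent.P217.EF
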