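import Vale.Agent.P217.GFixed

/-!
P217 block G: descent of a series with small values along Frobenius orbits.
-/

namespace Vale.Agent.P217.Descent

open Filter Topology

noncomputable section

variable {C : Type*} [NormedField C] {d : ℕ}

/-- Exponents of total degree less than `E`. -/
def box (d E : ℕ) : Finset (Fin d →₀ ℕ) :=
  (Finset.range E).biUnion fun k => Finset.finsuppAntidiag Finset.univ k

theorem mem_box {E : ℕ} {β : Fin d →₀ ℕ} : β ∈ box d E ↔ ∑ j, β j < E := by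
  simp [box, Finset.mem_finsuppAntidiag]

/-- A monomial evaluated at a point. -/
def mon (μ : Fin d → C) (β : Fin d →₀ ℕ) : C := ∏ j, μ j ^ β j

/-- Evaluation of a truncated series. -/
def teval {E : ℕ} (v : box d E → C) (μ : Fin d → C) : C := ∑ β : box d E, v β * mon μ β.1

/-- The truncation below degree `E`. -/
def trunc' (E : ℕ) (φ : (Fin d →₀ ℕ) → C) : box d E → C := fun β => φ β.1

/-- Evaluation of a series. -/
def sev (φ : (Fin d →₀ ℕ) → C) (μ : Fin d → C) : C := ∑' β, φ β * mon μ β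

theorem norm_mon_le (μ : Fin d → C) (M : ℝ) (hμ : ∀ j, ‖μ j‖ ≤ M) (β : Fin d →₀ ℕ) :
    ‖mon μ β‖ ≤ M ^ (∑ j, β j) := by
  rw [mon, norm_prod, ← Finset.prod_pow_eq_pow_sum]
  exact Finset.prod_le_prod (fun j _ => norm_nonneg _) fun j _ => by
    rw [norm_pow]; exact pow_le_pow_left₀ (norm_nonneg _) (hμ j) _

variable [IsUltrametricDist C]

theorem norm_sum_le' {ι : Type*} (s : Finset ι) (f : ι → C) (K : ℝ) (hK : 0 ≤ K)
    (h : ∀ i ∈ s, ‖f i‖ ≤ K) : ‖∑ i ∈ s, f i‖ ≤ K :=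
  IsUltrametricDist.norm_sum_le_of_forall_le_of_nonneg hK h

theorem summable_series [CompleteSpace C] (φ : (Fin d →₀ ℕ) → C) (hφ : ∀ β, ‖φ β‖ ≤ 1)
    (μ : Fin d → C) (M : ℝ) (hM0 : 0 ≤ M) (hM : M < 1) (hμ : ∀ j, ‖μ j‖ ≤ M) :
    Summable fun β => φ β * mon μ β := by
  apply NonarchimedeanAddGroup.summable_of_tendsto_cofinite_zero
  rw [NormedAddGroup.tendsto_nhds_zero]
  intro ε hε
  obtain ⟨k, hk⟩ := exists_pow_lt_of_lt_one hε hM
  rw [Filter.eventually_cofinite]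
  refine (box d k).finite_toSet.subset fun β hβ => ?_
  simp only [Set.mem_ofPred_eq, not_lt] at hβ
  simp only [SetLike.mem_coe, mem_box]
  by_contra hge
  push Not at hge
  have h1 : ‖φ β * mon μ β‖ ≤ M ^ k := by
    rw [norm_mul]
    calc ‖φ β‖ * ‖mon μ β‖ ≤ 1 * M ^ (∑ j, β j) :=
          mul_le_mul (hφ β) (norm_mon_le μ M hμ β) (norm_nonneg _) zero_le_one
      _ ≤ M ^ k := by rw [one_mul]; exact pow_le_pow_of_le_one hM0 hM.le hge
  linarith

theorem norm_sev_sub_teval_le [CompleteSpace C] (φ : (Fin d →₀ ℕ) → C) (hφ : ∀ β, ‖φ β‖ ≤ 1)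
    (μ : Fin d → C) (M : ℝ) (hM0 : 0 ≤ M) (hM : M < 1) (hμ : ∀ j, ‖μ j‖ ≤ M) (E : ℕ) :
    ‖sev φ μ - teval (trunc' E φ) μ‖ ≤ M ^ E := by
  have hs := summable_series φ hφ μ M hM0 hM hμ
  have e : teval (trunc' E φ) μ = ∑ β ∈ box d E, φ β * mon μ β := by
    rw [teval, ← Finset.sum_coe_sort (box d E) fun β => φ β * mon μ β]
    rfl
  rw [e]
  have hlim : Tendsto (fun s : Finset (Fin d →₀ ℕ) =>
      ‖(∑ β ∈ s, φ β * mon μ β) - ∑ β ∈ box d E, φ β * mon μ β‖) atTop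
      (𝓝 ‖sev φ μ - ∑ β ∈ box d E, φ β * mon μ β‖) :=
    (hs.hasSum.sub_const _).norm
  refine le_of_tendsto hlim (eventually_atTop.2 ⟨box d E, fun s hs' => ?_⟩)
  classical
  rw [← Finset.sum_sdiff_eq_sub hs']
  refine norm_sum_le' _ _ _ (pow_nonneg hM0 _) fun β hβ => ?_
  rw [Finset.mem_sdiff, mem_box, not_lt] at hβ
  rw [norm_mul]
  calc ‖φ β‖ * ‖mon μ β‖ ≤ 1 * M ^ (∑ j, β j) :=
        mul_le_mul (hφ β) (norm_mon_le μ M hμ β) (norm_nonneg _) zero_le_one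
    _ ≤ M ^ E := by rw [one_mul]; exact pow_le_pow_of_le_one hM0 hM.le hβ.2

variable (σ : C ≃+* C) {Q : ℕ}

omit [IsUltrametricDist C] in
theorem norm_symm_iterate (hσ : ∀ x, σ x = x ^ Q) (m : ℕ) (x : C) :
    ‖(σ.symm)^[m] x‖ ^ (Q ^ m) = ‖x‖ := by
  induction m with
  | zero => simp
  | succ m ih =>
    rw [Function.iterate_succ_apply', pow_succ', pow_mul, ← norm_pow _ Q, ← hσ,
      RingEquiv.apply_symm_apply, ih]

omit [IsUltrametricDist C] in
theorem symm_iterate_pow (hσ : ∀ x, σ x = x ^ Q) (m : ℕ) (x : C) :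
    (σ.symm)^[m] (x ^ (Q ^ m)) = x := by
  induction m generalizing x with
  | zero => simp
  | succ m ih =>
    rw [Function.iterate_succ_apply, pow_succ, pow_mul, ← hσ, RingEquiv.symm_apply_apply]
    exact ih x

omit [IsUltrametricDist C] in
theorem norm_le_one_of_fixed (hσ : ∀ x, σ x = x ^ Q) (hQ : 2 ≤ Q) (x : C) (hx : σ x = x) :
    ‖x‖ ≤ 1 := by
  by_contra h
  push Not at h
  have h1 : ‖x‖ ^ Q = ‖x‖ := by rw [← norm_pow, ← hσ, hx]
  have h2 : ‖x‖ ^ 1 < ‖x‖ ^ Q := pow_lt_pow_right₀ h (by omega)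
  rw [pow_one] at h2
  linarith

/-- The series over the fixed field of `σ` that vanish on `S`. -/
def vanishingSeries (S : Set (Fin d → C)) : Set ((Fin d →₀ ℕ) → C) :=
  {ψ | (∀ β, σ (ψ β) = ψ β) ∧ ∀ μ ∈ S, sev ψ μ = 0}

/-- The conjugates of a truncation. -/
def conjTrunc (φ : (Fin d →₀ ℕ) → C) (E r : ℕ) : box d E → C :=
  fun β => (σ.symm)^[r] (φ β.1)

omit [IsUltrametricDist C] in
theorem teval_conjTrunc (hσ : ∀ x, σ x = x ^ Q) (φ : (Fin d →₀ ℕ) → C) (E m : ℕ)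
    (μ : Fin d → C) :
    teval (conjTrunc σ φ E m) μ =
      (σ.symm)^[m] (teval (trunc' E φ) fun j => μ j ^ (Q ^ m)) := by
  simp only [← RingEquiv.coe_toRingHom σ.symm, ← RingHom.coe_pow, teval, map_sum, map_mul, mon,
    map_prod, map_pow]
  simp only [RingHom.coe_pow, RingEquiv.coe_toRingHom]
  refine Finset.sum_congr rfl fun β _ => ?_
  congr 1
  exact Finset.prod_congr rfl fun j _ => by
    rw [← iterate_map_pow σ.symm, symm_iterate_pow σ hσ]

theorem norm_teval_le_of_fixed (hσ : ∀ x, σ x = x ^ Q) (hQ : 2 ≤ Q) (φ : (Fin d →₀ ℕ) → C)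
    (E : ℕ) (μ : Fin d → C) (ρ K : ℝ) (hρ : 0 ≤ ρ) (l₀ : ℕ)
    (hest : ∀ l, l₀ ≤ l →
      ‖teval (trunc' E φ) fun j => μ j ^ (Q ^ l)‖ ≤ K * ρ ^ (Q ^ l * E))
    (w : box d E → C) (hw : w ∈ Submodule.span C (Set.range (conjTrunc σ φ E)))
    (hfix : ∀ β, σ (w β) = w β) : ‖teval w μ‖ ≤ ρ ^ E := by
  obtain ⟨a, ha⟩ := Finsupp.mem_span_range_iff_exists_finsupp.1 hw
  have hshift : ∀ l, teval w μ = ∑ r ∈ a.support,
      (σ.symm)^[l] (a r) * teval (conjTrunc σ φ E (r + l)) μ := by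
    intro l
    have h1 : ∀ β, w β = ∑ r ∈ a.support, (σ.symm)^[l] (a r) * conjTrunc σ φ E (r + l) β := by
      intro β
      have h2 : (σ.symm)^[l] (w β) = w β := by
        refine Function.iterate_fixed ?_ l
        conv_lhs => rw [← hfix β]
        exact σ.symm_apply_apply _
      conv_lhs => rw [← h2, ← ha]
      simp only [Finsupp.sum, Finset.sum_apply, Pi.smul_apply, smul_eq_mul, 
        ← RingEquiv.coe_toRingHom σ.symm, ← RingHom.coe_pow, map_sum, map_mul]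
      simp only [RingHom.coe_pow, RingEquiv.coe_toRingHom, conjTrunc]
      refine Finset.sum_congr rfl fun r _ => ?_
      rw [add_comm r l, Function.iterate_add_apply]
    simp only [teval, h1, Finset.sum_mul, Finset.mul_sum]
    rw [Finset.sum_comm]
    exact Finset.sum_congr rfl fun r _ => Finset.sum_congr rfl fun β _ => by ring
  have hbound : ∀ t : ℝ, 1 < t → ‖teval w μ‖ ≤ t * t * ρ ^ E := by
    intro t ht
    obtain ⟨A, hA⟩ : ∃ A : ℝ, |K| ≤ A ∧ ∀ r ∈ a.support, ‖a r‖ ≤ A :=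
      ⟨|K| + ∑ r ∈ a.support, ‖a r‖, le_add_of_nonneg_right (by positivity), fun r hr =>
        (Finset.single_le_sum (f := fun r => ‖a r‖) (fun i _ => norm_nonneg _) hr).trans
          (le_add_of_nonneg_left (abs_nonneg K))⟩
    obtain ⟨l1, hl1⟩ := pow_unbounded_of_one_lt A ht
    let l := max l₀ l1
    have hbig : ∀ m, l ≤ m → A ≤ t ^ (Q ^ m) := fun m hm =>
      hl1.le.trans (pow_le_pow_right₀ ht.le
        ((le_max_right l₀ l1).trans (hm.trans (Nat.lt_pow_self (by omega)).le)))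
    rw [hshift l]
    refine norm_sum_le' _ _ _ (by positivity) fun r hr => ?_
    rw [norm_mul, mul_assoc]
    refine mul_le_mul ?_ ?_ (norm_nonneg _) (by linarith)
    · refine le_of_pow_le_pow_left₀ (pow_ne_zero l (by omega : Q ≠ 0)) (by linarith) ?_
      rw [norm_symm_iterate σ hσ]
      exact (hA.2 r hr).trans (hbig l le_rfl)
    · refine le_of_pow_le_pow_left₀ (pow_ne_zero (r + l) (by omega : Q ≠ 0)) (by positivity) ?_
      rw [teval_conjTrunc σ hσ, norm_symm_iterate σ hσ, mul_pow, ← pow_mul ρ, mul_comm E]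
      refine (hest _ ((le_max_left l₀ l1).trans (Nat.le_add_left _ _))).trans ?_
      refine mul_le_mul_of_nonneg_right ?_ (by positivity)
      exact (le_abs_self K).trans (hA.1.trans (hbig _ (Nat.le_add_left _ _)))
  have hlim : Tendsto (fun k : ℕ => (1 + 1 / ((k : ℝ) + 1)) * (1 + 1 / ((k : ℝ) + 1)) * ρ ^ E)
      atTop (𝓝 ((1 + 0) * (1 + 0) * ρ ^ E)) :=
    ((tendsto_one_div_add_atTop_nhds_zero_nat.const_add 1).mul
      (tendsto_one_div_add_atTop_nhds_zero_nat.const_add 1)).mul_const _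
  have h2 := ge_of_tendsto' hlim fun k => hbound _ (lt_add_of_pos_right _ (by positivity))
  simpa using h2

/-- Lemma G (descent). -/
theorem descent [CompleteSpace C] (hσ : ∀ x, σ x = x ^ Q) (hQ : 2 ≤ Q)
    (S : Set (Fin d → C)) (hS : ∀ μ ∈ S, ∀ j, ‖μ j‖ < 1) (φ : (Fin d →₀ ℕ) → C)
    (h : ∀ μ ∈ S, ∃ ρ : ℝ, 0 ≤ ρ ∧ ρ < 1 ∧ ∀ E, ∃ (K : ℝ) (l₀ : ℕ), ∀ l, l₀ ≤ l →
      ‖teval (trunc' E φ) fun j => μ j ^ (Q ^ l)‖ ≤ K * ρ ^ (Q ^ l * E))
    (E₀ : ℕ) :
    trunc' E₀ φ ∈ Submodule.span C (trunc' E₀ '' vanishingSeries σ S) := by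
  classical
  let W : ∀ E, Submodule C (box d E → C) := fun E =>
    Submodule.span C (Set.range (conjTrunc σ φ E))
  have hWst : ∀ E, ∀ v ∈ W E, (fun β => σ.symm.toRingHom (v β)) ∈ W E := by
    intro E v hv
    induction hv using Submodule.span_induction with
    | mem x hx =>
      obtain ⟨r, rfl⟩ := hx
      refine Submodule.subset_span ⟨r + 1, ?_⟩
      funext β
      simp [conjTrunc, Function.iterate_succ_apply']
    | zero =>
      have e : (fun β : box d E => σ.symm.toRingHom ((0 : box d E → C) β)) = 0 := by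
        funext β; simp
      rw [e]; exact Submodule.zero_mem _
    | add x y _ _ hx hy =>
      have e : (fun β => σ.symm.toRingHom ((x + y) β)) =
          (fun β => σ.symm.toRingHom (x β)) + fun β => σ.symm.toRingHom (y β) := by
        funext β; simp
      rw [e]; exact add_mem hx hy
    | smul c x _ hx =>
      have e : (fun β => σ.symm.toRingHom ((c • x) β)) =
          σ.symm c • fun β => σ.symm.toRingHom (x β) := by
        funext β; simp
      rw [e]; exact Submodule.smul_mem _ _ hx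
  have hfixiff : ∀ x : C, σ.symm.toRingHom x = x ↔ σ x = x := fun x => by
    rw [RingEquiv.toRingHom_eq_coe, RingEquiv.coe_toRingHom]
    constructor
    · intro h1; conv_lhs => rw [← h1]
      exact σ.apply_symm_apply x
    · intro h1; conv_lhs => rw [← h1]
      exact σ.symm_apply_apply x
  have hincl : ∀ E, box d E ⊆ box d (E + 1) := fun E β hβ => by rw [mem_box] at *; omega
  let res : ∀ E, (box d (E + 1) → C) →ₗ[C] (box d E → C) := fun E =>
    LinearMap.funLeft C C fun β => ⟨β.1, hincl E β.2⟩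
  have hmap : ∀ E, (W (E + 1)).map (res E) = W E := fun E => by
    simp only [W, Submodule.map_span, ← Set.range_comp]
    rfl
  have hstep : ∀ E, ∀ w ∈ fixedVectors σ.symm.toRingHom (W E),
      ∃ v ∈ fixedVectors σ.symm.toRingHom (W (E + 1)), res E v = w := fun E w hw =>
    exists_fixed_lift _ _ (hWst _) (res E) (fun v i => rfl) w (hmap E ▸ hw.1) hw.2
  have h0 : trunc' E₀ φ ∈
      Submodule.span C (fixedVectors σ.symm.toRingHom (W E₀)) :=
    le_span_fixedVectors _ _ (hWst _) (Submodule.subset_span ⟨0, rfl⟩)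
  refine (Submodule.span_le.2 ?_) h0
  intro w hw
  refine Submodule.subset_span ?_
  choose next hnext hres using hstep
  let v : ∀ k, {u : box d (E₀ + k) → C // u ∈ fixedVectors σ.symm.toRingHom (W (E₀ + k))} :=
    fun k => Nat.rec ⟨w, hw⟩ (fun k u => ⟨next (E₀ + k) u.1 u.2, hnext _ _ u.2⟩) k
  have hcomp : ∀ i k (β : Fin d →₀ ℕ) (hβ : β ∈ box d (E₀ + k))
      (hβ' : β ∈ box d (E₀ + (k + i))), (v (k + i)).1 ⟨β, hβ'⟩ = (v k).1 ⟨β, hβ⟩ := by
    intro i
    induction i with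
    | zero => intros; rfl
    | succ i ih =>
      intro k β hβ hβ'
      have hβ'' : β ∈ box d (E₀ + (k + i)) := by rw [mem_box] at *; omega
      rw [← ih k β hβ hβ'']
      exact congrFun (hres (E₀ + (k + i)) (v (k + i)).1 (v (k + i)).2) ⟨β, hβ''⟩
  let ψ : (Fin d →₀ ℕ) → C := fun β =>
    (v (∑ j, β j + 1)).1 ⟨β, by rw [mem_box]; omega⟩
  have hψ : ∀ k, trunc' (E₀ + k) ψ = (v k).1 := by
    intro k
    funext β
    show (v (∑ j, β.1 j + 1)).1 ⟨β.1, _⟩ = (v k).1 ⟨β.1, β.2⟩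
    have hb : β.1 ∈ box d (E₀ + (∑ j, β.1 j + 1)) := by rw [mem_box]; omega
    have hb' : β.1 ∈ box d (E₀ + (k + (∑ j, β.1 j + 1))) := by rw [mem_box]; omega
    rw [← hcomp k (∑ j, β.1 j + 1) β.1 hb (by rw [mem_box] at *; omega),
      ← hcomp (∑ j, β.1 j + 1) k β.1 β.2 hb']
    have key : ∀ a b (_ : a = b) (h1 : β.1 ∈ box d (E₀ + a)) (h2 : β.1 ∈ box d (E₀ + b)),
        (v a).1 ⟨β.1, h1⟩ = (v b).1 ⟨β.1, h2⟩ := by
      intro a b hab h1 h2; subst hab; rfl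
    exact key _ _ (Nat.add_comm _ _) _ _
  have hψfix : ∀ β, σ (ψ β) = ψ β := fun β =>
    (hfixiff _).1 ((v (∑ j, β j + 1)).2.2 _)
  refine ⟨ψ, ⟨hψfix, fun μ hμ => ?_⟩, hψ 0⟩
  obtain ⟨ρ, hρ0, hρ1, hest⟩ := h μ hμ
  obtain ⟨M, hM0, hM1, hμM, hρM⟩ : ∃ M : ℝ, 0 ≤ M ∧ M < 1 ∧ (∀ j, ‖μ j‖ ≤ M) ∧ ρ ≤ M := by
    let s : Finset ℝ := insert ρ (Finset.univ.image fun j => ‖μ j‖)
    have hs : s.Nonempty := Finset.insert_nonempty _ _
    refine ⟨s.max' hs, hρ0.trans (Finset.le_max' _ _ (Finset.mem_insert_self ..)),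
      (Finset.max'_lt_iff _ hs).2 ?_, fun j => Finset.le_max' _ _ (by simp [s]),
      Finset.le_max' _ _ (Finset.mem_insert_self ..)⟩
    intro x hx
    simp only [s, Finset.mem_insert, Finset.mem_image, Finset.mem_univ, true_and] at hx
    rcases hx with rfl | ⟨j, rfl⟩
    · exact hρ1
    · exact hS μ hμ j
  have hnorm : ∀ k, ‖sev ψ μ‖ ≤ M ^ (E₀ + k) := by
    intro k
    obtain ⟨K, l₀, hK⟩ := hest (E₀ + k)
    have h1 : ‖teval (v k).1 μ‖ ≤ M ^ (E₀ + k) :=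
      (norm_teval_le_of_fixed σ hσ hQ φ (E₀ + k) μ ρ K hρ0 l₀ hK _ (v k).2.1
        (fun β => (hfixiff _).1 ((v k).2.2 β))).trans (pow_le_pow_left₀ hρ0 hρM _)
    have h2 := norm_sev_sub_teval_le ψ
      (fun β => norm_le_one_of_fixed σ hσ hQ _ (hψfix β)) μ M hM0 hM1 hμM (E₀ + k)
    rw [hψ k] at h2
    calc ‖sev ψ μ‖ = ‖(sev ψ μ - teval (v k).1 μ) + teval (v k).1 μ‖ := by rw [sub_add_cancel]
      _ ≤ max ‖sev ψ μ - teval (v k).1 μ‖ ‖teval (v k).1 μ‖ :=
          IsUltrametricDist.norm_add_le_max _ _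
      _ ≤ M ^ (E₀ + k) := max_le h2 h1
  have hlim : Tendsto (fun k => M ^ (E₀ + k)) atTop (𝓝 0) :=
    (tendsto_pow_atTop_nhds_zero_of_lt_one hM0 hM1).comp
      (tendsto_atTop_mono (fun k => Nat.le_add_left k E₀) tendsto_id)
  exact norm_le_zero_iff.1 (ge_of_tendsto' hlim hnorm)

end

end Vale.Agent.P217.Descent
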