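import Vale.Agent.P217.GDescent
import Vale.Agent.P217.Interfaces

/-!
P217 block G: descent, stated for series in several variables over a field of characteristic p.
-/

noncomputable section

namespace Vale.Agent.P217

open Descent

variable {p h d : ℕ} [Fact p.Prime] {C : Type} [NormedField C] [IsUltrametricDist C]
  [IsAlgClosed C] [CharP C p]

omit [IsUltrametricDist C] in
theorem two_le_pow_prime (hh : 1 ≤ h) : 2 ≤ p ^ h :=
  le_trans (Fact.out : p.Prime).two_le (Nat.le_self_pow (by omega) p)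

omit [IsUltrametricDist C] [IsAlgClosed C] [CharP C p] [Fact p.Prime] in
theorem mveval_id_eq_sev (f : MvPowerSeries (Fin d) C) (μ : Fin d → C) :
    mveval (RingHom.id C) f μ = sev (fun a => MvPowerSeries.coeff a f) μ := rfl

variable [CompleteSpace C]

/-- Descent: the truncation of φ lies in the span of truncations of fixed series killing S. -/
theorem descent_trunc (hh : 1 ≤ h) (S : Set (Fin d → C)) (hS : ∀ μ ∈ S, ∀ i, ‖μ i‖ < 1)
    (φ : MvPowerSeries (Fin d) C)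
    (hest : ∀ μ ∈ S, ∃ ρ : ℝ, 0 ≤ ρ ∧ ρ < 1 ∧ ∀ E, ∃ (K : ℝ) (l₀ : ℕ), ∀ l, l₀ ≤ l →
      ‖∑ a ∈ box d E, MvPowerSeries.coeff a φ * ∏ i, (μ i ^ (p ^ h) ^ l) ^ a i‖ ≤
        K * ρ ^ ((p ^ h) ^ l * E))
    (E : ℕ) :
    (fun a : box d E => MvPowerSeries.coeff a.1 φ) ∈ Submodule.span C
      ((fun f : MvPowerSeries (Fin d) C => fun a : box d E => MvPowerSeries.coeff a.1 f) ''
        {f | FixedSeries (p ^ h) f ∧ ∀ μ ∈ S, mveval (RingHom.id C) f μ = 0}) := by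
  have hσ : ∀ x : C, iterateFrobeniusEquiv C p h x = x ^ p ^ h := fun x =>
    iterateFrobeniusEquiv_def C p h x
  have h1 := Descent.descent (iterateFrobeniusEquiv C p h) hσ (two_le_pow_prime hh) S hS
    (fun a => MvPowerSeries.coeff a φ) (fun μ hμ => by
      obtain ⟨ρ, h0, h1, h2⟩ := hest μ hμ
      refine ⟨ρ, h0, h1, fun E' => ?_⟩
      obtain ⟨K, l₀, hK⟩ := h2 E'
      refine ⟨K, l₀, fun l hl => ?_⟩
      have h3 := hK l hl
      rw [← Finset.sum_coe_sort] at h3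
      exact h3) E
  refine Submodule.span_mono ?_ h1
  rintro _ ⟨ψ, ⟨hfix, hvan⟩, rfl⟩
  exact ⟨(ψ : MvPowerSeries (Fin d) C), ⟨fun a => by rw [← hσ]; exact hfix a, hvan⟩, rfl⟩

/-- Descent: a nonzero series small along the orbits gives a nonzero fixed series killing S. -/
theorem descent_exists (hh : 1 ≤ h) (S : Set (Fin d → C)) (hS : ∀ μ ∈ S, ∀ i, ‖μ i‖ < 1)
    (φ : MvPowerSeries (Fin d) C) (hφ : φ ≠ 0)
    (hest : ∀ μ ∈ S, ∃ ρ : ℝ, 0 ≤ ρ ∧ ρ < 1 ∧ ∀ E, ∃ (K : ℝ) (l₀ : ℕ), ∀ l, l₀ ≤ l →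
      ‖∑ a ∈ box d E, MvPowerSeries.coeff a φ * ∏ i, (μ i ^ (p ^ h) ^ l) ^ a i‖ ≤
        K * ρ ^ ((p ^ h) ^ l * E)) :
    ∃ f : MvPowerSeries (Fin d) C, f ≠ 0 ∧ FixedSeries (p ^ h) f ∧
      ∀ μ ∈ S, mveval (RingHom.id C) f μ = 0 := by
  by_contra hno
  refine hφ (MvPowerSeries.ext fun a => ?_)
  have ha : a ∈ box d (∑ i, a i + 1) := mem_box.2 (Nat.lt_succ_self _)
  have h1 := descent_trunc hh S hS φ hest (∑ i, a i + 1)
  have hz : ∀ v ∈ Submodule.span C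
      ((fun f : MvPowerSeries (Fin d) C =>
        fun b : box d (∑ i, a i + 1) => MvPowerSeries.coeff b.1 f) ''
        {f | FixedSeries (p ^ h) f ∧ ∀ μ ∈ S, mveval (RingHom.id C) f μ = 0}), v = 0 := by
    intro v hv
    induction hv using Submodule.span_induction with
    | mem x hx =>
      obtain ⟨f, hf, rfl⟩ := hx
      have hf0 : f = 0 := by
        by_contra hne
        exact hno ⟨f, hne, hf.1, hf.2⟩
      subst hf0
      funext b
      simp
    | zero => rfl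
    | add x y _ _ hx hy => rw [hx, hy, add_zero]
    | smul c x _ hx => rw [hx, smul_zero]
  simpa using congrFun (hz _ h1) ⟨a, ha⟩

omit [IsAlgClosed C] [CharP C p] in
/-- A series with bounded coefficients vanishing on the orbit satisfies the descent estimate. -/
theorem descent_estimate_of_vanishing (hh : 1 ≤ h) (φ : MvPowerSeries (Fin d) C)
    (hφ : ∀ a, ‖MvPowerSeries.coeff a φ‖ ≤ 1) (μ : Fin d → C) (hμ : ∀ i, ‖μ i‖ < 1)
    (hvan : ∀ l, mveval (RingHom.id C) φ (fun i => μ i ^ (p ^ h) ^ l) = 0) :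
    ∃ ρ : ℝ, 0 ≤ ρ ∧ ρ < 1 ∧ ∀ E, ∃ (K : ℝ) (l₀ : ℕ), ∀ l, l₀ ≤ l →
      ‖∑ a ∈ box d E, MvPowerSeries.coeff a φ * ∏ i, (μ i ^ (p ^ h) ^ l) ^ a i‖ ≤
        K * ρ ^ ((p ^ h) ^ l * E) := by
  classical
  let s : Finset ℝ := insert 0 (Finset.univ.image fun i => ‖μ i‖)
  let ρ : ℝ := s.max' (Finset.insert_nonempty _ _)
  have hρ0 : 0 ≤ ρ := Finset.le_max' _ _ (Finset.mem_insert_self ..)
  have hρi : ∀ i, ‖μ i‖ ≤ ρ := fun i => Finset.le_max' _ _ (by simp [s])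
  have hρ1 : ρ < 1 := by
    refine (Finset.max'_lt_iff _ _).2 fun x hx => ?_
    simp only [s, Finset.mem_insert, Finset.mem_image, Finset.mem_univ, true_and] at hx
    rcases hx with rfl | ⟨i, rfl⟩
    · exact zero_lt_one
    · exact hμ i
  refine ⟨ρ, hρ0, hρ1, fun E => ⟨1, 0, fun l _ => ?_⟩⟩
  have hpos : 1 ≤ (p ^ h) ^ l := Nat.one_le_pow _ _ (pow_pos (Fact.out : p.Prime).pos _)
  have h1 := norm_sev_sub_teval_le (fun a => MvPowerSeries.coeff a φ) hφ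
    (fun i => μ i ^ (p ^ h) ^ l) (ρ ^ (p ^ h) ^ l) (pow_nonneg hρ0 _)
    (pow_lt_one₀ hρ0 hρ1 (by omega))
    (fun i => by rw [norm_pow]; exact pow_le_pow_left₀ (norm_nonneg _) (hρi i) _) E
  rw [← mveval_id_eq_sev, hvan, zero_sub, norm_neg, ← pow_mul ρ] at h1
  rw [one_mul]
  refine le_trans (le_of_eq (congrArg _ ?_)) h1
  rw [teval, ← Finset.sum_coe_sort]
  rfl

end Vale.Agent.P217
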