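import Mathlib

/-!
P217 block G, linear algebra: subspaces stable under a coordinatewise field endomorphism.
-/

namespace Vale.Agent.P217

variable {C : Type*} [Field C] {ι κ : Type*}

/-- The vectors fixed coordinatewise by `σ`. -/
def fixedVectors (σ : C →+* C) (W : Submodule C (ι → C)) : Set (ι → C) :=
  {v | v ∈ W ∧ ∀ i, σ (v i) = v i}

/-- A finite-length stable subspace is spanned by its fixed vectors. -/
theorem le_span_fixedVectors [Fintype ι] (σ : C →+* C) (W : Submodule C (ι → C))
    (hW : ∀ v ∈ W, (fun i => σ (v i)) ∈ W) : W ≤ Submodule.span C (fixedVectors σ W) := by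
  classical
  let supp : (ι → C) → Finset ι := fun v => Finset.univ.filter fun i => v i ≠ 0
  suffices ∀ k, ∀ v ∈ W, (supp v).card = k → v ∈ Submodule.span C (fixedVectors σ W) from
    fun v hv => this _ v hv rfl
  intro k
  induction k using Nat.strong_induction_on with
  | _ k ih =>
    intro v hv hk
    by_cases hv0 : v = 0
    · rw [hv0]; exact Submodule.zero_mem _
    have hex : ∃ m, ∃ u ∈ W, u ≠ 0 ∧ supp u ⊆ supp v ∧ (supp u).card = m :=
      ⟨_, v, hv, hv0, subset_rfl, rfl⟩
    obtain ⟨u, hu, hu0, husub, hucard⟩ := Nat.find_spec hex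
    obtain ⟨i0, hi0⟩ := Function.ne_iff.1 hu0
    simp only [Pi.zero_apply] at hi0
    let u' : ι → C := (u i0)⁻¹ • u
    have hu' : u' ∈ W := W.smul_mem _ hu
    have hsupp' : ∀ i, u i = 0 → u' i = 0 := fun i h => by simp [u', h]
    have hu'i0 : u' i0 = 1 := by simp [u', inv_mul_cancel₀ hi0]
    have hfix : ∀ i, σ (u' i) = u' i := by
      by_contra hne
      push Not at hne
      obtain ⟨j, hj⟩ := hne
      let d : ι → C := (fun i => σ (u' i)) - u'
      have hd : d ∈ W := W.sub_mem (hW _ hu') hu'
      have hd0 : d ≠ 0 := fun h => hj (sub_eq_zero.1 (congrFun h j))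
      have hdsub : supp d ⊆ (supp u).erase i0 := by
        intro i hi
        simp only [supp, Finset.mem_filter, Finset.mem_univ, true_and] at hi
        refine Finset.mem_erase.2 ⟨?_, ?_⟩
        · rintro rfl; exact hi (by simp [d, hu'i0])
        · simp only [supp, Finset.mem_filter, Finset.mem_univ, true_and]
          intro h
          exact hi (by simp [d, hsupp' i h])
      have hmem : i0 ∈ supp u := by simp [supp, hi0]
      have h1 := Finset.card_le_card hdsub
      rw [Finset.card_erase_of_mem hmem] at h1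
      have h2 := Nat.find_le (h := hex) ⟨d, hd, hd0,
        hdsub.trans ((Finset.erase_subset _ _).trans husub), rfl⟩
      have h3 : 0 < (supp u).card := Finset.card_pos.2 ⟨i0, hmem⟩
      omega
    let r : ι → C := v - v i0 • u'
    have hr : r ∈ W := W.sub_mem hv (W.smul_mem _ hu')
    have hrsub : supp r ⊆ (supp v).erase i0 := by
      intro i hi
      simp only [supp, Finset.mem_filter, Finset.mem_univ, true_and] at hi
      refine Finset.mem_erase.2 ⟨?_, ?_⟩
      · rintro rfl; exact hi (by simp [r, hu'i0])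
      · simp only [supp, Finset.mem_filter, Finset.mem_univ, true_and]
        intro h
        have hui : u i = 0 := by
          by_contra hne
          have := husub (show i ∈ supp u by simp [supp, hne])
          simp [supp, h] at this
        exact hi (by simp [r, h, hsupp' i hui])
    have hvmem : i0 ∈ supp v := husub (by simp [supp, hi0])
    have hlt : (supp r).card < k := by
      rw [← hk]
      exact lt_of_le_of_lt (Finset.card_le_card hrsub) (Finset.card_erase_lt_of_mem hvmem)
    have e : v = r + v i0 • u' := by simp [r]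
    rw [e]
    exact Submodule.add_mem _ (ih _ hlt r hr rfl)
      (Submodule.smul_mem _ _ (Submodule.subset_span ⟨hu', hfix⟩))

/-- A fixed vector in the span of fixed vectors is a combination with fixed coefficients. -/
theorem exists_fixed_coeffs (σ : C →+* C) (T : Set (ι → C)) (hT : ∀ t ∈ T, ∀ i, σ (t i) = t i)
    (w : ι → C) (hw : w ∈ Submodule.span C T) (hfix : ∀ i, σ (w i) = w i) :
    ∃ (s : Finset (ι → C)) (a : (ι → C) → C),
      (s : Set (ι → C)) ⊆ T ∧ (∀ t ∈ s, σ (a t) = a t) ∧ ∑ t ∈ s, a t • t = w := by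
  classical
  obtain ⟨b, hbT, hspan, hb⟩ := exists_linearIndependent C T
  rw [← hspan] at hw
  obtain ⟨a, ha, hsum⟩ := Submodule.mem_span_set.1 hw
  refine ⟨a.support, a, (fun t ht => hbT (ha ht)), ?_, hsum⟩
  intro t ht
  have hrel : ∑ t ∈ a.support, (σ (a t) - a t) • t = 0 := by
    funext i
    have h1 : σ (w i) = w i := hfix i
    rw [← hsum, Finsupp.sum, Finset.sum_apply, map_sum] at h1
    simp only [Pi.smul_apply, smul_eq_mul, map_mul] at h1
    simp only [Finset.sum_apply, Pi.smul_apply, smul_eq_mul, Pi.zero_apply, sub_mul,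
      Finset.sum_sub_distrib]
    rw [sub_eq_zero, ← h1]
    exact Finset.sum_congr rfl fun t ht => by rw [hT t (hbT (ha ht)) i]
  exact sub_eq_zero.1 ((linearIndepOn_iff' (s := b) (v := id)).1 hb _ (fun t => σ (a t) - a t) (fun x hx => ha hx)
    (by simpa using hrel) t ht)

/-- A linear map commuting with `σ` that maps `W'` onto `W` lifts fixed vectors. -/
theorem exists_fixed_lift [Fintype κ] (σ : C →+* C) (W' : Submodule C (κ → C))
    (hW' : ∀ v ∈ W', (fun i => σ (v i)) ∈ W') (f : (κ → C) →ₗ[C] (ι → C))
    (hf : ∀ v i, σ (f v i) = f (fun j => σ (v j)) i) (w : ι → C) (hw : w ∈ W'.map f)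
    (hfix : ∀ i, σ (w i) = w i) : ∃ v ∈ fixedVectors σ W', f v = w := by
  classical
  have hsub : W'.map f ≤ Submodule.span C (f '' fixedVectors σ W') := by
    rw [Submodule.span_image]
    exact Submodule.map_mono (le_span_fixedVectors σ W' hW')
  have hT : ∀ t ∈ f '' fixedVectors σ W', ∀ i, σ (t i) = t i := by
    rintro _ ⟨v, ⟨_, hv⟩, rfl⟩ i
    rw [hf]
    exact congrFun (congrArg f (funext hv)) i
  obtain ⟨s, a, hs, ha, hsum⟩ := exists_fixed_coeffs σ _ hT w (hsub hw) hfix
  choose g hg hfg using fun (t : ι → C) (ht : t ∈ s) => hs ht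
  refine ⟨∑ t ∈ s.attach, a t.1 • g t.1 t.2, ⟨?_, fun i => ?_⟩, ?_⟩
  · exact W'.sum_mem fun t _ => W'.smul_mem _ (hg t.1 t.2).1
  · simp only [Finset.sum_apply, Pi.smul_apply, smul_eq_mul, map_sum, map_mul]
    exact Finset.sum_congr rfl fun t _ => by rw [ha t.1 t.2, (hg t.1 t.2).2 i]
  · rw [map_sum, ← hsum, ← Finset.sum_attach s fun t => a t • t]
    exact Finset.sum_congr rfl fun t _ => by rw [map_smul, hfg]

end Vale.Agent.P217
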