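import Vale.Agent.P217.Eval

/-!
P217 block H: the implicit function theorem for formal series, and its uniqueness on the open disc.
-/

noncomputable section

namespace Vale.Agent.P217.HB

open MvPowerSeries

variable {R : Type} [CommRing R] {d : ℕ}

/-- All coefficients in total degree below `N` vanish. -/
def Low (N : ℕ) (f : MvPowerSeries (Fin d) R) : Prop :=
  ∀ a : Fin d →₀ ℕ, a.degree < N → coeff a f = 0

theorem low_mul_right {N : ℕ} {f g : MvPowerSeries (Fin d) R} (hf : Low N f) : Low N (f * g) := by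
  classical
  intro a ha
  rw [coeff_mul]
  refine Finset.sum_eq_zero fun u hu => ?_
  rw [Finset.HasAntidiagonal.mem_antidiagonal] at hu
  rw [hf u.1 (by rw [← hu, map_add] at ha; omega), zero_mul]

theorem low_mul_succ {N : ℕ} {f g : MvPowerSeries (Fin d) R} (hf : Low N f)
    (hg : constantCoeff g = 0) : Low (N + 1) (f * g) := by
  classical
  intro a ha
  rw [coeff_mul]
  refine Finset.sum_eq_zero fun u hu => ?_
  rw [Finset.HasAntidiagonal.mem_antidiagonal] at hu
  by_cases h : u.2 = 0
  · rw [h, coeff_zero_eq_constantCoeff_apply, hg, mul_zero]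
  · have : u.2.degree ≠ 0 := fun e => h ((Finsupp.degree_eq_zero_iff _).1 e)
    rw [hf u.1 (by rw [← hu, map_add] at ha; omega), zero_mul]

/-- The variables with `θ` inserted at the place `k₀`. -/
def ins (k₀ : Fin (d + 1)) (θ : MvPowerSeries (Fin d) R) :
    Fin (d + 1) → MvPowerSeries (Fin d) R :=
  Fin.insertNth k₀ θ MvPowerSeries.X

theorem constantCoeff_ins (k₀ : Fin (d + 1)) {θ : MvPowerSeries (Fin d) R}
    (h : constantCoeff θ = 0) (s : Fin (d + 1)) : constantCoeff (ins k₀ θ s) = 0 := by
  unfold ins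
  induction s using Fin.succAboveCases k₀ with
  | x => simpa
  | p i => simp

theorem hasSubst_ins (k₀ : Fin (d + 1)) {θ : MvPowerSeries (Fin d) R}
    (h : constantCoeff θ = 0) : HasSubst (ins k₀ θ) :=
  hasSubst_of_constantCoeff_zero (constantCoeff_ins k₀ h)

theorem sub_single_zero_coeff (k₀ : Fin (d + 1)) (f : MvPowerSeries (Fin (d + 1)) R) :
    coeff (Finsupp.single k₀ 1) (f - C (coeff (Finsupp.single k₀ 1) f) * X k₀) = 0 := by
  classical
  rw [map_sub, coeff_C_mul, coeff_index_single_self_X, mul_one, sub_self]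

/-- Without a linear term in the variable, substitution gains one degree. -/
theorem low_subst_sub (k₀ : Fin (d + 1)) {r : MvPowerSeries (Fin (d + 1)) R}
    (hr : coeff (Finsupp.single k₀ 1) r = 0) {θ η : MvPowerSeries (Fin d) R}
    (hθ : constantCoeff θ = 0) (hη : constantCoeff η = 0) {N : ℕ} (hN : Low N (θ - η)) :
    Low (N + 1) (subst (ins k₀ θ) r - subst (ins k₀ η) r) := by
  classical
  intro a ha
  rw [map_sub, sub_eq_zero, coeff_subst (hasSubst_ins k₀ hθ), coeff_subst (hasSubst_ins k₀ hη)]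
  refine finsum_congr fun m => ?_
  by_cases hm : m = Finsupp.single k₀ 1
  · simp [hm, hr]
  congr 1
  rw [← sub_eq_zero, ← map_sub, Finsupp.prod_fintype _ _ (fun _ => pow_zero _),
    Finsupp.prod_fintype _ _ (fun _ => pow_zero _), Fin.prod_univ_succAbove _ k₀,
    Fin.prod_univ_succAbove _ k₀]
  simp only [ins, Fin.insertNth_apply_same, Fin.insertNth_apply_succAbove]
  rw [← sub_mul]
  rcases Nat.lt_or_ge (m k₀) 2 with h2 | h2
  · rcases Nat.eq_zero_or_pos (m k₀) with h0 | h0
    · simp [h0]
    · have h1 : m k₀ = 1 := by omega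
      obtain ⟨i, hi⟩ : ∃ i : Fin d, m (k₀.succAbove i) ≠ 0 := by
        by_contra hne
        push Not at hne
        refine hm (Finsupp.ext fun s => ?_)
        induction s using Fin.succAboveCases k₀ with
        | x => simp [h1]
        | p i => rw [hne i, Finsupp.single_eq_of_ne (Fin.succAbove_ne k₀ i)]
      rw [h1, pow_one, pow_one]
      refine low_mul_succ hN ?_ a ha
      rw [map_prod]
      exact Finset.prod_eq_zero (Finset.mem_univ i) (by simp [hi])
  · rw [← (Commute.all θ η).mul_geom_sum₂]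
    refine low_mul_right (low_mul_succ hN ?_) a ha
    rw [map_sum]
    refine Finset.sum_eq_zero fun i hi => ?_
    rcases Nat.eq_zero_or_pos i with rfl | h
    · simp [hη, zero_pow (show m k₀ - 1 ≠ 0 by omega)]
    · simp [hθ, zero_pow (Nat.pos_iff_ne_zero.1 h)]

/-- The implicit function theorem for formal series. -/
theorem exists_implicit (k₀ : Fin (d + 1)) {f : MvPowerSeries (Fin (d + 1)) R}
    (hf0 : constantCoeff f = 0) {c' : R} (hc : c' * coeff (Finsupp.single k₀ 1) f = 1) :
    ∃ θ : MvPowerSeries (Fin d) R, constantCoeff θ = 0 ∧ subst (ins k₀ θ) f = 0 := by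
  classical
  set r := f - C (coeff (Finsupp.single k₀ 1) f) * X k₀ with hr
  have hr0 : constantCoeff r = 0 := by simp [hr, hf0]
  let next : MvPowerSeries (Fin d) R → MvPowerSeries (Fin d) R :=
    fun θ => -(C c' * subst (ins k₀ θ) r)
  have hnext : ∀ θ, constantCoeff θ = 0 → constantCoeff (next θ) = 0 := fun θ hθ => by
    simp only [next, map_neg, map_mul]
    rw [constantCoeff_subst_eq_zero (hasSubst_ins k₀ hθ) (constantCoeff_ins k₀ hθ) hr0, mul_zero,
      neg_zero]
  have hgain : ∀ θ η, constantCoeff θ = 0 → constantCoeff η = 0 → ∀ N, Low N (θ - η) →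
      Low (N + 1) (next θ - next η) := by
    intro θ η hθ hη N hN a ha
    have h1 := low_subst_sub k₀ (sub_single_zero_coeff k₀ f) hθ hη hN a ha
    rw [map_sub, sub_eq_zero] at h1
    rw [map_sub, sub_eq_zero]
    simp only [next, map_neg, coeff_C_mul, hr, h1]
  let seq : ℕ → MvPowerSeries (Fin d) R := fun n => next^[n] 0
  have hseq0 : ∀ n, constantCoeff (seq n) = 0 := by
    intro n
    induction n with
    | zero => simp [seq]
    | succ n ih => simp only [seq, Function.iterate_succ_apply']; exact hnext _ ih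
  have hstep : ∀ n, Low (n + 1) (seq (n + 1) - seq n) := by
    intro n
    induction n with
    | zero =>
      intro a ha
      rw [(Finsupp.degree_eq_zero_iff a).1 (by omega), coeff_zero_eq_constantCoeff_apply,
        map_sub, hseq0, hseq0, sub_zero]
    | succ n ih =>
      have := hgain _ _ (hseq0 (n + 1)) (hseq0 n) _ ih
      simpa only [seq, Function.iterate_succ_apply'] using this
  have hstab : ∀ (a : Fin d →₀ ℕ) n, a.degree ≤ n → coeff a (seq n) = coeff a (seq a.degree) := by
    intro a n hn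
    induction n, hn using Nat.le_induction with
    | base => rfl
    | succ n hn ih =>
      have := hstep n a (by omega)
      rw [map_sub, sub_eq_zero] at this
      rw [this, ih]
  let θ : MvPowerSeries (Fin d) R := fun a => coeff a (seq a.degree)
  have hθc : ∀ a, coeff a θ = coeff a (seq a.degree) := fun a => rfl
  have hθ0 : constantCoeff θ = 0 := by
    rw [← coeff_zero_eq_constantCoeff_apply, hθc, coeff_zero_eq_constantCoeff_apply]
    exact hseq0 _
  have hfix : next θ = θ := by
    ext a
    have hlow : Low (a.degree + 1) (θ - seq (a.degree)) := by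
      intro b hb
      rw [map_sub, hθc, hstab b a.degree (by omega), sub_self]
    have h1 := hgain _ _ hθ0 (hseq0 _) _ hlow a (by omega)
    rw [map_sub, sub_eq_zero] at h1
    rw [h1, hθc]
    have h2 := hstab a (a.degree + 1) (by omega)
    simpa only [seq, Function.iterate_succ_apply'] using h2
  refine ⟨θ, hθ0, ?_⟩
  have hs := hasSubst_ins k₀ hθ0
  have hins : ins k₀ θ k₀ = θ := by simp [ins]
  calc subst (ins k₀ θ) f
      = substAlgHom hs (C (coeff (Finsupp.single k₀ 1) f) * X k₀ + r) := by
        rw [coe_substAlgHom, hr, add_sub_cancel]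
    _ = C (coeff (Finsupp.single k₀ 1) f) * next θ + subst (ins k₀ θ) r := by
        rw [map_add, map_mul,
          show substAlgHom hs (C (coeff (Finsupp.single k₀ 1) f)) =
            C (coeff (Finsupp.single k₀ 1) f) from (substAlgHom hs).commutes _,
          coe_substAlgHom, subst_X hs, hins, hfix]
    _ = 0 := by
        simp only [next]
        rw [mul_neg, ← mul_assoc, ← map_mul, mul_comm (coeff _ f), hc, map_one, one_mul,
          neg_add_cancel]

variable {K : Type} [NontriviallyNormedField K] [IsUltrametricDist K] [CompleteSpace K]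
  {j : R →+* K}

/-- A zero of a series with unit linear term in a variable is unique in the open disc. -/
theorem eq_of_zero (hj : ∀ r, ‖j r‖ ≤ 1) (k₀ : Fin (d + 1)) {f : MvPowerSeries (Fin (d + 1)) R}
    {c' : R} (hc : c' * coeff (Finsupp.single k₀ 1) f = 1) {μ ν : Fin (d + 1) → K}
    (hμ : ∀ i, ‖μ i‖ < 1) (hν : ∀ i, ‖ν i‖ < 1)
    (heq : ∀ i, μ (k₀.succAbove i) = ν (k₀.succAbove i))
    (h1 : mveval j f μ = 0) (h2 : mveval j f ν = 0) : μ k₀ = ν k₀ := by
  classical
  obtain ⟨M, hM0, hM1, hMμ, hMν⟩ : ∃ M : ℝ, 0 ≤ M ∧ M < 1 ∧ (∀ i, ‖μ i‖ ≤ M) ∧ ∀ i, ‖ν i‖ ≤ M := by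
    obtain ⟨i₀, hi₀⟩ := Finite.exists_max (fun i => max ‖μ i‖ ‖ν i‖)
    exact ⟨max ‖μ i₀‖ ‖ν i₀‖, le_max_of_le_left (norm_nonneg _), max_lt (hμ i₀) (hν i₀),
      fun i => (le_max_left _ _).trans (hi₀ i), fun i => (le_max_right _ _).trans (hi₀ i)⟩
  set c := coeff (Finsupp.single k₀ 1) f with hcdef
  set r := f - C c * X k₀ with hr
  have hbound : ‖mveval j r μ - mveval j r ν‖ ≤ M * ‖μ k₀ - ν k₀‖ := by
    rw [← ((Eval.hasSum_mveval hj hμ r).sub (Eval.hasSum_mveval hj hν r)).tsum_eq]
    refine IsUltrametricDist.norm_tsum_le_of_forall_le_of_nonneg (by positivity) fun m => ?_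
    rw [← mul_sub, Fin.prod_univ_succAbove _ k₀, Fin.prod_univ_succAbove _ k₀]
    simp only [← heq, ← sub_mul, norm_mul, norm_prod, norm_pow]
    have hprod : ∀ T : Finset (Fin d), ∏ i ∈ T, ‖μ (k₀.succAbove i)‖ ^ m (k₀.succAbove i) ≤ 1 :=
      fun T => Finset.prod_le_one (fun i _ => by positivity)
        fun i _ => pow_le_one₀ (norm_nonneg _) (hμ _).le
    have hnn : 0 ≤ ∏ i, ‖μ (k₀.succAbove i)‖ ^ m (k₀.succAbove i) :=
      Finset.prod_nonneg fun i _ => by positivity
    rcases Nat.eq_zero_or_pos (m k₀) with h0 | h0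
    · simp [h0, mul_nonneg hM0 (norm_nonneg _)]
    by_cases hm : m = Finsupp.single k₀ 1
    · rw [hm, hr, hcdef, sub_single_zero_coeff, map_zero, norm_zero, zero_mul]
      positivity
    refine (mul_le_of_le_one_left (by positivity) (hj _)).trans ?_
    rcases Nat.lt_or_ge (m k₀) 2 with h2 | h2
    · have hm1 : m k₀ = 1 := by omega
      obtain ⟨i, hi⟩ : ∃ i : Fin d, m (k₀.succAbove i) ≠ 0 := by
        by_contra hne
        push Not at hne
        refine hm (Finsupp.ext fun s => ?_)
        induction s using Fin.succAboveCases k₀ with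
        | x => simp [hm1]
        | p i => rw [hne i, Finsupp.single_eq_of_ne (Fin.succAbove_ne k₀ i)]
      rw [hm1, pow_one, pow_one, mul_comm M]
      refine mul_le_mul_of_nonneg_left ?_ (norm_nonneg _)
      rw [← Finset.mul_prod_erase _ _ (Finset.mem_univ i)]
      refine (mul_le_of_le_one_right (by positivity) (hprod _)).trans ?_
      exact (pow_le_of_le_one (norm_nonneg _) (hμ _).le hi).trans (hMμ _)
    · refine (mul_le_of_le_one_right (norm_nonneg _) (hprod _)).trans ?_
      rw [← (Commute.all (μ k₀) (ν k₀)).mul_geom_sum₂, norm_mul, mul_comm M]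
      refine mul_le_mul_of_nonneg_left ?_ (norm_nonneg _)
      refine IsUltrametricDist.norm_sum_le_of_forall_le_of_nonneg hM0 fun i hi => ?_
      rw [Finset.mem_range] at hi
      rw [norm_mul, norm_pow, norm_pow]
      rcases Nat.eq_zero_or_pos i with rfl | hipos
      · rw [pow_zero, one_mul]
        exact (pow_le_of_le_one (norm_nonneg _) (hν _).le (by omega)).trans (hMν _)
      · exact (mul_le_of_le_one_right (by positivity) (pow_le_one₀ (norm_nonneg _) (hν _).le)).trans
          ((pow_le_of_le_one (norm_nonneg _) (hμ _).le (by omega)).trans (hMμ _))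
  have hfr : ∀ x : Fin (d + 1) → K, (∀ i, ‖x i‖ < 1) →
      mveval j r x = mveval j f x - j c * x k₀ := fun x hx => by
    rw [hr, Eval.mveval_sub hj hx, Eval.mveval_mul hj hx, Eval.mveval_C, Eval.mveval_X]
  rw [hfr μ hμ, hfr ν hν, h1, h2,
    show (0 : K) - j c * μ k₀ - (0 - j c * ν k₀) = -(j c * (μ k₀ - ν k₀)) by ring, norm_neg]
    at hbound
  have h3 : ‖μ k₀ - ν k₀‖ ≤ ‖j c * (μ k₀ - ν k₀)‖ := by
    calc ‖μ k₀ - ν k₀‖ = ‖j c' * (j c * (μ k₀ - ν k₀))‖ := by
          rw [← mul_assoc, ← map_mul, hc, map_one, one_mul]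
      _ ≤ _ := by
          rw [norm_mul]
          exact mul_le_of_le_one_left (norm_nonneg _) (hj _)
  refine sub_eq_zero.1 (norm_le_zero_iff.1 ?_)
  nlinarith [norm_nonneg (μ k₀ - ν k₀)]

end Vale.Agent.P217.HB
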