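import Vale.Agent.P217.HTranslate
import Vale.Agent.P217.HImplicit
import Vale.Agent.P217.EF.Basic

/-!
P217 block H: the group of points, its endomorphisms, and the inverse series.
-/

noncomputable section

namespace Vale.Agent.P217.HB

open MvPowerSeries

variable {C : Type} [NontriviallyNormedField C] [IsUltrametricDist C] [CompleteSpace C]
  {p h : ℕ} [Fact p.Prime] [CharP C p]

/-- The points of the law in the open disc. -/
def Pt (_hh : 1 ≤ h) (_G : FormalGroup (fixSub C p h)) : Type := {x : C // ‖x‖ < 1}

variable {hh : 1 ≤ h} {G : FormalGroup (fixSub C p h)}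

instance instZeroPt : Zero (Pt hh G) := ⟨⟨0, by simp⟩⟩

instance instAddPt : Add (Pt hh G) :=
  ⟨fun a b => ⟨EF.vadd (fixSub C p h).subtype G a.1 b.1,
    EF.norm_vadd_lt (norm_fix_le hh) G a.2 b.2⟩⟩

instance instAddCommMonoidPt [G.IsComm] : AddCommMonoid (Pt hh G) where
  add_assoc a b c := Subtype.ext (EF.vadd_assoc (norm_fix_le hh) G a.2 b.2 c.2)
  zero_add a := Subtype.ext (EF.zero_vadd (norm_fix_le hh) G a.2)
  add_zero a := Subtype.ext (EF.vadd_zero (norm_fix_le hh) G a.2)
  add_comm a b := Subtype.ext (EF.vadd_comm (norm_fix_le hh) G a.2 b.2)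
  nsmul := nsmulRec

omit [CompleteSpace C] in
theorem Pt.val_add (a b : Pt hh G) :
    (a + b).1 = mveval (fixSub C p h).subtype G.toPowerSeries ![a.1, b.1] := rfl

omit [IsUltrametricDist C] [CompleteSpace C] in
theorem Pt.val_zero : (0 : Pt hh G).1 = 0 := rfl

/-- An endomorphism of the law. -/
abbrev End' (G : FormalGroup (fixSub C p h)) : Type :=
  {b : PowerSeries (fixSub C p h) // EF.IsHom G G b}

/-- An endomorphism acting on a point. -/
def app (b : End' G) (x : Pt hh G) : Pt hh G :=
  ⟨peval (fixSub C p h).subtype b.1 x.1,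
    (Eval.norm_peval_le (norm_fix_le hh) x.2.le _ b.2.1).trans_lt x.2⟩

omit [CompleteSpace C] in
theorem pointSum_eq [G.IsComm] (l : List (Pt hh G)) :
    pointSum (G.map (fixSub C p h).subtype) (l.map fun x => x.1) = l.sum.1 := by
  induction l with
  | nil => rfl
  | cons a l ih =>
    rw [List.map_cons, pointSum, ih, EF.gadd_map, List.sum_cons]
    rfl

omit [IsUltrametricDist C] [CompleteSpace C] in
theorem constantCoeff_eq_zero_of_single {d : ℕ} (u : Fin d → PowerSeries (fixSub C p h))
    (hu : ∀ s, PowerSeries.constantCoeff (u s) = 0) (θ : MvPowerSeries (Fin d) (fixSub C p h))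
    (hθ : constantCoeff θ = 0) : PowerSeries.constantCoeff (subst u θ) = 0 :=
  constantCoeff_subst_eq_zero (hasSubst_of_constantCoeff_zero hu) hu hθ

omit [IsUltrametricDist C] [CompleteSpace C] in
theorem isHom_zero : EF.IsHom G G 0 := by
  refine ⟨map_zero _, ?_⟩
  have e : ∀ v : MvPowerSeries (Fin 2) (fixSub C p h), constantCoeff v = 0 →
      PowerSeries.subst v (0 : PowerSeries (fixSub C p h)) = 0 := fun v hv => by
    rw [← PowerSeries.coe_substAlgHom (PowerSeries.HasSubst.of_constantCoeff_zero hv), map_zero]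
  rw [e _ G.zero_constantCoeff, e _ (constantCoeff_X 0), e _ (constantCoeff_X 1),
    show (![0, 0] : Fin 2 → MvPowerSeries (Fin 2) (fixSub C p h)) = 0 from
      funext fun s => by fin_cases s <;> rfl,
    subst_zero_of_constantCoeff_zero G.zero_constantCoeff]

omit [IsUltrametricDist C] [CompleteSpace C] in
/-- In a commutative law the series giving negatives is an endomorphism. -/
theorem isHom_of_neg [G.IsComm] {ι : PowerSeries (fixSub C p h)}
    (hι0 : PowerSeries.constantCoeff ι = 0)
    (hneg : ∀ u : MvPowerSeries (Fin 2) (fixSub C p h), constantCoeff u = 0 →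
      subst ![u, PowerSeries.subst u ι] G.toPowerSeries = 0) : EF.IsHom G G ι := by
  have hc : ∀ u : MvPowerSeries (Fin 2) (fixSub C p h), constantCoeff u = 0 →
      PowerSeries.HasSubst (PowerSeries.subst u ι) := fun u hu =>
    PowerSeries.HasSubst.of_constantCoeff_zero
      (PowerSeries.constantCoeff_subst_eq_zero hu ι hι0)
  refine ⟨hι0, ?_⟩
  let P := G.Point (Fin 2)
  let x : P := ⟨X 0, PowerSeries.HasSubst.of_constantCoeff_zero (constantCoeff_X 0)⟩
  let y : P := ⟨X 1, PowerSeries.HasSubst.of_constantCoeff_zero (constantCoeff_X 1)⟩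
  let nx : P := ⟨_, hc (X 0) (constantCoeff_X 0)⟩
  let ny : P := ⟨_, hc (X 1) (constantCoeff_X 1)⟩
  let nz : P := ⟨_, hc G.toPowerSeries G.zero_constantCoeff⟩
  have hx : x + nx = 0 := Subtype.ext (hneg (X 0) (constantCoeff_X 0))
  have hy : y + ny = 0 := Subtype.ext (hneg (X 1) (constantCoeff_X 1))
  have e : ![(X 0 : MvPowerSeries (Fin 2) (fixSub C p h)), X 1] = X :=
    funext fun s => by fin_cases s <;> rfl
  have hz : x + y + nz = 0 := by
    refine Subtype.ext ?_
    show subst ![subst ![(X 0 : MvPowerSeries (Fin 2) (fixSub C p h)), X 1] G.toPowerSeries,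
      PowerSeries.subst G.toPowerSeries ι] G.toPowerSeries = 0
    rw [e, subst_self, id_eq]
    exact hneg _ G.zero_constantCoeff
  have key : nz = nx + ny := by
    calc nz = nz + ((x + nx) + (y + ny)) := by rw [hx, hy, add_zero, add_zero]
      _ = (x + y + nz) + (nx + ny) := by abel
      _ = nx + ny := by rw [hz, zero_add]
  exact congrArg Subtype.val key

/-- The inverse series. -/
theorem exists_inverse [G.IsComm] : ∃ ι : End' G, ι.1 ≠ 0 ∧ ∀ x : Pt hh G, x + app ι x = 0 := by
  obtain ⟨θ, hθ0, hθ⟩ := exists_implicit (R := fixSub C p h) (d := 1) 1 G.zero_constantCoeff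
    (c' := 1) (by rw [one_mul]; exact G.lin_coeff_Y)
  have hPX : ∀ _ : Fin 1, PowerSeries.constantCoeff (PowerSeries.X : PowerSeries (fixSub C p h)) = 0 :=
    fun _ => PowerSeries.constantCoeff_X
  set ι : PowerSeries (fixSub C p h) :=
    subst (fun _ : Fin 1 => (PowerSeries.X : PowerSeries (fixSub C p h))) θ with hι
  have hι0 : PowerSeries.constantCoeff ι = 0 :=
    constantCoeff_eq_zero_of_single _ (fun s => hPX s) θ hθ0
  have hX : HasSubst (fun _ : Fin 1 => (PowerSeries.X : PowerSeries (fixSub C p h))) :=
    hasSubst_of_constantCoeff_zero fun s => hPX s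
  have hfun : (fun s : Fin 2 => subst (fun _ : Fin 1 => (PowerSeries.X : PowerSeries (fixSub C p h)))
      (ins 1 θ s)) = ![PowerSeries.X, ι] := by
    funext s
    induction s using Fin.succAboveCases (1 : Fin 2) with
    | x => simp [ins, hι]
    | p i =>
      obtain rfl : i = 0 := Subsingleton.elim _ _
      simp only [ins, Fin.insertNth_apply_succAbove, subst_X hX]
      rfl
  have hid : subst ![(PowerSeries.X : PowerSeries (fixSub C p h)), ι] G.toPowerSeries = 0 := by
    have h1 := congrArg (subst (fun _ : Fin 1 => (PowerSeries.X : PowerSeries (fixSub C p h)))) hθ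
    rw [subst_comp_subst_apply (hasSubst_ins 1 hθ0) hX, hfun, ← coe_substAlgHom hX, map_zero] at h1
    exact h1
  -- any argument plus its inverse is zero
  have hneg : ∀ u : MvPowerSeries (Fin 2) (fixSub C p h), constantCoeff u = 0 →
      subst ![u, PowerSeries.subst u ι] G.toPowerSeries = 0 := by
    intro u hu
    have hu' := PowerSeries.HasSubst.of_constantCoeff_zero hu
    have hpair : HasSubst ![(PowerSeries.X : PowerSeries (fixSub C p h)), ι] :=
      hasSubst_of_constantCoeff_zero fun s => by
        fin_cases s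
        · exact PowerSeries.constantCoeff_X
        · exact hι0
    have hfun' : (fun s => subst (fun _ : Unit => u)
        (![(PowerSeries.X : PowerSeries (fixSub C p h)), ι] s)) = ![u, PowerSeries.subst u ι] := by
      funext s
      fin_cases s
      · exact PowerSeries.subst_X hu'
      · rfl
    have h1 := congrArg (PowerSeries.subst u) hid
    rw [PowerSeries.subst_def, subst_comp_subst_apply hpair hu'.const, hfun'] at h1
    exact h1.trans (by rw [PowerSeries.subst_def, ← coe_substAlgHom hu'.const, map_zero])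
  have hc : ∀ u : MvPowerSeries (Fin 2) (fixSub C p h), constantCoeff u = 0 →
      PowerSeries.HasSubst (PowerSeries.subst u ι) := fun u hu =>
    PowerSeries.HasSubst.of_constantCoeff_zero
      (PowerSeries.constantCoeff_subst_eq_zero hu ι hι0)
  have hHom : EF.IsHom G G ι := isHom_of_neg hι0 hneg
  refine ⟨⟨ι, hHom⟩, ?_, fun x => Subtype.ext ?_⟩
  · intro e
    have e0 : ι = 0 := e
    rw [e0] at hid
    exact PowerSeries.X_ne_zero (G.Xzero_eq_X.symm.trans hid)
  · have h1 := congrArg (fun f => peval (fixSub C p h).subtype f x.1) hid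
    rw [Eval.peval_subst_mv (norm_fix_le hh) x.2 (fun s => by
      fin_cases s
      · exact PowerSeries.constantCoeff_X
      · exact hι0), Eval.peval_zero] at h1
    rw [Pt.val_add, Pt.val_zero]
    refine Eq.trans (congrArg _ (funext fun s => ?_)) h1
    fin_cases s
    · exact (Eval.peval_X).symm
    · rfl

end Vale.Agent.P217.HB
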