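import Vale.Agent.P217.HOrder
import Vale.Agent.P217.HGroup

/-!
P217 block H: a series that is additive on a dense group of points is a sum of endomorphisms.
-/

noncomputable section

namespace Vale.Agent.P217.HB

open Filter Topology MvPowerSeries
open scoped MvPowerSeries.WithPiTopology

variable {C : Type} [NontriviallyNormedField C] [IsUltrametricDist C] [CompleteSpace C]
  {p h d : ℕ} [Fact p.Prime] [CharP C p]

omit [IsUltrametricDist C] [CompleteSpace C] [Fact p.Prime] [CharP C p] in
theorem small_sum {a b : Fin d → C} (ha : ∀ i, ‖a i‖ < 1) (hb : ∀ i, ‖b i‖ < 1)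
    (s : Fin d ⊕ Fin d) : ‖Sum.elim a b s‖ < 1 := by
  cases s with
  | inl i => exact ha i
  | inr i => exact hb i

theorem evalHom_X {σ : Type} [Finite σ] {R : Type} [CommRing R] (j : R →+* C)
    (hj : ∀ r, ‖j r‖ ≤ 1) (a : σ → C) (ha : ∀ i, ‖a i‖ < 1) (s : σ) :
    Eval.evalHom j hj a ha (X s) = a s := by
  simp [Eval.evalHom, coe_eval₂Hom, eval₂_X, Eval.ptO]

theorem evalHom_subst_fin {τ : Type} [Finite τ] {e : ℕ} {R : Type} [CommRing R] (j : R →+* C)
    (hj : ∀ r, ‖j r‖ ≤ 1) (b : τ → C) (hb : ∀ i, ‖b i‖ < 1) {w : Fin e → MvPowerSeries τ R}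
    (hw : HasSubst w) {v : Fin e → C} (hv : ∀ s, ‖v s‖ < 1)
    (he : ∀ s, Eval.evalHom j hj b hb (w s) = v s) (f : MvPowerSeries (Fin e) R) :
    Eval.evalHom j hj b hb (subst w f) = mveval j f v := by
  rw [Eval.evalHom_subst hj b hb w hw (fun s => by rw [he]; exact hv s),
    Eval.mveval_eq_evalHom hj hv]
  exact DFunLike.congr_fun (Eval.evalHom_congr j hj _ _ he) f

variable [IsAlgClosed C] (hh : 1 ≤ h) {G : FormalGroup (fixSub C p h)} {S : Set (Fin d → C)}

/-- A series vanishing on the square of a dense group is zero. -/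
theorem eq_zero_of_van_prod (hS : GoodSet G S)
    (hd : ∀ f : MvPowerSeries (Fin d) (fixSub C p h), Van S f → f = 0)
    (E : MvPowerSeries (Fin d ⊕ Fin d) (fixSub C p h))
    (hE : ∀ a b : Fin d → C, ∀ (ha : a ∈ S) (hb : b ∈ S),
      Eval.evalHom (fixSub C p h).subtype (norm_fix_le hh) (Sum.elim a b)
        (small_sum (hS.small a ha) (hS.small b hb)) E = 0) : E = 0 := by
  classical
  let pair : (Fin d →₀ ℕ) → (Fin d →₀ ℕ) → (Fin d ⊕ Fin d →₀ ℕ) := fun u e => u.sumElim e
  let slice : (Fin d →₀ ℕ) → MvPowerSeries (Fin d) (fixSub C p h) :=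
    fun e u => coeff (pair u e) E
  have hslice : ∀ e, Van S (slice e) := by
    intro e a ha
    set P : Fin d ⊕ Fin d → MvPowerSeries (Fin d) (O C) :=
      Sum.elim (fun i => MvPowerSeries.C (toO (a i) (hS.small a ha i))) X with hP
    have hP0 : ∀ s, ‖((constantCoeff (P s) : O C) : C)‖ < 1 := by
      intro s
      cases s with
      | inl i => simpa [hP] using hS.small a ha i
      | inr i => simp [hP]
    set θ := evP (fixSub C p h).subtype (norm_fix_le hh) P hP0 E with hθ
    have hvan : ∀ b ∈ S, mveval (RingHom.id C) (θ.map (unitBall C).subtype) b = 0 := by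
      intro b hb
      have hval : ∀ s, ((evH (pt b (hS.small b hb)) (small_pt b (hS.small b hb)) (P s) : O C) : C) =
          Sum.elim a b s := by
        intro s
        cases s with
        | inl i => simp [hP]
        | inr i => simp [hP, Eval.ptO]
      rw [show b = fun i => ((pt b (hS.small b hb) i : O C) : C) from rfl,
        mveval_map_eq_evH _ (small_pt b (hS.small b hb)), hθ,
        evH_evP _ _ _ _ _ _ (fun s => by rw [hval]; exact small_sum (hS.small a ha) (hS.small b hb) s)]
      exact (DFunLike.congr_fun (Eval.evalHom_congr _ _ _ _ hval) E).trans (hE a b ha hb)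
    have hzero : coeff e θ = 0 := coeff_eq_zero_of_descent S hS.small hS.pow hh
      (∑ i, e i + 1) (fun f hf u _ => by rw [hd f hf, map_zero]) θ hvan e (Nat.lt_succ_self _)
    have h1 := (hasSum_evP _ (norm_fix_le hh) P hP0 E e).map (unitBall C).subtype
      continuous_subtype_val
    rw [← hθ, hzero, map_zero] at h1
    have hinj : Function.Injective (fun u => pair u e) := fun u v huv => by
      ext i
      simpa [pair] using DFunLike.congr_fun huv (Sum.inl i)
    have hcoeff : ∀ m : Fin d ⊕ Fin d →₀ ℕ, coeff e (∏ s, P s ^ m s) =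
        if e = Finsupp.equivFunOnFinite.symm (fun i => m (Sum.inr i)) then
          ∏ i, toO (a i) (hS.small a ha i) ^ m (Sum.inl i) else 0 := by
      intro m
      rw [Fintype.prod_sum_type]
      simp only [hP, Sum.elim_inl, Sum.elim_inr, ← map_pow, ← map_prod, coeff_C_mul]
      rw [show ∏ i, (X i : MvPowerSeries (Fin d) (O C)) ^ m (Sum.inr i) =
          monomial (Finsupp.equivFunOnFinite.symm fun i => m (Sum.inr i)) 1 by
        rw [monomial_one_eq, Finsupp.prod_fintype _ _ (fun i => pow_zero _)]
        rfl, coeff_monomial]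
      split_ifs <;> simp
    rw [← hinj.hasSum_iff] at h1
    · refine (Eval.hasSum_mveval (norm_fix_le hh) (hS.small a ha) (slice e)).unique
        (h1.congr_fun fun u => ?_)
      simp only [Function.comp_apply, hcoeff]
      rw [if_pos (Finsupp.ext fun i => by simp [pair])]
      have hu : ∀ i, pair u e (Sum.inl i) = u i := fun i => by simp [pair]
      simp only [hu, map_mul, map_prod, map_pow]
      rfl
    · intro m hm
      simp only [Function.comp_apply, hcoeff]
      rw [if_neg, mul_zero, map_zero]
      intro he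
      refine hm ⟨Finsupp.equivFunOnFinite.symm (fun i => m (Sum.inl i)), Finsupp.ext fun s => ?_⟩
      cases s with
      | inl i => simp [pair]
      | inr i => simp [pair, he]
  refine MvPowerSeries.ext fun m => ?_
  have hm : m = pair (Finsupp.equivFunOnFinite.symm fun i => m (Sum.inl i))
      (Finsupp.equivFunOnFinite.symm fun i => m (Sum.inr i)) := by
    ext s
    cases s <;> simp [pair]
  rw [hm, map_zero]
  have := congrArg (coeff (Finsupp.equivFunOnFinite.symm fun i => m (Sum.inl i)))
    (hd _ (hslice (Finsupp.equivFunOnFinite.symm fun i => m (Sum.inr i))))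
  exact this.trans (map_zero _)

/-- The law at two families of variables. -/
def lawAtVars (G : FormalGroup (fixSub C p h)) (i : Fin d) :
    MvPowerSeries (Fin d ⊕ Fin d) (fixSub C p h) :=
  subst ![X (Sum.inl i), X (Sum.inr i)] G.toPowerSeries

omit [IsUltrametricDist C] [CompleteSpace C] [IsAlgClosed C] in
theorem hasSubst_pair {σ : Type} {a b : MvPowerSeries σ (fixSub C p h)}
    (ha : constantCoeff a = 0) (hb : constantCoeff b = 0) : HasSubst ![a, b] :=
  hasSubst_of_constantCoeff_zero fun s => by fin_cases s <;> simpa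

omit [IsUltrametricDist C] [CompleteSpace C] [IsAlgClosed C] in
theorem constantCoeff_pair {σ : Type} {a b : MvPowerSeries σ (fixSub C p h)}
    (ha : constantCoeff a = 0) (hb : constantCoeff b = 0) :
    constantCoeff (subst ![a, b] G.toPowerSeries) = 0 :=
  constantCoeff_subst_eq_zero (hasSubst_pair ha hb) (fun s => by fin_cases s <;> simpa)
    G.zero_constantCoeff

/-- The series form of additivity. -/
def IsAdd (G : FormalGroup (fixSub C p h)) (θ : MvPowerSeries (Fin d) (fixSub C p h)) : Prop :=
  subst (lawAtVars G) θ =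
    subst ![subst (fun i => X (Sum.inl i)) θ, subst (fun i => X (Sum.inr i)) θ] G.toPowerSeries

omit [IsUltrametricDist C] [CompleteSpace C] [IsAlgClosed C] in
theorem hasSubst_lawAtVars : HasSubst (lawAtVars G : Fin d → _) :=
  hasSubst_of_constantCoeff_zero fun i => constantCoeff_pair (constantCoeff_X _) (constantCoeff_X _)

omit [IsUltrametricDist C] [CompleteSpace C] [IsAlgClosed C] in
theorem hasSubst_inl : HasSubst (fun i : Fin d =>
    (X (Sum.inl i) : MvPowerSeries (Fin d ⊕ Fin d) (fixSub C p h))) :=
  hasSubst_of_constantCoeff_zero fun _ => constantCoeff_X _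

omit [IsUltrametricDist C] [CompleteSpace C] [IsAlgClosed C] in
theorem hasSubst_inr : HasSubst (fun i : Fin d =>
    (X (Sum.inr i) : MvPowerSeries (Fin d ⊕ Fin d) (fixSub C p h))) :=
  hasSubst_of_constantCoeff_zero fun _ => constantCoeff_X _

omit [IsUltrametricDist C] [CompleteSpace C] [IsAlgClosed C] in
theorem norm_pair_lt' {a b : C} (ha : ‖a‖ < 1) (hb : ‖b‖ < 1) (s : Fin 2) :
    ‖(![a, b] : Fin 2 → C) s‖ < 1 := EF.norm_pair_lt ha hb s

omit [IsAlgClosed C] in
theorem eval_lhs (a b : Fin d → C) (ha : ∀ i, ‖a i‖ < 1) (hb : ∀ i, ‖b i‖ < 1)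
    (θ : MvPowerSeries (Fin d) (fixSub C p h)) :
    Eval.evalHom (fixSub C p h).subtype (norm_fix_le hh) (Sum.elim a b) (small_sum ha hb)
        (subst (lawAtVars G) θ) =
      mveval (fixSub C p h).subtype θ
        (fun i => mveval (fixSub C p h).subtype G.toPowerSeries ![a i, b i]) := by
  refine evalHom_subst_fin _ _ _ _ hasSubst_lawAtVars
    (fun i => EF.norm_vadd_lt (norm_fix_le hh) G (ha i) (hb i)) (fun i => ?_) θ
  exact evalHom_subst_fin _ _ _ _ (hasSubst_pair (constantCoeff_X _) (constantCoeff_X _))
    (norm_pair_lt' (ha i) (hb i))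
    (fun s => by fin_cases s <;> exact evalHom_X _ _ _ _ _) G.toPowerSeries

omit [IsAlgClosed C] in
theorem eval_rhs (a b : Fin d → C) (ha : ∀ i, ‖a i‖ < 1) (hb : ∀ i, ‖b i‖ < 1)
    (θ : MvPowerSeries (Fin d) (fixSub C p h)) (hθ : constantCoeff θ = 0) :
    Eval.evalHom (fixSub C p h).subtype (norm_fix_le hh) (Sum.elim a b) (small_sum ha hb)
        (subst ![subst (fun i => X (Sum.inl i)) θ, subst (fun i => X (Sum.inr i)) θ]
          G.toPowerSeries) =
      mveval (fixSub C p h).subtype G.toPowerSeries
        ![mveval (fixSub C p h).subtype θ a, mveval (fixSub C p h).subtype θ b] := by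
  refine evalHom_subst_fin _ _ _ _ (hasSubst_pair
      (constantCoeff_subst_eq_zero hasSubst_inl (fun _ => constantCoeff_X _) hθ)
      (constantCoeff_subst_eq_zero hasSubst_inr (fun _ => constantCoeff_X _) hθ))
    (norm_pair_lt' (Eval.norm_mveval_lt_one (norm_fix_le hh) ha _ hθ)
      (Eval.norm_mveval_lt_one (norm_fix_le hh) hb _ hθ)) (fun s => ?_) _
  fin_cases s
  · exact evalHom_subst_fin _ _ _ _ hasSubst_inl ha (fun i => evalHom_X _ _ _ _ _) θ
  · exact evalHom_subst_fin _ _ _ _ hasSubst_inr hb (fun i => evalHom_X _ _ _ _ _) θ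

include hh in
/-- Additivity on a dense group is formal additivity. -/
theorem isAdd_of_dense (hS : GoodSet G S)
    (hd : ∀ f : MvPowerSeries (Fin d) (fixSub C p h), Van S f → f = 0)
    {θ : MvPowerSeries (Fin d) (fixSub C p h)} (hθ : constantCoeff θ = 0)
    (hadd : ∀ a ∈ S, ∀ b ∈ S, mveval (fixSub C p h).subtype θ
        (fun i => mveval (fixSub C p h).subtype G.toPowerSeries ![a i, b i]) =
      mveval (fixSub C p h).subtype G.toPowerSeries
        ![mveval (fixSub C p h).subtype θ a, mveval (fixSub C p h).subtype θ b]) :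
    IsAdd G θ := by
  refine sub_eq_zero.1 (eq_zero_of_van_prod hh hS hd _ fun a b ha hb => ?_)
  rw [map_sub, eval_lhs hh a b (hS.small a ha) (hS.small b hb) θ,
    eval_rhs hh a b (hS.small a ha) (hS.small b hb) θ hθ, hadd a ha b hb, sub_self]

omit [IsUltrametricDist C] [CompleteSpace C] [IsAlgClosed C] in
/-- The components of an additive series are endomorphisms. -/
theorem isHom_component {θ : MvPowerSeries (Fin d) (fixSub C p h)} (hθ : constantCoeff θ = 0)
    (hA : IsAdd G θ) (k : Fin d) :
    EF.IsHom G G (subst (Pi.single k (PowerSeries.X : PowerSeries (fixSub C p h))) θ) := by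
  classical
  set b : PowerSeries (fixSub C p h) := subst (Pi.single k PowerSeries.X) θ with hbdef
  have hsingle : ∀ {σ : Type} (u : MvPowerSeries σ (fixSub C p h)), constantCoeff u = 0 →
      ∀ i, constantCoeff ((Pi.single k u : Fin d → MvPowerSeries σ (fixSub C p h)) i) = 0 := by
    intro σ u hu i
    by_cases hi : i = k
    · subst hi; simpa using hu
    · simp [hi]
  have hX0 : ∀ i, constantCoeff ((Pi.single k PowerSeries.X :
      Fin d → PowerSeries (fixSub C p h)) i) = 0 := hsingle _ PowerSeries.constantCoeff_X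
  have hb0 : PowerSeries.constantCoeff b = 0 :=
    constantCoeff_subst_eq_zero (hasSubst_of_constantCoeff_zero hX0) hX0 hθ
  refine ⟨hb0, ?_⟩
  have hcomp : ∀ u : MvPowerSeries (Fin 2) (fixSub C p h), constantCoeff u = 0 →
      PowerSeries.subst u b = subst (Pi.single k u) θ := by
    intro u hu
    have hu' := PowerSeries.HasSubst.of_constantCoeff_zero hu
    rw [hbdef, PowerSeries.subst_def,
      subst_comp_subst_apply (hasSubst_of_constantCoeff_zero hX0) hu'.const]
    congr 1
    funext i
    by_cases hi : i = k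
    · subst hi
      simp only [Pi.single_eq_same]
      exact PowerSeries.subst_X hu'
    · rw [Pi.single_eq_of_ne hi, Pi.single_eq_of_ne hi, ← coe_substAlgHom hu'.const, map_zero]
  let v : Fin d ⊕ Fin d → MvPowerSeries (Fin 2) (fixSub C p h) :=
    Sum.elim (Pi.single k (X 0)) (Pi.single k (X 1))
  have hv0 : ∀ s, constantCoeff (v s) = 0 := by
    intro s
    cases s with
    | inl i => exact hsingle _ (constantCoeff_X _) i
    | inr i => exact hsingle _ (constantCoeff_X _) i
  have hv := hasSubst_of_constantCoeff_zero hv0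
  have hl : subst v (subst (lawAtVars G) θ) = subst (Pi.single k G.toPowerSeries) θ := by
    rw [subst_comp_subst_apply hasSubst_lawAtVars hv]
    congr 1
    funext i
    rw [lawAtVars, subst_comp_subst_apply
      (hasSubst_pair (constantCoeff_X _) (constantCoeff_X _)) hv]
    by_cases hi : i = k
    · subst hi
      rw [Pi.single_eq_same, show (fun s => subst v
          (![X (Sum.inl i), X (Sum.inr i)] s : MvPowerSeries (Fin d ⊕ Fin d) (fixSub C p h))) = X
        from funext fun s => by fin_cases s <;> simp [v, subst_X hv], subst_self, id_eq]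
    · rw [Pi.single_eq_of_ne hi, show (fun s => subst v
          (![X (Sum.inl i), X (Sum.inr i)] s : MvPowerSeries (Fin d ⊕ Fin d) (fixSub C p h))) = 0
        from funext fun s => by fin_cases s <;> simp [v, subst_X hv, hi],
        subst_zero_of_constantCoeff_zero G.zero_constantCoeff]
  rw [hcomp _ G.zero_constantCoeff, ← hl, hA,
    subst_comp_subst_apply (hasSubst_pair
      (constantCoeff_subst_eq_zero hasSubst_inl (fun _ => constantCoeff_X _) hθ)
      (constantCoeff_subst_eq_zero hasSubst_inr (fun _ => constantCoeff_X _) hθ)) hv,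
    hcomp _ (constantCoeff_X 0), hcomp _ (constantCoeff_X 1)]
  congr 1
  funext s
  fin_cases s
  · show subst v (subst (fun i => X (Sum.inl i)) θ) = subst (Pi.single k (X 0)) θ
    rw [subst_comp_subst_apply hasSubst_inl hv]
    congr 1
    funext i
    rw [subst_X hv]
    rfl
  · show subst v (subst (fun i => X (Sum.inr i)) θ) = subst (Pi.single k (X 1)) θ
    rw [subst_comp_subst_apply hasSubst_inr hv]
    congr 1
    funext i
    rw [subst_X hv]
    rfl

omit [IsAlgClosed C] in
/-- An additive series is the sum of its components on the open disc. -/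
theorem exists_endomorphisms [G.IsComm] {θ : MvPowerSeries (Fin d) (fixSub C p h)}
    (hθ : constantCoeff θ = 0) (hA : IsAdd G θ) :
    ∃ t : Fin d → End' G, ∀ a : Fin d → Pt hh G,
      (∑ i, app (t i) (a i)).1 = mveval (fixSub C p h).subtype θ (fun i => (a i).1) := by
  classical
  let T : (Fin d → Pt hh G) →+ Pt hh G :=
    { toFun := fun a => ⟨mveval (fixSub C p h).subtype θ (fun i => (a i).1),
        Eval.norm_mveval_lt_one (norm_fix_le hh) (fun i => (a i).2) _ hθ⟩
      map_zero' := Subtype.ext (by
        show mveval (fixSub C p h).subtype θ (fun _ => (0 : C)) = 0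
        rw [mveval, tsum_eq_single 0]
        · simp [hθ]
        · intro m hm
          obtain ⟨i, hi⟩ : ∃ i, m i ≠ 0 := by
            by_contra hne
            push Not at hne
            exact hm (Finsupp.ext hne)
          rw [Finset.prod_eq_zero (Finset.mem_univ i) (by simp [hi]), mul_zero])
      map_add' := fun a b => Subtype.ext (by
        show mveval (fixSub C p h).subtype θ (fun i => (a i + b i).1) = _
        simp only [Pt.val_add]
        rw [← eval_lhs hh _ _ (fun i => (a i).2) (fun i => (b i).2) θ, hA,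
          eval_rhs hh _ _ (fun i => (a i).2) (fun i => (b i).2) θ hθ]
        rfl) }
  refine ⟨fun i => ⟨_, isHom_component hθ hA i⟩, fun a => ?_⟩
  have hT : ∀ (i : Fin d) (x : Pt hh G), app ⟨_, isHom_component hθ hA i⟩ x = T (Pi.single i x) := by
    intro i x
    refine Subtype.ext ?_
    show peval (fixSub C p h).subtype (subst (Pi.single i PowerSeries.X) θ) x.1 =
      mveval (fixSub C p h).subtype θ (fun s => ((Pi.single i x : Fin d → Pt hh G) s).1)
    rw [Eval.peval_subst_mv (norm_fix_le hh) x.2 (fun s => by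
      by_cases hs : s = i
      · subst hs; simp
      · simp [hs])]
    congr 1
    funext s
    by_cases hs : s = i
    · subst hs; simp [Eval.peval_X]
    · simp [hs, Eval.peval_zero, Pt.val_zero]
  simp only [hT]
  rw [← map_sum, Finset.univ_sum_single]
  rfl

end Vale.Agent.P217.HB
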