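import Vale.Agent.P217.G
import Vale.Agent.P217.Eval

/-!
P217 block H: evaluation of series over the unit ball as continuous ring homomorphisms.
-/

noncomputable section

namespace Vale.Agent.P217.HB

open Filter Topology MvPowerSeries
open scoped MvPowerSeries.WithPiTopology

variable {C : Type} [NontriviallyNormedField C] [IsUltrametricDist C]

/-- The unit ball as a ring. -/
abbrev O (C : Type) [NontriviallyNormedField C] [IsUltrametricDist C] : Type := ↥(unitBall C)

instance instIsUniformAddGroup : IsUniformAddGroup (O C) :=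
  inferInstanceAs (IsUniformAddGroup (unitBall C).toAddSubgroup)

variable [CompleteSpace C] {σ τ : Type}

/-- A family in the open disc. -/
def Small (a : σ → O C) : Prop := ∀ s, ‖(a s : C)‖ < 1

theorem hasEval_of_small [Finite σ] {a : σ → O C} (ha : Small a) : HasEval a where
  hpow s := by
    show Tendsto (fun n => a s ^ n) atTop (𝓝 0)
    rw [tendsto_subtype_rng]
    simpa [Function.comp_def] using tendsto_pow_atTop_nhds_zero_of_norm_lt_one (ha s)
  tendsto_zero := by simp [Filter.cofinite_eq_bot]

theorem hasEval_series [Finite σ] (P : σ → MvPowerSeries τ (O C))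
    (hP : ∀ s, ‖((constantCoeff (P s) : O C) : C)‖ < 1) : HasEval P where
  hpow s := LinearTopology.isTopologicallyNilpotent_of_constantCoeff
    ((hasEval_of_small (σ := Unit) (a := fun _ => constantCoeff (P s)) fun _ => hP s).hpow ())
  tendsto_zero := by simp [Filter.cofinite_eq_bot]

theorem two_le_pow' {p h : ℕ} [Fact p.Prime] (hh : 1 ≤ h) : 1 < p ^ h :=
  Nat.one_lt_pow (by omega) (Fact.out : p.Prime).one_lt

/-- Evaluation at a family in the open disc. -/
def evH [Finite σ] (a : σ → O C) (ha : Small a) : MvPowerSeries σ (O C) →+* O C :=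
  eval₂Hom (φ := RingHom.id (O C)) continuous_id (hasEval_of_small ha)

theorem continuous_evH [Finite σ] (a : σ → O C) (ha : Small a) : Continuous (evH a ha) := by
  rw [evH, coe_eval₂Hom]
  exact continuous_eval₂ continuous_id (hasEval_of_small ha)

@[simp] theorem evH_X [Finite σ] (a : σ → O C) (ha : Small a) (s : σ) : evH a ha (X s) = a s := by
  rw [evH, coe_eval₂Hom, eval₂_X]

@[simp] theorem evH_C [Finite σ] (a : σ → O C) (ha : Small a) (c : O C) :
    evH a ha (MvPowerSeries.C c) = c := by
  rw [evH, coe_eval₂Hom, eval₂_C]; rfl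

/-- Two continuous ring homomorphisms agreeing on constants and variables agree. -/
theorem hom_ext {T : Type*} [CommRing T] [TopologicalSpace T] [T2Space T]
    (F G : MvPowerSeries σ (O C) →+* T) (hF : Continuous F) (hG : Continuous G)
    (hC : ∀ c, F (MvPowerSeries.C c) = G (MvPowerSeries.C c))
    (hX : ∀ s, F (X s) = G (X s)) : F = G := by
  have h : F.comp MvPolynomial.coeToMvPowerSeries.ringHom =
      G.comp MvPolynomial.coeToMvPowerSeries.ringHom := by
    refine MvPolynomial.ringHom_ext (fun c => ?_) fun s => ?_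
    · simpa using hC c
    · simpa using hX s
  exact DFunLike.coe_injective
    (DenseRange.equalizer MvPowerSeries.WithPiTopology.denseRange_toMvPowerSeries hF hG
      (funext fun q => by simpa [MvPolynomial.toMvPowerSeries] using RingHom.congr_fun h q))

theorem hasSum_evH [Finite σ] (a : σ → O C) (ha : Small a) (f : MvPowerSeries σ (O C)) :
    HasSum (fun d : σ →₀ ℕ => coeff d f * d.prod fun s e => a s ^ e) (evH a ha f) := by
  rw [evH, coe_eval₂Hom]
  exact hasSum_eval₂ continuous_id (hasEval_of_small ha) f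

theorem coe_evH [Fintype σ] (a : σ → O C) (ha : Small a) (f : MvPowerSeries σ (O C)) :
    ((evH a ha f : O C) : C) =
      ∑' d : σ →₀ ℕ, ((coeff d f : O C) : C) * ∏ s, ((a s : O C) : C) ^ d s := by
  have h := (hasSum_evH a ha f).map (unitBall C).subtype continuous_subtype_val
  refine h.tsum_eq.symm.trans ?_
  refine tsum_congr fun d => ?_
  simp [Finsupp.prod_fintype, map_prod]

variable {p h : ℕ} [Fact p.Prime] [CharP C p]

variable (p h C) in
/-- The fixed ring of the Frobenius power. -/
def fixSub : Subring C := RingHom.eqLocus (iterateFrobenius C p h) (RingHom.id C)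

omit [IsUltrametricDist C] [CompleteSpace C] in
theorem mem_fixSub {x : C} : x ∈ fixSub C p h ↔ x ^ p ^ h = x := Iff.rfl

omit [CompleteSpace C] in
theorem norm_fix_le (hh : 1 ≤ h) (x : fixSub C p h) : ‖(fixSub C p h).subtype x‖ ≤ 1 := by
  show ‖(x : C)‖ ≤ 1
  by_contra hlt
  push Not at hlt
  have h1 : ‖(x : C)‖ ^ p ^ h = ‖(x : C)‖ := by rw [← norm_pow, mem_fixSub.1 x.2]
  have h2 : ‖(x : C)‖ ^ 1 < ‖(x : C)‖ ^ p ^ h := pow_lt_pow_right₀ hlt (two_le_pow' hh)
  rw [pow_one] at h2
  linarith

omit [IsUltrametricDist C] [CompleteSpace C] in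
theorem fix_inv (hh : 1 ≤ h) (c : fixSub C p h) (hc : c ≠ 0) : ∃ c' : fixSub C p h, c' * c = 1 := by
  have hc' : (c : C) ≠ 0 := fun e => hc (Subtype.ext e)
  exact ⟨⟨(c : C)⁻¹, mem_fixSub.2 (by rw [inv_pow, mem_fixSub.1 c.2])⟩,
    Subtype.ext (inv_mul_cancel₀ hc')⟩

section generic

variable {R : Type} [CommRing R] (j : R →+* C) (hj : ∀ r, ‖j r‖ ≤ 1)

/-- Evaluation of fixed series with values in series over the unit ball. -/
def evP [Finite σ] (P : σ → MvPowerSeries τ (O C))
    (hP : ∀ s, ‖((constantCoeff (P s) : O C) : C)‖ < 1) :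
    MvPowerSeries σ (R) →+* MvPowerSeries τ (O C) :=
  letI : UniformSpace (R) := ⊥
  haveI : DiscreteUniformity (R) := ⟨rfl⟩
  eval₂Hom (φ := (MvPowerSeries.C).comp (Eval.jO j hj)) continuous_of_discreteTopology
    (hasEval_series P hP)

theorem hasSum_evP [Fintype σ] (P : σ → MvPowerSeries τ (O C))
    (hP : ∀ s, ‖((constantCoeff (P s) : O C) : C)‖ < 1) (f : MvPowerSeries σ (R))
    (e : τ →₀ ℕ) :
    HasSum (fun d : σ →₀ ℕ => Eval.jO j hj (coeff d f) * coeff e (∏ s, P s ^ d s))
      (coeff e (evP j hj P hP f)) := by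
  let : UniformSpace (R) := ⊥
  have : DiscreteUniformity (R) := ⟨rfl⟩
  have h1 := (hasSum_eval₂ (φ := (MvPowerSeries.C).comp (Eval.jO j hj)) continuous_of_discreteTopology
    (hasEval_series P hP) f).map (coeff (R := O C) e).toAddMonoidHom
      (WithPiTopology.continuous_coeff (O C) e)
  simp only [evP, coe_eval₂Hom]
  refine h1.congr_fun fun d => ?_
  simp [Finsupp.prod_fintype, coeff_C_mul]

/-- Evaluating after evaluating is evaluating at the values. -/
theorem evH_evP [Fintype σ] [Fintype τ] (P : σ → MvPowerSeries τ (O C))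
    (hP : ∀ s, ‖((constantCoeff (P s) : O C) : C)‖ < 1) (b : τ → O C) (hb : Small b)
    (hv : ∀ s, ‖((evH b hb (P s) : O C) : C)‖ < 1) (f : MvPowerSeries σ (R)) :
    ((evH b hb (evP j hj P hP f) : O C) : C) =
      Eval.evalHom j hj
        (fun s => ((evH b hb (P s) : O C) : C)) hv f := by
  let : UniformSpace (R) := ⊥
  have : DiscreteUniformity (R) := ⟨rfl⟩
  have h1 := comp_eval₂ (φ := (MvPowerSeries.C).comp (Eval.jO j hj))
    continuous_of_discreteTopology (hasEval_series P hP) (ε := evH b hb) (continuous_evH b hb)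
  have h2 := congrFun h1 f
  simp only [Function.comp_apply] at h2
  simp only [evP, Eval.evalHom, coe_eval₂Hom, RingHom.comp_apply, Subring.coe_subtype]
  refine congrArg Subtype.val (h2.trans ?_)
  have e1 : (evH b hb).comp ((MvPowerSeries.C).comp (Eval.jO j hj)) = Eval.jO j hj :=
    RingHom.ext fun c => by simp
  rw [e1]
  rfl

end generic

/-- Evaluation over the unit ball is evaluation of the series over C. -/
theorem mveval_map_eq_evH {d : ℕ} (b : Fin d → O C) (hb : Small b)
    (φ : MvPowerSeries (Fin d) (O C)) :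
    mveval (RingHom.id C) (φ.map (unitBall C).subtype) (fun i => ((b i : O C) : C)) =
      ((evH b hb φ : O C) : C) := by
  rw [coe_evH]
  simp [mveval, coeff_map]

end Vale.Agent.P217.HB
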