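import Vale.Agent.P217.HTranslate

/-!
P217 block H: a fixed series killing a group has a linear term after root extraction.
-/

noncomputable section

namespace Vale.Agent.P217.HB

open Filter Topology MvPowerSeries
open scoped MvPowerSeries.WithPiTopology

variable {C : Type} [NontriviallyNormedField C] [IsUltrametricDist C] [CompleteSpace C]
  {p h d : ℕ} [Fact p.Prime] [CharP C p] [IsAlgClosed C]

/-- A group of points, closed under the Frobenius power. -/
structure GoodSet (G : FormalGroup (fixSub C p h)) (S : Set (Fin d → C)) : Prop where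
  small : ∀ μ ∈ S, ∀ i, ‖μ i‖ < 1
  zero : (0 : Fin d → C) ∈ S
  add : ∀ μ ∈ S, ∀ ν ∈ S,
    (fun i => mveval (fixSub C p h).subtype G.toPowerSeries ![μ i, ν i]) ∈ S
  neg : ∀ μ ∈ S, ∃ ν ∈ S, ∀ i,
    mveval (fixSub C p h).subtype G.toPowerSeries ![μ i, ν i] = 0
  pow : ∀ μ ∈ S, (fun i => μ i ^ p ^ h) ∈ S

variable {G : FormalGroup (fixSub C p h)} {S : Set (Fin d → C)}

theorem transl_vanishes (hh : 1 ≤ h) (hS : GoodSet G S) {f : MvPowerSeries (Fin d) (fixSub C p h)}
    (hf : Van S f) (μ : Fin d → C) (hμ : μ ∈ S) (ν : Fin d → C) (hν : ν ∈ S) :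
    mveval (RingHom.id C) ((transl hh G μ (hS.small μ hμ) f).map (unitBall C).subtype) ν = 0 := by
  rw [mveval_transl hh G μ ν (hS.small μ hμ) (hS.small ν hν)
    (fun i => hS.small _ (hS.add μ hμ ν hν) i)]
  exact hf _ (hS.add μ hμ ν hν)

omit [IsUltrametricDist C] [CompleteSpace C] [IsAlgClosed C] in
theorem coeff_zero_of_van (hS : GoodSet G S) {f : MvPowerSeries (Fin d) (fixSub C p h)}
    (hf : Van S f) : coeff 0 f = 0 := by
  have h1 := hf 0 hS.zero
  rw [mveval, tsum_eq_single 0] at h1
  · exact Subtype.ext (by simpa using h1)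
  · intro a ha
    obtain ⟨i, hi⟩ : ∃ i, a i ≠ 0 := by
      by_contra hne
      push Not at hne
      exact ha (Finsupp.ext hne)
    rw [Finset.prod_eq_zero (Finset.mem_univ i) (by simp [hi]), mul_zero]

/-- Vanishing is stable under partial derivatives when no vanishing series has a linear term. -/
theorem van_pd (hh : 1 ≤ h) (hS : GoodSet G S)
    (hlow : ∀ f : MvPowerSeries (Fin d) (fixSub C p h), Van S f →
      ∀ a : Fin d →₀ ℕ, ∑ i, a i < 2 → coeff a f = 0)
    {f : MvPowerSeries (Fin d) (fixSub C p h)} (hf : Van S f) (i : Fin d) : Van S (pd i f) := by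
  intro μ hμ
  have h1 := coeff_eq_zero_of_descent S hS.small hS.pow hh 2 hlow _
    (fun ν hν => transl_vanishes hh hS hf μ hμ ν hν) (Finsupp.single i 1)
    (by simp [Finsupp.single_apply])
  have h2 := coeff_single_transl hh G μ (hS.small μ hμ) i f
  rw [h1, Subring.coe_zero] at h2
  refine (mul_eq_zero.1 h2.symm).resolve_right ?_
  exact fun e => coeff_self_shiftVar_ne_zero hh G _ _ i (Subtype.ext (by simpa using e))

omit [IsAlgClosed C] in
theorem van_X_mul (hh : 1 ≤ h) (hS : GoodSet G S) {f : MvPowerSeries (Fin d) (fixSub C p h)}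
    (hf : Van S f) (i : Fin d) : Van S (X i * f) := fun μ hμ => by
  rw [Eval.mveval_mul (norm_fix_le hh) (hS.small μ hμ), hf μ hμ, mul_zero]

omit [IsUltrametricDist C] [CompleteSpace C] [IsAlgClosed C] in
theorem coeff_X_mul_pd (i : Fin d) (f : MvPowerSeries (Fin d) (fixSub C p h))
    (a : Fin d →₀ ℕ) : coeff a (X i * pd i f) = a i • coeff a f := by
  classical
  rw [mul_comm, X_def, coeff_mul_monomial]
  by_cases ha : Finsupp.single i 1 ≤ a
  · rw [if_pos ha, mul_one, coeff_pd, tsub_add_cancel_of_le ha]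
    congr 1
    have := Finsupp.single_le_iff.1 ha
    rw [Finsupp.tsub_apply, Finsupp.single_eq_same]
    omega
  · rw [if_neg ha]
    have : a i = 0 := by
      by_contra hne
      exact ha (Finsupp.single_le_iff.2 (by omega))
    rw [this, zero_nsmul]

theorem exists_euler (hh : 1 ≤ h) (hS : GoodSet G S)
    (hlow : ∀ f : MvPowerSeries (Fin d) (fixSub C p h), Van S f →
      ∀ a : Fin d →₀ ℕ, ∑ i, a i < 2 → coeff a f = 0)
    {f : MvPowerSeries (Fin d) (fixSub C p h)} (hf : Van S f) (i : Fin d) (k : ℕ) :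
    ∃ g, Van S g ∧ ∀ a : Fin d →₀ ℕ,
      coeff a g = ((a i : ℕ) : fixSub C p h) ^ k * coeff a f := by
  induction k with
  | zero => exact ⟨f, hf, fun a => by simp⟩
  | succ k ih =>
    obtain ⟨g, hg, hgc⟩ := ih
    refine ⟨X i * pd i g, van_X_mul hh hS (van_pd hh hS hlow hg i) i, fun a => ?_⟩
    rw [coeff_X_mul_pd, hgc, nsmul_eq_mul, pow_succ]
    ring

theorem exists_pfree (hh : 1 ≤ h) (hS : GoodSet G S)
    (hlow : ∀ f : MvPowerSeries (Fin d) (fixSub C p h), Van S f →
      ∀ a : Fin d →₀ ℕ, ∑ i, a i < 2 → coeff a f = 0)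
    {f : MvPowerSeries (Fin d) (fixSub C p h)} (hf : Van S f) (T : Finset (Fin d)) :
    ∃ g, Van S g ∧ ∀ a : Fin d →₀ ℕ,
      coeff a g = if ∀ i ∈ T, p ∣ a i then coeff a f else 0 := by
  classical
  induction T using Finset.induction_on with
  | empty => exact ⟨f, hf, fun a => by simp⟩
  | insert s T hs ih =>
    obtain ⟨g, hg, hgc⟩ := ih
    obtain ⟨e, he, hec⟩ := exists_euler hh hS hlow hg s (p - 1)
    refine ⟨g - e, fun μ hμ => by
      rw [Eval.mveval_sub (norm_fix_le hh) (hS.small μ hμ), hg μ hμ, he μ hμ, sub_zero],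
      fun a => ?_⟩
    rw [map_sub, hec, hgc]
    have hcast : ((a s : ℕ) : fixSub C p h) ^ (p - 1) = if p ∣ a s then 0 else 1 := by
      apply Subtype.ext
      rw [Subring.coe_pow, Subring.coe_natCast]
      have hp1 : p - 1 ≠ 0 := by
        have := (Fact.out : p.Prime).two_le
        omega
      split_ifs with hd
      · rw [(CharP.cast_eq_zero_iff C p _).2 hd, zero_pow hp1]
        rfl
      · rw [← map_natCast (ZMod.castHom (dvd_refl p) C), ← map_pow,
          ZMod.pow_card_sub_one_eq_one (fun h0 => hd ((ZMod.natCast_eq_zero_iff _ _).1 h0)),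
          map_one]
        rfl
    rw [hcast]
    by_cases hT : ∀ i ∈ T, p ∣ a i
    · by_cases hd : p ∣ a s <;> simp [hT, hd]
    · simp [hT]

/-- Some series killing the group has a linear term. -/
theorem exists_linear (hh : 1 ≤ h) (hS : GoodSet G S)
    (hex : ∃ f : MvPowerSeries (Fin d) (fixSub C p h), f ≠ 0 ∧ Van S f) :
    ∃ (f : MvPowerSeries (Fin d) (fixSub C p h)) (i : Fin d),
      Van S f ∧ coeff (Finsupp.single i 1) f ≠ 0 := by
  classical
  have hP : ∃ e, ∃ (f : MvPowerSeries (Fin d) (fixSub C p h)) (a : Fin d →₀ ℕ),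
      Van S f ∧ coeff a f ≠ 0 ∧ ∑ i, a i = e := by
    obtain ⟨f, hf0, hf⟩ := hex
    obtain ⟨a, ha⟩ : ∃ a, coeff a f ≠ 0 := by
      by_contra hne
      push Not at hne
      exact hf0 (MvPowerSeries.ext fun a => by simpa using hne a)
    exact ⟨_, f, a, hf, ha, rfl⟩
  obtain ⟨f, a, hf, ha, hae⟩ := Nat.find_spec hP
  set e := Nat.find hP with he
  have hmin : ∀ g : MvPowerSeries (Fin d) (fixSub C p h), Van S g → ∀ b : Fin d →₀ ℕ, ∑ i, b i < e → coeff b g = 0 := by
    intro g hg b hb
    by_contra hne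
    exact Nat.find_min hP hb ⟨g, b, hg, hne, rfl⟩
  have he0 : e ≠ 0 := by
    intro h0
    rw [h0, Finset.sum_eq_zero_iff] at hae
    exact ha (by
      rw [show a = 0 from Finsupp.ext fun i => hae i (Finset.mem_univ i)]
      exact coeff_zero_of_van hS hf)
  by_cases he1 : e = 1
  · obtain ⟨i, hi⟩ : ∃ i, a i ≠ 0 := by
      by_contra hne
      push Not at hne
      rw [Finset.sum_eq_zero fun i _ => hne i] at hae
      omega
    refine ⟨f, i, hf, ?_⟩
    have : a = Finsupp.single i 1 := by
      have h1 := Finset.single_le_sum (fun j _ => Nat.zero_le (a j)) (Finset.mem_univ i)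
      have h2 : ∀ j, j ≠ i → a j = 0 := fun j hj => by
        have h3 := Finset.add_sum_erase Finset.univ (fun k => a k) (Finset.mem_univ i)
        have h4 := Finset.single_le_sum (f := fun k => a k) (fun k _ => Nat.zero_le (a k))
          (show j ∈ Finset.univ.erase i by simp [hj])
        omega
      ext j
      by_cases hj : j = i
      · subst hj; rw [Finsupp.single_eq_same]; omega
      · rw [h2 j hj, Finsupp.single_eq_of_ne hj]
    rwa [← this]
  exfalso
  have hlow : ∀ g : MvPowerSeries (Fin d) (fixSub C p h), Van S g → ∀ b : Fin d →₀ ℕ, ∑ i, b i < 2 → coeff b g = 0 :=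
    fun g hg b hb => hmin g hg b (by omega)
  obtain ⟨g, hg, hgc⟩ := exists_pfree hh hS hlow hf Finset.univ
  have hdvd : ∀ i, p ∣ a i := by
    intro i
    rcases Nat.eq_zero_or_pos (a i) with h0 | h0
    · rw [h0]; exact dvd_zero _
    have hle : Finsupp.single i 1 ≤ a := Finsupp.single_le_iff.2 h0
    set b := a - Finsupp.single i 1 with hb
    have hba : b + Finsupp.single i 1 = a := tsub_add_cancel_of_le hle
    have hbe : ∑ j, b j < e := by
      rw [← hae, ← hba]
      simp [Finset.sum_add_distrib, Finsupp.single_apply]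
    have h1 := hmin _ (van_pd hh hS hlow hf i) b hbe
    rw [coeff_pd, hba, nsmul_eq_mul, mul_eq_zero] at h1
    rcases h1 with h1 | h1
    · have h2 : ((b i + 1 : ℕ) : C) = 0 := by
        rw [← Subring.coe_natCast (fixSub C p h), h1]; rfl
      have h3 : (b + Finsupp.single i 1 : Fin d →₀ ℕ) i = a i := by rw [hba]
      rw [Finsupp.add_apply, Finsupp.single_eq_same] at h3
      rw [← h3]
      exact (CharP.cast_eq_zero_iff C p _).1 h2
    · exact absurd h1 ha
  -- the root
  let χ : MvPowerSeries (Fin d) (fixSub C p h) := fun b => coeff (p • b) g ^ p ^ (h - 1)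
  have hχp : ∀ b, ((coeff b χ : fixSub C p h) : C) ^ p = ((coeff (p • b) g : fixSub C p h) : C) := by
    intro b
    show ((coeff (p • b) g ^ p ^ (h - 1) : fixSub C p h) : C) ^ p = _
    rw [Subring.coe_pow, ← pow_mul, ← pow_succ, Nat.sub_add_cancel hh]
    exact mem_fixSub.1 (coeff (p • b) g).2
  have hχ : Van S χ := by
    intro μ hμ
    have h1 := (Eval.hasSum_mveval (norm_fix_le hh) (hS.small μ hμ) χ).map (frobenius C p)
      (continuous_pow p)
    have h2 := Eval.hasSum_mveval (norm_fix_le hh) (hS.small μ hμ) g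
    have hinj : Function.Injective (fun b : Fin d →₀ ℕ => p • b) := fun b c hbc => by
      ext j
      have := DFunLike.congr_fun hbc j
      simpa [(Fact.out : p.Prime).ne_zero] using this
    rw [← hinj.hasSum_iff] at h2
    · have h3 : mveval (fixSub C p h).subtype χ μ ^ p = mveval (fixSub C p h).subtype g μ := by
        refine (h1.unique (h2.congr_fun fun b => ?_))
        simp only [Function.comp_apply, frobenius_def, mul_pow, Subring.coe_subtype, hχp,
          ← Finset.prod_pow, ← pow_mul]
        congr 1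
        exact Finset.prod_congr rfl fun j _ => by
          rw [Finsupp.smul_apply, smul_eq_mul, mul_comm]
      rw [hg μ hμ] at h3
      exact pow_eq_zero_iff (Fact.out : p.Prime).ne_zero |>.1 h3
    · intro c hc
      have : ¬ ∀ i ∈ Finset.univ, p ∣ c i := by
        intro hall
        choose q hq using fun i => hall i (Finset.mem_univ i)
        exact hc ⟨Finsupp.equivFunOnFinite.symm q, Finsupp.ext fun i => by simp [hq i]⟩
      rw [hgc, if_neg this, map_zero, zero_mul]
  choose q hq using hdvd
  let b : Fin d →₀ ℕ := Finsupp.equivFunOnFinite.symm q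
  have hpb : p • b = a := Finsupp.ext fun i => by simp [b, hq i]
  have hbdeg : ∑ i, b i < e := by
    have h1 : p * ∑ i, b i = e := by
      rw [← hae, Finset.mul_sum]
      exact Finset.sum_congr rfl fun i _ => by simp [b, hq i]
    have h2 := (Fact.out : p.Prime).two_le
    nlinarith [Nat.pos_of_ne_zero he0]
  have h1 := congrArg (fun x : fixSub C p h => (x : C) ^ p) (hmin χ hχ b hbdeg)
  simp only [hχp, hpb, Subring.coe_zero, zero_pow (Fact.out : p.Prime).ne_zero] at h1
  rw [hgc, if_pos (fun i _ => ⟨q i, hq i⟩)] at h1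
  exact ha (Subtype.ext h1)

end Vale.Agent.P217.HB
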