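import Vale.Agent.P217.HBase

/-!
P217 block H: translating a fixed series by a point of the group.
-/

noncomputable section

namespace Vale.Agent.P217.HB

open Filter Topology MvPowerSeries
open scoped MvPowerSeries.WithPiTopology

variable {C : Type} [NontriviallyNormedField C] [IsUltrametricDist C] [CompleteSpace C]
  {p h d : ℕ} [Fact p.Prime] [CharP C p] [IsAlgClosed C] (hh : 1 ≤ h)
  (G : FormalGroup (fixSub C p h))

/-- A family of coefficient series vanishing on `S`. -/
def Van (S : Set (Fin d → C)) (f : MvPowerSeries (Fin d) (fixSub C p h)) : Prop :=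
  ∀ μ ∈ S, mveval (fixSub C p h).subtype f μ = 0

omit [IsUltrametricDist C] [CompleteSpace C] [IsAlgClosed C] in
theorem mveval_map_subtype (f : MvPowerSeries (Fin d) (fixSub C p h)) (μ : Fin d → C) :
    mveval (RingHom.id C) (f.map (fixSub C p h).subtype) μ = mveval (fixSub C p h).subtype f μ := by
  simp [mveval, coeff_map]

omit [IsUltrametricDist C] [CompleteSpace C] [IsAlgClosed C] in
theorem exists_lift (f : MvPowerSeries (Fin d) C) (hf : FixedSeries (p ^ h) f) :
    ∃ g : MvPowerSeries (Fin d) (fixSub C p h), g.map (fixSub C p h).subtype = f :=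
  ⟨fun a => ⟨coeff a f, mem_fixSub.2 (hf a)⟩, MvPowerSeries.ext fun a => rfl⟩

/-- Series with small orbit values below a degree where no vanishing series lives vanish there. -/
theorem coeff_eq_zero_of_descent (S : Set (Fin d → C)) (hS : ∀ μ ∈ S, ∀ i, ‖μ i‖ < 1)
    (hpow : ∀ μ ∈ S, (fun i => μ i ^ p ^ h) ∈ S) (hh' : 1 ≤ h) (e : ℕ)
    (hlow : ∀ f : MvPowerSeries (Fin d) (fixSub C p h), Van S f →
      ∀ a : Fin d →₀ ℕ, ∑ i, a i < e → coeff a f = 0)
    (θ : MvPowerSeries (Fin d) (O C))
    (hθ : ∀ μ ∈ S, mveval (RingHom.id C) (θ.map (unitBall C).subtype) μ = 0)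
    (a : Fin d →₀ ℕ) (ha : ∑ i, a i < e) : coeff a θ = 0 := by
  classical
  have hiter : ∀ l, ∀ μ ∈ S, (fun i => μ i ^ (p ^ h) ^ l) ∈ S := by
    intro l
    induction l with
    | zero => intro μ hμ; simpa using hμ
    | succ l ih =>
      intro μ hμ
      have h1 := hpow _ (ih μ hμ)
      simpa [pow_succ, pow_mul] using h1
  have h1 := descent_trunc hh' S hS (θ.map (unitBall C).subtype) (fun μ hμ =>
    descent_estimate_of_vanishing hh' _ (fun b => by rw [coeff_map]; exact (coeff b θ).2) μ
      (hS μ hμ) (fun l => hθ _ (hiter l μ hμ))) e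
  have hz : ∀ v ∈ Submodule.span C
      ((fun f : MvPowerSeries (Fin d) C => fun b : Descent.box d e => coeff b.1 f) ''
        {f | FixedSeries (p ^ h) f ∧ ∀ μ ∈ S, mveval (RingHom.id C) f μ = 0}), v = 0 := by
    intro v hv
    induction hv using Submodule.span_induction with
    | mem x hx =>
      obtain ⟨f, ⟨hf1, hf2⟩, rfl⟩ := hx
      obtain ⟨g, rfl⟩ := exists_lift f hf1
      funext b
      have h3 := hlow g (fun μ hμ => by rw [← mveval_map_subtype]; exact hf2 μ hμ) b.1
        (Descent.mem_box.1 b.2)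
      simp [coeff_map, h3]
    | zero => rfl
    | add x y _ _ hx hy => rw [hx, hy, add_zero]
    | smul c x _ hx => rw [hx, smul_zero]
  have h3 := congrFun (hz _ h1) ⟨a, Descent.mem_box.2 ha⟩
  exact Subtype.ext (by simpa [coeff_map] using h3)

/-- A point as a family in the unit ball. -/
abbrev pt (μ : Fin d → C) (hμ : ∀ i, ‖μ i‖ < 1) : Fin d → O C := Eval.ptO μ hμ

omit [CompleteSpace C] in
theorem small_pt (μ : Fin d → C) (hμ : ∀ i, ‖μ i‖ < 1) : Small (pt μ hμ) := hμ

/-- An element of the open disc in the unit ball. -/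
abbrev toO (x : C) (hx : ‖x‖ < 1) : O C := ⟨x, hx.le⟩

/-- The translated variable `a +_G Y`. -/
def shiftVar (x : C) (hx : ‖x‖ < 1) (i : Fin d) : MvPowerSeries (Fin d) (O C) :=
  evP (fixSub C p h).subtype (norm_fix_le hh)
    ![MvPowerSeries.C (toO x hx), MvPowerSeries.X i]
    (fun s => by fin_cases s <;> simp [hx]) G.toPowerSeries

theorem hasSum_coeff_shiftVar (x : C) (ha : ‖x‖ < 1) (i : Fin d) (e : Fin d →₀ ℕ) :
    HasSum (fun m : Fin 2 →₀ ℕ =>
      if e = Finsupp.single i (m 1) then
        Eval.jO (fixSub C p h).subtype (norm_fix_le hh) (coeff m G.toPowerSeries) * toO x ha ^ m 0 else 0)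
      (coeff e (shiftVar hh G x ha i)) := by
  classical
  refine (hasSum_evP _ _ _ _ G.toPowerSeries e).congr_fun fun m => ?_
  rw [Fin.prod_univ_two]
  simp only [Matrix.cons_val_zero, Matrix.cons_val_one, Matrix.cons_val_fin_one]
  rw [← map_pow, coeff_C_mul, coeff_X_pow]
  split_ifs <;> simp

omit [IsUltrametricDist C] [CompleteSpace C] [IsAlgClosed C] in
theorem coeff_Xzero (k : ℕ) :
    coeff (Finsupp.single 0 k) G.toPowerSeries = if k = 1 then 1 else 0 := by
  classical
  have h1 := congrArg (PowerSeries.coeff k) G.Xzero_eq_X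
  rw [PowerSeries.coeff_X] at h1
  have hz : HasSubst ![(PowerSeries.X : PowerSeries (fixSub C p h)), 0] := HasSubst.X_zero
  rw [← h1, PowerSeries.coeff, FormalGroup.Xzero, coeff_subst hz,
    finsum_eq_single _ (Finsupp.single 0 k)]
  · simp [PowerSeries.coeff_X_pow]
  · intro m hm
    by_cases h1 : m 1 = 0
    · have : m 0 ≠ k := fun e => hm (Finsupp.ext fun s => by fin_cases s <;> simp [e, h1])
      simp [h1, PowerSeries.X, coeff_X_pow, Finsupp.single_eq_single_iff, this]
      intro e; exact absurd e.symm this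
    · simp [h1]

theorem constantCoeff_shiftVar (x : C) (ha : ‖x‖ < 1) (i : Fin d) :
    constantCoeff (shiftVar hh G x ha i) = toO x ha := by
  classical
  let a : O C := toO x ha
  show _ = a
  rw [← coeff_zero_eq_constantCoeff_apply]
  refine (hasSum_coeff_shiftVar hh G x ha i 0).unique ?_
  have h1 : (Eval.jO (fixSub C p h).subtype (norm_fix_le hh)
      (coeff (Finsupp.single 0 1) G.toPowerSeries) : O C) * a ^ 1 = a := by
    rw [G.lin_coeff_X, map_one, one_mul, pow_one]
  refine (hasSum_ite_eq (Finsupp.single (0 : Fin 2) 1) a).congr_fun fun m => ?_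
  by_cases hm : m 1 = 0
  · have hm' : m = Finsupp.single 0 (m 0) :=
      Finsupp.ext fun s => by fin_cases s <;> simp [hm]
    rw [hm, Finsupp.single_zero, if_pos rfl]
    by_cases h0 : m 0 = 1
    · rw [h0] at hm'
      rw [if_pos hm', h0, hm', h1]
    · rw [if_neg (fun e => h0 (by rw [e]; simp))]
      conv_lhs => rw [hm']
      rw [coeff_Xzero, if_neg h0, map_zero, zero_mul]
  · rw [if_neg (fun e => hm (by simpa using e.symm)),
      if_neg (fun e => hm (by rw [e]; simp))]

theorem coeff_single_shiftVar (x : C) (ha : ‖x‖ < 1) (i s : Fin d) (hs : s ≠ i) :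
    coeff (Finsupp.single s 1) (shiftVar hh G x ha i) = 0 := by
  refine (hasSum_coeff_shiftVar hh G x ha i _).unique (hasSum_zero.congr_fun fun m => ?_)
  rw [if_neg]
  intro e
  have := DFunLike.congr_fun e s
  simp [Finsupp.single_eq_of_ne hs] at this

theorem coeff_self_shiftVar_ne_zero (x : C) (ha : ‖x‖ < 1) (i : Fin d) :
    coeff (Finsupp.single i 1) (shiftVar hh G x ha i) ≠ 0 := by
  classical
  let a : O C := toO x ha
  have h1 := (hasSum_coeff_shiftVar hh G x ha i (Finsupp.single i 1)).map (unitBall C).subtype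
    continuous_subtype_val
  have h2 := h1.update (Finsupp.single (1 : Fin 2) 1) 0
  intro hzero
  rw [hzero, map_zero] at h2
  have h3 : (0 : C) - (unitBall C).subtype (if Finsupp.single i 1 =
      Finsupp.single i ((Finsupp.single (1 : Fin 2) 1) 1) then
        Eval.jO (fixSub C p h).subtype (norm_fix_le hh) (coeff (Finsupp.single (1 : Fin 2) 1) G.toPowerSeries) *
          a ^ (Finsupp.single (1 : Fin 2) 1) 0 else 0) = -1 := by
    simp [G.lin_coeff_Y]
  simp only [Function.comp_apply] at h2
  rw [h3, add_zero] at h2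
  have h4 : ‖(-1 : C)‖ ≤ ‖(a : C)‖ := by
    rw [← h2.tsum_eq]
    refine IsUltrametricDist.norm_tsum_le_of_forall_le_of_nonneg (norm_nonneg _) fun m => ?_
    by_cases hm : m = Finsupp.single (1 : Fin 2) 1
    · subst hm; simp
    · rw [Function.update_of_ne hm, Function.comp_apply]
      split_ifs with he
      · have hm1 : m 1 = 1 := by
          have := DFunLike.congr_fun he i
          simpa using this.symm
        have hm0 : m 0 ≠ 0 := fun e => hm (Finsupp.ext fun s => by fin_cases s <;> simp [e, hm1])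
        rw [map_mul, map_pow, norm_mul, norm_pow]
        calc _ ≤ 1 * ‖(a : C)‖ ^ m 0 := mul_le_mul_of_nonneg_right
              (Eval.norm_coe_le _) (pow_nonneg (norm_nonneg _) _)
          _ ≤ ‖(a : C)‖ := by
              rw [one_mul]; exact pow_le_of_le_one (norm_nonneg _) ha.le hm0
      · simp
  rw [norm_neg, norm_one] at h4
  linarith

/-- Translation of a fixed series by the point `μ`. -/
def transl (μ : Fin d → C) (hμ : ∀ i, ‖μ i‖ < 1) :
    MvPowerSeries (Fin d) (fixSub C p h) →+* MvPowerSeries (Fin d) (O C) :=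
  evP (fixSub C p h).subtype (norm_fix_le hh) (fun i => shiftVar hh G (μ i) (hμ i) i)
    (fun i => by rw [constantCoeff_shiftVar]; exact hμ i)

theorem evH_shiftVar (μ ν : Fin d → C) (hμ : ∀ i, ‖μ i‖ < 1) (hν : ∀ i, ‖ν i‖ < 1) (i : Fin d) :
    ((evH (pt ν hν) (small_pt ν hν) (shiftVar hh G (μ i) (hμ i) i) : O C) : C) =
      mveval (fixSub C p h).subtype G.toPowerSeries ![μ i, ν i] := by
  have hsmall : ∀ s, ‖(![μ i, ν i] : Fin 2 → C) s‖ < 1 := fun s => by
    fin_cases s <;> simp [hμ i, hν i]
  have hval : ∀ s, ((evH (pt ν hν) (small_pt ν hν)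
      ((![MvPowerSeries.C (toO (μ i) (hμ i)), MvPowerSeries.X i] :
        Fin 2 → MvPowerSeries (Fin d) (O C)) s) : O C) : C) = (![μ i, ν i] : Fin 2 → C) s := by
    intro s; fin_cases s <;> simp [Eval.ptO]
  simp only [shiftVar]
  rw [evH_evP _ _ _ _ _ _ (fun s => by rw [hval]; exact hsmall s),
    Eval.mveval_eq_evalHom (norm_fix_le hh) hsmall]
  exact DFunLike.congr_fun (Eval.evalHom_congr _ _ _ _ hval) _

theorem mveval_transl (μ ν : Fin d → C) (hμ : ∀ i, ‖μ i‖ < 1) (hν : ∀ i, ‖ν i‖ < 1)
    (hsum : ∀ i, ‖mveval (fixSub C p h).subtype G.toPowerSeries ![μ i, ν i]‖ < 1)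
    (f : MvPowerSeries (Fin d) (fixSub C p h)) :
    mveval (RingHom.id C) ((transl hh G μ hμ f).map (unitBall C).subtype) ν =
      mveval (fixSub C p h).subtype f
        (fun i => mveval (fixSub C p h).subtype G.toPowerSeries ![μ i, ν i]) := by
  have e : ν = fun i => ((pt ν hν i : O C) : C) := rfl
  conv_lhs => rw [e]
  rw [mveval_map_eq_evH (pt ν hν) (small_pt ν hν), transl,
    evH_evP _ _ _ _ _ _ (fun i => by rw [evH_shiftVar]; exact hsum i),
    Eval.mveval_eq_evalHom (norm_fix_le hh) hsum]
  exact DFunLike.congr_fun (Eval.evalHom_congr _ _ _ _ fun i => evH_shiftVar hh G μ ν hμ hν i) _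

/-- Formal partial derivative. -/
def pd {R : Type} [CommRing R] (i : Fin d) (f : MvPowerSeries (Fin d) R) :
    MvPowerSeries (Fin d) R := fun a => (a i + 1) • coeff (a + Finsupp.single i 1) f

theorem coeff_pd {R : Type} [CommRing R] (i : Fin d) (f : MvPowerSeries (Fin d) R)
    (a : Fin d →₀ ℕ) : coeff a (pd i f) = (a i + 1) • coeff (a + Finsupp.single i 1) f := rfl

theorem coeff_single_mul {R : Type} [CommRing R] (i : Fin d) (f g : MvPowerSeries (Fin d) R) :
    coeff (Finsupp.single i 1) (f * g) =
      constantCoeff f * coeff (Finsupp.single i 1) g +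
        coeff (Finsupp.single i 1) f * constantCoeff g := by
  classical
  rw [coeff_mul]
  have he : Finset.HasAntidiagonal.antidiagonal (Finsupp.single i 1) =
      {((0 : Fin d →₀ ℕ), Finsupp.single i 1), (Finsupp.single i 1, 0)} := by
    rw [Finsupp.antidiagonal_single,
      show (Finset.HasAntidiagonal.antidiagonal 1 : Finset (ℕ × ℕ)) = {(0, 1), (1, 0)} from rfl]
    simp
  rw [he, Finset.sum_pair (by simp)]
  simp

theorem coeff_single_pow {R : Type} [CommRing R] (i : Fin d) (f : MvPowerSeries (Fin d) R) (k : ℕ) :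
    coeff (Finsupp.single i 1) (f ^ k) =
      k • (constantCoeff f ^ (k - 1) * coeff (Finsupp.single i 1) f) := by
  classical
  induction k with
  | zero => simp [coeff_one]
  | succ k ih =>
    rw [pow_succ, coeff_single_mul, ih, map_pow]
    rcases Nat.eq_zero_or_pos k with rfl | hk
    · simp
    · simp only [nsmul_eq_mul, Nat.cast_add, Nat.cast_one, add_tsub_cancel_right]
      rw [show constantCoeff f ^ k = constantCoeff f ^ (k - 1) * constantCoeff f by
        rw [← pow_succ, Nat.sub_add_cancel hk]]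
      ring

/-- The linear coefficients of a translate. -/
theorem coeff_single_transl (μ : Fin d → C) (hμ : ∀ i, ‖μ i‖ < 1) (i : Fin d)
    (f : MvPowerSeries (Fin d) (fixSub C p h)) :
    ((coeff (Finsupp.single i 1) (transl hh G μ hμ f) : O C) : C) =
      mveval (fixSub C p h).subtype (pd i f) μ *
        ((coeff (Finsupp.single i 1) (shiftVar hh G (μ i) (hμ i) i) : O C) : C) := by
  classical
  set P : Fin d → MvPowerSeries (Fin d) (O C) :=
    fun s => shiftVar hh G (μ s) (hμ s) s with hP
  have hP0 : ∀ s, constantCoeff (P s) = toO (μ s) (hμ s) := fun s => constantCoeff_shiftVar hh G _ _ _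
  have hprod : ∀ a : Fin d →₀ ℕ, coeff (Finsupp.single i 1) (∏ s, P s ^ a s) =
      (∏ s ∈ Finset.univ.erase i, toO (μ s) (hμ s) ^ a s) *
        (a i • (toO (μ i) (hμ i) ^ (a i - 1) * coeff (Finsupp.single i 1) (P i))) := by
    intro a
    rw [← Finset.prod_erase_mul _ _ (Finset.mem_univ i), coeff_single_mul, coeff_single_pow,
      hP0, map_prod]
    have hrest : ∀ T : Finset (Fin d), i ∉ T →
        coeff (Finsupp.single i 1) (∏ s ∈ T, P s ^ a s) = 0 := by
      intro T
      induction T using Finset.induction_on with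
      | empty => simp [coeff_one]
      | insert s T hs ih =>
        intro hi
        simp only [Finset.mem_insert, not_or] at hi
        rw [Finset.prod_insert hs, coeff_single_mul, ih hi.2, coeff_single_pow, hP,
          coeff_single_shiftVar hh G _ _ _ _ hi.1]
        simp
    rw [hrest _ (Finset.notMem_erase i _), zero_mul, add_zero]
    congr 1
    exact Finset.prod_congr rfl fun s _ => by rw [map_pow, hP0]
  have h1 := (hasSum_evP _ (norm_fix_le hh) P
    (fun s => by rw [hP0]; exact hμ s) f (Finsupp.single i 1)).map (unitBall C).subtype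
      continuous_subtype_val
  have hinj : Function.Injective (fun a : Fin d →₀ ℕ => a + Finsupp.single i 1) :=
    fun a b hab => add_right_cancel hab
  rw [show ((coeff (Finsupp.single i 1) (transl hh G μ hμ f) : O C) : C) =
    (unitBall C).subtype (coeff (Finsupp.single i 1) (evP _ (norm_fix_le hh) P
      (fun s => by rw [hP0]; exact hμ s) f)) from rfl]
  rw [← hinj.hasSum_iff] at h1
  · rw [← h1.tsum_eq]
    have h2 := (Eval.hasSum_mveval (norm_fix_le hh) hμ (pd i f)).mul_right
      ((coeff (Finsupp.single i 1) (P i) : O C) : C)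
    rw [← h2.tsum_eq]
    refine tsum_congr fun a => ?_
    have hprodμ : ∏ s, μ s ^ a s =
        (∏ s ∈ Finset.univ.erase i, μ s ^ a s) * μ i ^ a i :=
      (Finset.prod_erase_mul _ _ (Finset.mem_univ i)).symm
    simp only [Function.comp_apply, hprod, map_mul, coeff_pd, map_nsmul, map_prod, map_pow]
    have hone : (a + Finsupp.single i 1 : Fin d →₀ ℕ) i = a i + 1 := by simp
    have hne : ∀ s ∈ Finset.univ.erase i, (a + Finsupp.single i 1 : Fin d →₀ ℕ) s = a s := fun s hs => by
      simp [Finsupp.single_eq_of_ne (Finset.ne_of_mem_erase hs)]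
    rw [Finset.prod_congr rfl (fun s hs => by rw [hne s hs]), hone, hprodμ]
    simp only [add_tsub_cancel_right, nsmul_eq_mul, Subring.coe_subtype]
    push_cast
    have hjo : ∀ x : fixSub C p h,
        ((Eval.jO (fixSub C p h).subtype (norm_fix_le hh) x : O C) : C) = (x : C) := fun x => rfl
    simp only [hjo]
    ring
  · intro a ha
    have hai : a i = 0 := by
      by_contra hne
      refine ha ⟨a - Finsupp.single i 1, ?_⟩
      exact tsub_add_cancel_of_le (Finsupp.single_le_iff.2 (by omega))
    simp [Function.comp_apply, hprod, hai]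

end Vale.Agent.P217.HB
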