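import Vale.Agent.P217.Assembly
import Vale.Agent.P217.A.Height
import Vale.Agent.P217.BlockC
import Vale.Agent.P217.D.Field
import Vale.Agent.P217.I.Main
import Vale.Agent.P217.B.Block
import Vale.Agent.P217.BlockH
import Vale.Agent.P217.J.Main

/-!
# P217: assembly
-/

namespace Vale.Agent.P217

/-- Question 1 from the last block. -/
theorem chai_of_rest (hEF : BlockEF) : ChaiStatement :=
  chai_of_blocks blockA blockC blockD hEF blockH blockI (blockJ blockB blockC0)

end Vale.Agent.P217
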